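import Crest.Agent.N255.Ma.Geo

/-!
# Row 255 (helper18): Massey labels on the model of a vertex region from labels on the chambers
-/

set_option autoImplicit false
open Set

noncomputable section

namespace Crest.Agent.N255.En
open Tp Nv Pt Lv Ma

variable {v : F3} {t : Fin 3 → Bool}

theorem st_mem (i : Fin 3) : st v t i ∈ stJ v t := mem_stJ.2 ⟨i, rfl⟩


theorem forall_stJ {p : Ed (Fin 3) → Prop} : (∀ e ∈ stJ v t, p e) ↔ ∀ i, p (st v t i) :=
  ⟨fun h i => h _ (st_mem i), fun h e he => by obtain ⟨i, rfl⟩ := mem_stJ.1 he; exact h i⟩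


theorem out_one {e : Ed (Fin 3)} (h : Out v 1 e) : ∃ k, Bey ⟨v, k⟩ e := by
  obtain ⟨k, hk⟩ := d_down (r := e.v) (u := v) (n := 0) (by rw [d_comm]; exact h.1)
  have q : e.v = hd ⟨v, k⟩ := d_eq_zero.1 hk
  refine ⟨k, bey_next q fun r => h.2 ?_⟩
  rw [r, hs_rev]
  exact not_hs_v ⟨v, k⟩

section
variable {ι S : Type} [DecidableEq ι] [MulAction (FreeGroup ι) S] (w : Wl ι S)

theorem Wl.T_nB {e : Ed ι} {a : S} (h : a ∈ w.T e) : a ∉ w.B (rev e) := w.TB _ _ (w.T_rev e ▸ h)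

theorem Wl.bey_B {e e' : Ed ι} (h : Bey e e') {a : S} (k : a ∉ w.B (rev e')) : a ∈ w.B e :=
  w.bey _ _ h ((w.tri e' a).imp_right fun q => q.resolve_right k)

theorem Wl.nB_of_cl {e : Ed ι} {a b : S} (h : a ∈ w.B e) (c : Cl w.Γ a b) : b ∉ w.B (rev e) :=
  fun k => w.BB e a b h k c

theorem Wl.mem_T {e : Ed ι} {a : S} (h : a ∉ w.B e) (k : a ∉ w.B (rev e)) : a ∈ w.T e :=
  (w.tri e a).resolve_right fun q => q.elim h k

theorem Wl.nB_of_bey {e e' : Ed ι} (h : Bey (rev e) e') {a : S} (k : a ∉ w.B (rev e')) :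
    a ∉ w.B e := fun q => w.BB e a a q (w.bey_B h k) (Cl.rfl a)

end

variable {S : Type} [MulAction (F3) S] {w : Wl (Fin 3) S}

theorem Wl.mem_Mod3 {a : S} : a ∈ w.Mod (stJ v t) ↔ ∀ i, a ∉ w.B (st v t i) :=
  forall_stJ (p := fun e => a ∉ w.B e)

theorem Wl.T_Mod3 (j : Fin 3) : w.T (st v t j) ⊆ w.Mod (stJ v t) := fun a h =>
  Wl.mem_Mod3.2 fun i => by
    by_cases k : i = j
    · exact k ▸ w.TB _ _ h
    · exact w.nB_of_bey (st_bey v t k) (w.T_nB h)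

/-- the meridian classes on the walls of a vertex region -/
theorem Md.mer_wall (M : Md w) (i j : Fin 3) {a b : S} (ha : a ∈ w.T (st v t j))
    (hb : b ∈ w.T (st v t j)) :
    M.mer (st v t i) a b = if i = j then M.mer (st v t j) a b else 0 := by
  split_ifs with k
  · rw [k]
  · exact M.mer_zero _ _ _ _ (st_bey v t k) (w.T_nB ha) (w.T_nB hb)

/-- the chamber of the vertex `v` -/
def Wl.Cm (w : Wl (Fin 3) S) (v : F3) : Set S := {a | ∀ k, a ∉ w.B ⟨v, k⟩}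

/-- Massey labels on the chambers -/
structure Mc (M : Md w) where
  y : F3 → Fin 3 × Bool → Fin 3 × Bool → S → S → ℤ
  cc : F3 → Fin 3 × Bool → Fin 3 × Bool → Fin 3 × Bool → ℤ
  ε : F3 → (Fin 3 → Bool) → ℤˣ
  cc_eq : ∀ v t i k j, cc v (i, t i) (k, t k) (j, t j) = Cs.lc3 i k j * (ε v t : ℤ)
  coc : ∀ v i j a b c, a ∈ w.Cm v → b ∈ w.Cm v → c ∈ w.Cm v →
    Cl w.Γ a b → Cl w.Γ b c → Cl w.Γ a c →
      y v i j a c = y v i j a b + y v i j b c + M.mer ⟨v, i⟩ a b * M.mer ⟨v, j⟩ b c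
  wall : ∀ v j i k a b, a ∈ w.T ⟨v, j⟩ → b ∈ w.T ⟨v, j⟩ → Cl w.Γ a b → y v i k a b =
    (if i = j ∧ k = j then M.mer ⟨v, j⟩ a b * (M.mer ⟨v, j⟩ a b - 1) / 2 else 0) +
      cc v i k j * M.mer (rev ⟨v, j⟩) a b

namespace Mc
variable {M : Md w} (Y : Mc M)

/-- the unused half edges -/
abbrev un (v : F3) (t : Fin 3 → Bool) (i : Fin 3) : Ed (Fin 3) := ⟨v, (i, !t i)⟩

theorem ne_un (i j : Fin 3) : ((i, t i) : Fin 3 × Bool) ≠ (j, !t j) := fun h => by
  obtain ⟨rfl, k⟩ := Prod.ext_iff.1 h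
  simp at k

open Classical in
/-- extension over the three unused half trees -/
def ye (v : F3) (t : Fin 3 → Bool) (i k : Fin 3) (a b : S) : ℤ :=
  if h : ∃ j, a ∉ w.B (rev (un v t j)) ∧ b ∉ w.B (rev (un v t j)) then
    Y.cc v (i, t i) (k, t k) (h.choose, !t h.choose) * M.mer (rev (un v t h.choose)) a b
  else if a ∈ w.Cm v then Y.y v (i, t i) (k, t k) a b else 0

theorem ye_un (i k j : Fin 3) {a b : S} (ha : a ∉ w.B (rev (un v t j)))
    (hb : b ∉ w.B (rev (un v t j))) :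
    Y.ye v t i k a b = Y.cc v (i, t i) (k, t k) (j, !t j) * M.mer (rev (un v t j)) a b := by
  have h : ∃ j, a ∉ w.B (rev (un v t j)) ∧ b ∉ w.B (rev (un v t j)) := ⟨j, ha, hb⟩
  have e : h.choose = j := by_contra fun n =>
    h.choose_spec.1 (w.bey_B (bey_same (e := un v t h.choose) (e' := un v t j) rfl
      fun q => n (congrArg (fun e : Ed (Fin 3) => e.k.1) q).symm) ha)
  rw [ye, dif_pos h, e]

theorem ye_cm (i k : Fin 3) {a b : S} (ha : a ∈ w.Cm v) (hb : b ∈ w.Cm v) (c : Cl w.Γ a b) :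
    Y.ye v t i k a b = Y.y v (i, t i) (k, t k) a b := by
  by_cases h : ∃ j, a ∉ w.B (rev (un v t j)) ∧ b ∉ w.B (rev (un v t j))
  · obtain ⟨j, h1, h2⟩ := h
    rw [Y.ye_un i k j h1 h2, Y.wall v (j, !t j) _ _ a b (w.mem_T (ha _) h1) (w.mem_T (hb _) h2) c,
      if_neg fun q => ne_un _ _ q.1, zero_add]
  · rw [ye, dif_neg h, if_pos ha]

theorem cm_or {a : S} (h : a ∈ w.Mod (stJ v t)) : a ∈ w.Cm v ∨ ∃ j, a ∈ w.B (un v t j) := by
  refine or_iff_not_imp_right.2 fun n ⟨j, b⟩ q => ?_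
  by_cases k : b = t j
  · subst k; exact Wl.mem_Mod3.1 h j q
  · obtain rfl := Bool.eq_not_of_ne k; exact n ⟨j, q⟩

theorem T_cm {j : Fin 3 × Bool} {a : S} (h : a ∈ w.T ⟨v, j⟩) : a ∈ w.Cm v := fun k => by
  by_cases q : k = j
  · exact q ▸ w.TB _ _ h
  · exact w.nB_of_bey (bey_same (e := ⟨v, k⟩) (e' := ⟨v, j⟩) rfl
      fun r => q (congrArg L.k r).symm) (w.T_nB h)

/-- Massey labels from the chambers -/
def gm : Gm w M where
  y := Y.ye
  ε := Y.ε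
  y_add v t i k a b c ha hb hc ab bc ac := by
    have key : ∀ j, a ∉ w.B (rev (un v t j)) → b ∉ w.B (rev (un v t j)) →
        c ∉ w.B (rev (un v t j)) → Y.ye v t i k a c = Y.ye v t i k a b + Y.ye v t i k b c +
          M.mer (st v t i) a b * M.mer (st v t k) b c := fun j h1 h2 h3 => by
      rw [Y.ye_un i k j h1 h2, Y.ye_un i k j h1 h3, Y.ye_un i k j h2 h3,
        M.mer_add _ a b c h1 h2 h3 ab bc ac, M.mer_zero (st v t i) (un v t j) a b
          (bey_same rfl fun q => ne_un _ _ (congrArg L.k q).symm) h1 h2]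
      ring
    rcases cm_or ha with h1 | ⟨j, h⟩
    swap
    · exact key j (w.nB_of_cl h (Cl.rfl a)) (w.nB_of_cl h ab) (w.nB_of_cl h ac)
    rcases cm_or hb with h2 | ⟨j, h⟩
    swap
    · exact key j (w.nB_of_cl h ab.symm) (w.nB_of_cl h (Cl.rfl b)) (w.nB_of_cl h bc)
    rcases cm_or hc with h3 | ⟨j, h⟩
    swap
    · exact key j (w.nB_of_cl h ac.symm) (w.nB_of_cl h bc.symm) (w.nB_of_cl h (Cl.rfl c))
    rw [Y.ye_cm i k h1 h2 ab, Y.ye_cm i k h2 h3 bc, Y.ye_cm i k h1 h3 ac]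
    exact Y.coc v _ _ a b c h1 h2 h3 ab bc ac
  y_wall v t i k j a b ha hb c := by
    rw [Y.ye_cm i k (T_cm ha) (T_cm hb) c, Y.wall v (j, t j) _ _ a b ha hb c, Y.cc_eq]
    refine congrArg (· + _) (if_congr ?_ rfl rfl)
    exact and_congr ⟨fun q => (Prod.ext_iff.1 q).1, fun q => q ▸ rfl⟩
      ⟨fun q => (Prod.ext_iff.1 q).1, fun q => q ▸ rfl⟩
  y_zero v t i k e a b he ha hb _ := by
    obtain ⟨l, hl⟩ := out_one he
    by_cases h : ∃ j, a ∉ w.B (rev (un v t j)) ∧ b ∉ w.B (rev (un v t j))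
    · obtain ⟨j, h1, h2⟩ := h
      obtain rfl : l = (j, !t j) := by_contra fun n => h1 (w.bey_B (bey_same (e := un v t j)
        (e' := ⟨v, l⟩) rfl fun q => n (congrArg L.k q)) (w.nB_of_cl (w.bey_B hl ha) (Cl.rfl a)))
      rw [Y.ye_un i k j h1 h2, M.mer_zero _ e a b (by rwa [rev_rev]) ha hb, mul_zero]
    · rw [ye, dif_neg h, if_neg fun q => q l (w.bey_B hl ha)]

end Mc

end Crest.Agent.N255.En

end
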