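import Crest.Agent.N255.En.MdA
import Crest.Agent.N255.En.Wl
import Crest.Agent.N255.Md.Da
import Crest.Agent.N255.En.My

-- ▼ part N255/En/Md
section

/-!
# Row 255 (helper12): the model facts `Md` for the concrete graph
-/

set_option autoImplicit false

noncomputable section

namespace Crest.Agent.N255.En
open Tp Nv Pt Lv Da

open Classical in
/-- the meridian classes, cut off outside the cliques -/
def mr (e : Ed (Fin 3)) (a b : St (Fin 3) (Fin 112) (Fin 16)) : ℤ :=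
  if Cl D.Gt a b then Md.xi e a b else 0

theorem mr_eq (e : Ed (Fin 3)) {a b : St (Fin 3) (Fin 112) (Fin 16)} (h : Cl D.Gt a b) :
    mr e a b = Md.xi e a b := if_pos h

theorem mr_cp (e : Ed (Fin 3)) {a b : VV} (h : Gd.Cl a b) :
    mr e (cp e.v a) (cp e.v b) = Gd.x e.k a b :=
  (mr_eq e ((Md.cl_cp D _ _ _).2 h)).trans (Md.xi_cp e a b)

theorem mr_wall {e : Ed (Fin 3)} {a b : St (Fin 3) (Fin 112) (Fin 16)} (ha : a ∈ supE e)
    (hb : b ∈ supE e) (h : Cl D.Gt a b) : mr e a b = Md.sE e.k.2 a b :=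
  (mr_eq e h).trans (Md.xi_wall ha hb h)

theorem mr_wall' {e : Ed (Fin 3)} {a b : St (Fin 3) (Fin 112) (Fin 16)} (ha : a ∈ supE e)
    (hb : b ∈ supE e) (h : Cl D.Gt a b) : mr (rev e) a b = Md.sE (!e.k.2) a b :=
  mr_wall (by rwa [supE_rev]) (by rwa [supE_rev]) h

theorem mr_smul (f : FreeGroup (Fin 3)) (e : Ed (Fin 3)) (a b : St (Fin 3) (Fin 112) (Fin 16)) :
    mr (f • e) (f • a) (f • b) = mr e a b := by
  classical
  exact if_congr (or_congr (MulAction.injective f).eq_iff (D.adj_smul f a b)) (Md.xi_smul f e a b) rfl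

theorem mr_zero {e e' : Ed (Fin 3)} {a b : St (Fin 3) (Fin 112) (Fin 16)} (h : Bey (rev e) e')
    (ha : a ∉ A (rev e')) (hb : b ∉ A (rev e')) : mr e a b = 0 := by
  by_cases c : Cl D.Gt a b
  swap
  · exact if_neg c
  rw [mr_eq e c]
  by_contra k
  obtain ⟨a, b, rfl, rfl, -⟩ := Md.ex0_ne k
  have n : ¬hs e' e.v := fun q => not_bey_self e' (by
    rwa [cross (e := e') (e' := e) q (bey_iff.1 h).2, rev_rev] at h)
  have t : ∀ {a : VV}, cp e.v a ∉ A (rev e') → cp e.v a ∈ supE e' := fun ha =>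
    ((A_trich e' _).resolve_left fun q => n (cp_mem_A q)).resolve_left ha
  exact k (Md.xi_wall_ne (fun q => not_bey_rev (rev e) (by rwa [q, ← rev_rev e, rev_rev (rev e)] at h))
    (fun q => not_bey_self (rev e) (by rwa [q] at h)) (t ha) (t hb) c)

theorem wm : Wm wl loc :=
  ⟨rfl, rfl, rfl, rfl, fun e => (Md.coe_wall e).symm, fun e a => Md.nmem_A.trans
    ⟨fun ⟨v, b, h1, h2⟩ => ⟨v, h1, (mem_sp (s := a)).2 ⟨b, h2⟩⟩,
      fun ⟨v, h1, h2⟩ => let ⟨b, h2⟩ := (mem_sp (s := a)).1 h2; ⟨v, b, h1, h2⟩⟩⟩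

theorem p1_mr (e : Ed (Fin 3)) : Md.p1 D.mir e (loc.m e) (mr e) = 1 := by
  rw [Md.p1_congr (loc.cm e) (ψ := Md.sE e.k.2) fun a ha b hb c =>
    mr_wall (mem_sp.1 ha) (mem_sp.1 hb) (.inr c), Md.p1_sE, if_pos rfl]

theorem p2_mr (e : Ed (Fin 3)) :
    Md.p2 D.mir e (loc.ω e) (fun a b c => mr e a b * mr (rev e) b c) = -1 := by
  rw [← Md.p2_sE e]
  refine Md.pA_congr fun t ht => Finset.sum_congr rfl fun a ha => Finset.sum_congr rfl fun b hb =>
    Finset.sum_congr rfl fun c hc => if_congr Iff.rfl ?_ rfl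
  have q := ((loc.cω e).sup t ht).1
  have m : ∀ {a}, a ∈ t → a ∈ supE e := fun h => mem_sp.1 (q.2.2 h)
  have c : ∀ {a b}, a ∈ t → b ∈ t → Cl D.Gt a b := fun h h' => or_iff_not_imp_left.2 (q.1 h h')
  exact congrArg₂ (· * ·) (mr_wall (m ha) (m hb) (c ha hb)) (mr_wall' (m hb) (m hc) (c hb hc))

/-- **the model facts** -/
def md : Md wl :=
  wm.md mr mr_smul
    (fun e a b c ha hb hc h1 h2 h3 => by
      rw [mr_eq e h1, mr_eq e h2, mr_eq e h3]
      exact Md.xi_z1 e a ha b hb c hc h1 h3 h2)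
    (fun _ _ _ _ => mr_zero) p1_mr fun e => ⟨-1, by rw [p2_mr]; rfl⟩

@[simp] theorem md_mer : md.mer = mr := rfl

end Crest.Agent.N255.En

end
end

-- ▼ part N255/En/MyD

/-!
# Row 255 (helper18): the Massey labels of the data
-/

set_option autoImplicit false
open Set

noncomputable section

namespace Crest.Agent.N255.En
open Pt Lv

theorem mem_cm {v : FreeGroup (Fin 3)} {a : Da.SS} (h : a ∈ wl.Cm v) : ∃ b, cp v b = a := by
  have key : ∀ u, En (nd a) u → u ≠ v → ∃ k, hs ⟨v, k⟩ u := fun u _ n => by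
    obtain ⟨m, hm⟩ := Nat.exists_eq_succ_of_ne_zero (fun q => n (d_eq_zero.1 q) : d u v ≠ 0)
    obtain ⟨k, hk⟩ := d_down hm
    exact ⟨k, show d u (v * x k) < d u v by omega⟩
  by_cases q : En (nd a) v
  · obtain ⟨u, a | ⟨i, t⟩⟩ := a
    · obtain rfl := en_none.1 q
      exact ⟨.inl a, rfl⟩
    · rcases (en_tgt (e := ⟨u, i, true⟩)).1 q with rfl | rfl
      · exact ⟨.inr ((i, true), t), rfl⟩
      · exact ⟨.inr (op (i, true), t), cp_op _ (i, true) t⟩
  · obtain ⟨k, hk⟩ := key _ (en_v (nd a)) fun r => q (r ▸ en_v (nd a))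
    refine absurd ?_ (h k)
    rcases trich ⟨v, k⟩ (nd a) with r | r | r
    · exact r
    · exact absurd r (not_Hd_rev (en_v _) hk)
    · exact absurd (r ▸ en_tgt.2 (.inl rfl)) q

/-- the sign of a side as a unit -/
def sgu (b : Bool) : ℤˣ := bif b then -1 else 1

theorem sgu_val (b : Bool) : (sgu b : ℤ) = Gd.sg b := by cases b <;> rfl

/-- the labels of the data on the chambers -/
def mcD : Mc md where
  y v i j := Md.ex0 v (Gd.y i j)
  cc _ := Gd.cc
  ε _ t := sgu (t 0) * sgu (t 1) * sgu (t 2)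
  cc_eq _ t i k j := by
    show Cs.lc3 i k j * _ = _
    simp only [Units.val_mul, sgu_val]
    fin_cases i <;> fin_cases k <;> fin_cases j <;> simp [Cs.lc3, -mul_eq_mul_right_iff] <;> ring
  coc v i j a b c ha hb hc ab bc ac := by
    obtain ⟨a, rfl⟩ := mem_cm ha
    obtain ⟨b, rfl⟩ := mem_cm hb
    obtain ⟨c, rfl⟩ := mem_cm hc
    have ab' := (Md.cl_cp Da.D v _ _).1 ab
    have bc' := (Md.cl_cp Da.D v _ _).1 bc
    rw [md_mer, mr_cp ⟨v, i⟩ ab', mr_cp ⟨v, j⟩ bc', Md.ex0_cp, Md.ex0_cp, Md.ex0_cp]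
    exact Gd.y_coc i j ab' ((Md.cl_cp Da.D v _ _).1 ac) bc'
  wall v j i k a b ha hb c := by
    rw [md_mer, mr_wall ha hb c, mr_wall' ha hb c]
    obtain ⟨p, rfl⟩ := Md.mem_wall.1 ha
    obtain ⟨q, rfl⟩ := Md.mem_wall.1 hb
    rw [Md.ex0_cp, Gd.y_wall i k j ((Md.cl_cp Da.D v _ _).1 c)]
    rfl

/-- **the Massey labels of the data** -/
def gmD : Ma.Gm wl md := mcD.gm

end Crest.Agent.N255.En

end
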