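import Crest.Agent.N255.En.Defs

/-!
# Row 255 (helper87): wall chains, independence of the degree, first consequences of `Lev`
-/

set_option autoImplicit false
open Set

noncomputable section

namespace Crest.Agent.N255.En
open Tp Nv Pt Lv

section wall
variable {k : Type} [CommRing k] {X : Type} [TopologicalSpace X] {𝒰 : Set (Set X)} {L R K : Set X}
  {d n : ℕ}

/-- the cover refined by two sets -/
def rf (𝒰 : Set (Set X)) (L R : Set X) : Set (Set X) := (· ∩ L) '' 𝒰 ∪ (· ∩ R) '' 𝒰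

theorem rf_open (hU : ∀ U ∈ 𝒰, IsOpen U) (hL : IsOpen L) (hR : IsOpen R) : ∀ U ∈ rf 𝒰 L R, IsOpen U := by
  rintro _ (⟨U, h, rfl⟩ | ⟨U, h, rfl⟩)
  exacts [(hU U h).inter hL, (hU U h).inter hR]

omit [TopologicalSpace X] in
theorem rf_cover (hc : univ ⊆ ⋃₀ 𝒰) (h : univ ⊆ L ∪ R) : univ ⊆ ⋃₀ rf 𝒰 L R := fun x hx => by
  obtain ⟨U, h1, h2⟩ := hc hx
  rcases h hx with h3 | h3
  exacts [⟨_, .inl ⟨U, h1, rfl⟩, h2, h3⟩, ⟨_, .inr ⟨U, h1, rfl⟩, h2, h3⟩]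

theorem sm_rf : Sm (rf 𝒰 L R) = ((On L).inf (Sm 𝒰)).sup ((On R).inf (Sm 𝒰)) := by
  unfold On Sb.inf Sb.sup Sm; congr; funext n; ext σ
  constructor
  · rintro ⟨_, ⟨U, h, rfl⟩ | ⟨U, h, rfl⟩, h'⟩
    exacts [.inl ⟨h'.trans inter_subset_right, U, h, h'.trans inter_subset_left⟩,
      .inr ⟨h'.trans inter_subset_right, U, h, h'.trans inter_subset_left⟩]
  · rintro (⟨h, U, h1, h2⟩ | ⟨h, U, h1, h2⟩)
    exacts [⟨_, .inl ⟨U, h1, rfl⟩, subset_inter h2 h⟩, ⟨_, .inr ⟨U, h1, rfl⟩, subset_inter h2 h⟩]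

theorem mem_rf {c : Ch k n X} : c ∈ (Sm (rf 𝒰 L R)).ch k n ↔
    ∃ a ∈ ((On L).inf (Sm 𝒰)).ch k n, ∃ b ∈ ((On R).inf (Sm 𝒰)).ch k n, a + b = c := by
  rw [sm_rf, Sb.ch_sup, Submodule.mem_sup]

theorem split_on {W : Set X} {c : Ch k n X} (h : c ∈ (Sm (rf 𝒰 L R)).ch k n) (h' : c ∈ (On W).ch k n) :
    ∃ a ∈ ((On (W ∩ L)).inf (Sm 𝒰)).ch k n, ∃ b ∈ ((On (W ∩ R)).inf (Sm 𝒰)).ch k n, a + b = c := by
  rw [← Submodule.mem_sup, ← Sb.ch_sup]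
  rw [sm_rf] at h
  exact fun σ hσ => (h hσ).imp (fun e => ⟨subset_inter (h' hσ) e.1, e.2⟩)
    fun e => ⟨subset_inter (h' hσ) e.1, e.2⟩

theorem mem_inter {A B : Set X} {c : Ch k n X} (h : c ∈ ((On A).inf (Sm 𝒰)).ch k n)
    (h' : c ∈ (On B).ch k n) : c ∈ ((On (A ∩ B)).inf (Sm 𝒰)).ch k n :=
  fun _ hσ => ⟨subset_inter (h hσ).1 (h' hσ), (h hσ).2⟩

theorem sb_mono {A B : Set X} (h : A ⊆ B) : ((On A).inf (Sm 𝒰)).Le ((On B).inf (Sm 𝒰)) :=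
  fun _ _ hσ => ⟨hσ.1.trans h, hσ.2⟩

theorem on_of {A B : Set X} (h : A ⊆ B) {c : Ch k n X} (hc : c ∈ ((On A).inf (Sm 𝒰)).ch k n) :
    c ∈ (On B).ch k n := fun _ hσ => (hc hσ).1.trans h

/-- a fundamental chain split along `L`, `R`, with wall chain `σ` -/
structure Wa (O : Ori k d X) (𝒰 : Set (Set X)) (L R K : Set X) (z₁ z₂ : Ch k (d + 1) X)
    (σ c : Ch k d X) : Prop where
  fu : O.Fund K (z₁ + z₂)
  h₁ : z₁ ∈ ((On L).inf (Sm 𝒰)).ch k (d + 1)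
  h₂ : z₂ ∈ ((On R).inf (Sm 𝒰)).ch k (d + 1)
  eq : bd k z₁ = σ + c
  hσ : σ ∈ ((On (L ∩ R)).inf (Sm 𝒰)).ch k d
  hc : c ∈ ((On (Kᶜ ∩ L)).inf (Sm 𝒰)).ch k d

variable {O : Ori k d X}

theorem exists_wa (O : Ori k d X) (hU : ∀ U ∈ 𝒰, IsOpen U) (hc : univ ⊆ ⋃₀ 𝒰) (hL : IsOpen L)
    (hR : IsOpen R) (h : univ ⊆ L ∪ R) (hK : IsCompact K) : ∃ z₁ z₂ σ c, Wa O 𝒰 L R K z₁ z₂ σ c := by
  classical
  have o := rf_open hU hL hR
  have v := rf_cover hc h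
  obtain ⟨z₁, h₁, z₂, h₂, e⟩ :=
    mem_rf.1 (Sb.ch_mono Sb.inf_le_right (Sml.rho_inf k o v (mem_ch_univ (O.μ K))))
  have fu : O.Fund K (z₁ + z₂) := by
    rw [e]
    refine ⟨by rw [Sml.bd_rho]; exact Sml.rho_mem k _ _ (O.rc K hK), ?_⟩
    rw [Sml.rho_succ, _root_.sub_sub, _root_.sub_sub, ← add_assoc, add_comm _ (O.μ K),
      sub_add_cancel_left]
    exact neg_mem (add_mem (bd_mem_Nul _ _) (ch_le_Nul (Sml.DD_mem k _ _ (O.rc K hK))))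
  have b₁ := Sb.bd_mem h₁
  have b₂ := Sb.bd_mem h₂
  refine ⟨z₁, z₂, (bd k z₁).filter (range · ⊆ R), (bd k z₁).filter (¬range · ⊆ R), fu, h₁, h₂,
    (Finsupp.filter_add_filter_not _ _).symm, fun σ hσ => ?_, fun σ hσ => ?_⟩
  · rw [Finset.mem_coe, Finsupp.support_filter, Finset.mem_filter] at hσ
    exact ⟨subset_inter (b₁ hσ.1).1 hσ.2, (b₁ hσ.1).2⟩
  · rw [Finset.mem_coe, Finsupp.support_filter, Finset.mem_filter] at hσ
    refine ⟨subset_inter (fu.rc ?_) (b₁ hσ.1).1, (b₁ hσ.1).2⟩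
    have h0 : bd k z₂ σ = 0 := by_contra fun e => hσ.2 (b₂ (Finsupp.mem_support_iff.2 e)).1
    rw [Finset.mem_coe, Finsupp.mem_support_iff, map_add, Finsupp.add_apply, h0, add_zero]
    exact Finsupp.mem_support_iff.1 hσ.1

variable {z₁ z₂ y₁ y₂ : Ch k (d + 1) X} {σ c τ b : Ch k d X}

theorem Wa.mono {K' : Set X} (h : Wa O 𝒰 L R K' z₁ z₂ σ c) (hK : IsCompact K) (hK' : IsCompact K')
    (s : K ⊆ K') : Wa O 𝒰 L R K z₁ z₂ σ c :=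
  ⟨h.fu.mono hK hK' s, h.h₁, h.h₂, h.eq, h.hσ,
    Sb.ch_mono (sb_mono (inter_subset_inter_left _ (compl_subset_compl.2 s))) h.hc⟩

/-- wall chains are unique up to boundaries in the window and chains of the window off `K` -/
theorem Wa.uniq (hU : ∀ U ∈ 𝒰, IsOpen U) (hc : univ ⊆ ⋃₀ 𝒰) (hL : IsOpen L) (hR : IsOpen R)
    (h : univ ⊆ L ∪ R) (a : Wa O 𝒰 L R K z₁ z₂ σ c) (a' : Wa O 𝒰 L R K y₁ y₂ τ b) :
    ∃ v ∈ ((On (L ∩ R)).inf (Sm 𝒰)).ch k (d + 1),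
      σ - τ - bd k v ∈ ((On (L ∩ R ∩ Kᶜ)).inf (Sm 𝒰)).ch k d := by
  have o := rf_open hU hL hR
  have v := rf_cover hc h
  obtain ⟨w, hw⟩ := mem_Nul.1 (a.fu.sub_mem a'.fu)
  obtain ⟨w₁, p₁, w₂, p₂, e⟩ :=
    mem_rf.1 (Sb.ch_mono Sb.inf_le_right (Sml.rho_inf k o v (mem_ch_univ w)))
  have h1 := Sml.rho_inf k o ((subset_univ _).trans v) hw
  obtain ⟨u₁, q₁, u₂, q₂, e'⟩ := split_on (Sb.ch_mono Sb.inf_le_right h1) (Sb.ch_mono Sb.inf_le_left h1)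
  rw [map_sub, Sml.rho_of_sm k _ (sub_mem (mem_rf.2 ⟨_, a.h₁, _, a.h₂, rfl⟩)
    (mem_rf.2 ⟨_, a'.h₁, _, a'.h₂, rfl⟩)), ← Sml.bd_rho, ← e, map_add] at e'
  have m₁ : z₁ - y₁ - u₁ - bd k w₁ ∈ ((On L).inf (Sm 𝒰)).ch k (d + 1) :=
    sub_mem (sub_mem (sub_mem a.h₁ a'.h₁) (Sb.ch_mono (sb_mono inter_subset_right) q₁)) (Sb.bd_mem p₁)
  have m₂ : z₂ - y₂ - u₂ - bd k w₂ ∈ ((On R).inf (Sm 𝒰)).ch k (d + 1) :=
    sub_mem (sub_mem (sub_mem a.h₂ a'.h₂) (Sb.ch_mono (sb_mono inter_subset_right) q₂)) (Sb.bd_mem p₂)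
  have e2 : z₁ - y₁ - u₁ - bd k w₁ = -(z₂ - y₂ - u₂ - bd k w₂) := by
    rw [eq_neg_iff_add_eq_zero, ← sub_self (u₁ + u₂)]
    nth_rewrite 1 [e']
    abel
  have m := mem_inter m₁ (e2 ▸ neg_mem (on_of subset_rfl m₂))
  refine ⟨_, m, mem_inter (sub_mem (sub_mem a.hσ a'.hσ) (Sb.bd_mem m)) ?_⟩
  have : σ - τ - bd k (z₁ - y₁ - u₁ - bd k w₁) = b - c + bd k u₁ := by
    rw [map_sub, map_sub, map_sub, bd_bd, a.eq, a'.eq]; abel
  rw [this]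
  exact add_mem (sub_mem (on_of inter_subset_left a'.hc) (on_of inter_subset_left a.hc))
    (on_of inter_subset_left (Sb.bd_mem q₁))

end wall

theorem Wa.bd_mem {k : Type} [CommRing k] {X : Type} [TopologicalSpace X] {𝒰 : Set (Set X)}
    {L R K : Set X} {d : ℕ} {O : Ori k (d + 1) X} {z₁ z₂ : Ch k (d + 2) X} {σ c : Ch k (d + 1) X}
    (a : Wa O 𝒰 L R K z₁ z₂ σ c) : bd k σ ∈ ((On (L ∩ R ∩ Kᶜ)).inf (Sm 𝒰)).ch k d := by
  refine mem_inter (Sb.bd_mem a.hσ) ?_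
  have : bd k σ = -bd k c := by rw [eq_neg_iff_add_eq_zero, ← map_add, ← a.eq, bd_bd]
  rw [this]
  exact neg_mem (on_of inter_subset_left (Sb.bd_mem a.hc))

variable {ι S : Type} [DecidableEq ι] [MulAction (FreeGroup ι) S] {w : Wl ι S}
  {F : Subgroup (FreeGroup ι)} {X : Type} [TopologicalSpace X] [MulAction F X]


theorem Md.td_t1 (M : Md w) (k : Type) [CommRing k] (e : Ed ι) {A : Set S} (h : ∀ a ∈ A, a ∉ w.B e) :
    ∀ v ∈ w.Ct A 2, td k (t1 k (M.mer e)) v = 0 := fun v hv => by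
  have m := fun i => h _ (hv.1 (mem_range_self i))
  have c := fun i j => hv.2 _ (mem_range_self i) _ (mem_range_self j)
  rw [td1]
  simp [t1, M.mer_add e _ _ _ (m 0) (m 1) (m 2) (c 0 1) (c 1 2) (c 0 2)]

theorem Md.td_t2 (M : Md w) (k : Type) [CommRing k] (e e' : Ed ι) {A : Set S} (h : ∀ a ∈ A, a ∉ w.B e)
    (h' : ∀ a ∈ A, a ∉ w.B e') : ∀ v ∈ w.Ct A 3, td k (t2 k (M.mer e) (M.mer e')) v = 0 := fun v hv => by
  have m := fun i => h _ (hv.1 (mem_range_self i))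
  have m' := fun i => h' _ (hv.1 (mem_range_self i))
  have c := fun i j => hv.2 _ (mem_range_self i) _ (mem_range_self j)
  rw [td2]
  simp [t2, M.mer_add e _ _ _ (m 0) (m 1) (m 2) (c 0 1) (c 1 2) (c 0 2),
    M.mer_add e' _ _ _ (m' 1) (m' 2) (m' 3) (c 1 2) (c 2 3) (c 1 3)]
  ring

namespace Lev
variable (N : Lev w F X)

theorem open_lt (e : Ed ι) (t : ℝ) : IsOpen {x | N.s e x < t} :=
  isOpen_lt (N.s e).continuous continuous_const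

theorem open_gt (e : Ed ι) (t : ℝ) : IsOpen {x | t < N.s e x} :=
  isOpen_lt continuous_const (N.s e).continuous



theorem Reg_mono {J : Finset (Ed ι)} {t t' : Ed ι → ℝ} {R R' : ℝ} (h : ∀ e ∈ J, t e ≤ t' e)
    (h' : R ≤ R') : N.Reg J t R' ⊆ N.Reg J t' R :=
  fun _ hx => ⟨h'.trans_lt hx.1, fun e he => (hx.2 e he).trans_le (h e he)⟩

/-- (L0) far small simplices of a region are labelled by cliques of the model -/
theorem vl_mem (J : Finset (Ed ι)) {t : Ed ι → ℝ} (h : ∀ e ∈ J, t e < 1) : ∃ R, ∀ n,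
    ∀ σ ∈ (N.Sb (N.Reg J t R)).S n, vl N.lab σ ∈ w.Ct (w.Mod J) n := by
  classical
  choose! f hf using fun e (he : e ∈ J) => N.lab_side (1 - t e) (sub_pos.2 (h e he))
  obtain ⟨R, hR⟩ := (insert N.R0 (J.image f)).bddAbove
  refine ⟨R, fun n σ ⟨h1, U, h2, h3⟩ => ⟨?_, ?_⟩⟩
  · rintro _ ⟨i, rfl⟩ e he
    have := h1 (mem_range_self (stdSimplex.vertex i))
    exact hf e he e _ ((hR (Finset.mem_insert_of_mem (Finset.mem_image_of_mem f he))).trans_lt this.1)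
      (by linarith [this.2 e he])
  · rintro _ ⟨i, rfl⟩ _ ⟨j, rfl⟩
    have r : N.R0 ≤ R := hR (by simp)
    exact N.lab_cl U h2 _ (h3 ⟨_, rfl⟩) _ (h3 ⟨_, rfl⟩) (r.trans_lt (h1 ⟨_, rfl⟩).1)
      (r.trans_lt (h1 ⟨_, rfl⟩).1)

/-- model cocycles pull back to far cocycles -/
theorem rs_Z (J : Finset (Ed ι)) {t : Ed ι → ℝ} (h : ∀ e ∈ J, t e < 1) : ∃ R, ∀ (k : Type) [CommRing k]
    (A : Type) [AddCommGroup A] [Module k A] (n : ℕ) (ψ : Tu S n → A),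
    (∀ v ∈ w.Ct (w.Mod J) (n + 1), td k ψ v = 0) → rs N.lab ψ ∈ (N.Sb (N.Reg J t R)).Z k A n :=
  (N.vl_mem J h).imp fun _ h _ _ _ _ _ _ _ hψ => Nv.rs_Z (h _) hψ

open Classical in
theorem win_eq (e : Ed ι) (l l' R : ℝ) : N.Reg {e, rev e} (fun e' => if e' = e then l' else 1 - l) R =
    {x | N.s e x < l'} ∩ {x | l < N.s e x} ∩ {x | R < N.r x} := by
  ext x
  simp [Reg, rev_ne e, N.s_rev, and_comm]

theorem cpt_win (e : Ed ι) (R a b : ℝ) : IsCompact {x | N.r x ≤ R ∧ a ≤ N.s e x ∧ N.s e x ≤ b} :=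
  (N.cpt_w e R (max |a| |b|)).of_isClosed_subset
    ((isClosed_le N.r.continuous continuous_const).inter
      ((isClosed_le continuous_const (N.s e).continuous).inter
        (isClosed_le (N.s e).continuous continuous_const)))
    fun _ h => ⟨h.1, abs_le_max_abs_abs h.2.1 h.2.2⟩

/-- `α ∪ β` is closed on far windows -/
theorem ab_Z (M : Md w) (e : Ed ι) {l l' : ℝ} (h : 0 < l) (h' : l' < 1) : ∃ R, ∀ (k : Type) [CommRing k],
    rs N.lab (t2 k (M.mer e) (M.mer (rev e))) ∈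
      (N.Sb ({x | N.s e x < l'} ∩ {x | l < N.s e x} ∩ {x | R < N.r x})).Z k k 2 := by
  classical
  obtain ⟨R, hR⟩ := N.rs_Z {e, rev e} (t := fun e' => if e' = e then l' else 1 - l)
    fun e' _ => by split_ifs <;> linarith
  exact ⟨R, fun k _ => N.win_eq e l l' R ▸ hR k k 2 _
    (M.td_t2 k _ _ (fun a ha => ha e (by simp)) fun a ha => ha _ (by simp))⟩

variable {N} {k : Type} [CommRing k] {M : Md w} {O : Ori k 3 X} {u : kˣ}

/-- the degree in terms of `Wa` -/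
theorem DegA.wa {a : ℝ} (h : N.DegA M O u a) (e : Ed ι) {l l' : ℝ} (h0 : 0 < l) (h1 : l < l')
    (h2 : l' < 1) (ha : 0 ≤ a) : ∃ R, ∀ R', R ≤ R' → ∀ K z₁ z₂ σ c, IsCompact K →
      {x | N.r x ≤ R' ∧ l - a ≤ N.s e x ∧ N.s e x ≤ l' + a} ⊆ K →
      Wa O N.cv {x | N.s e x < l'} {x | l < N.s e x} K z₁ z₂ σ c →
      ev k (rs N.lab (t2 k (M.mer e) (M.mer (rev e)))) (bd k σ) = u :=
  (h e l l' h0 h1 h2).imp fun _ h R' r K z₁ z₂ σ c hK s a => h R' r K z₁ z₂ σ c hK s a.fu a.h₁ a.h₂ a.eq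
    (Sb.ch_mono (sb_mono (inter_comm _ _).subset) a.hσ) a.hc (on_of (fun x hx => not_le.1 fun r =>
      hx.2 (s ⟨r, by linarith [show l < N.s e x from hx.1.2], by
        linarith [show N.s e x < l' from hx.1.1]⟩)) a.bd_mem)

/-- **the degree does not depend on the compact set** -/
theorem DegA.deg {a : ℝ} (h : N.DegA M O u a) (ha : 0 ≤ a) : N.Deg M O u := by
  intro e l l' h0 h1 h2
  obtain ⟨R, hR⟩ := h.wa e h0 h1 h2 ha
  obtain ⟨R₁, hZ⟩ := N.ab_Z M e h0 h2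
  refine ⟨max R R₁, fun R' r K z₁ z₂ σ c hK s fu p₁ p₂ eq hσ hc _ => ?_⟩
  have cv : univ ⊆ {x | N.s e x < l'} ∪ {x | l < N.s e x} := fun x _ =>
    (lt_or_ge (N.s e x) l').imp id fun h => h1.trans_le h
  have hK' := hK.union (N.cpt_win e R' (l - a) (l' + a))
  obtain ⟨y₁, y₂, τ, b, W⟩ :=
    exists_wa O N.cv_open N.cv_cover (N.open_lt e l') (N.open_gt e l) cv hK'
  rw [← hR R' ((le_max_left _ _).trans r) _ _ _ _ _ hK' subset_union_right W]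
  have W' : Wa O N.cv {x | N.s e x < l'} {x | l < N.s e x} K z₁ z₂ σ c :=
    ⟨fu, p₁, p₂, eq, Sb.ch_mono (sb_mono fun _ h => And.symm h) hσ, hc⟩
  obtain ⟨v, -, hv⟩ := W'.uniq N.cv_open N.cv_cover (N.open_lt e l') (N.open_gt e l) cv
    (W.mono hK hK' subset_union_left)
  have hs : {x | N.s e x < l'} ∩ {x | l < N.s e x} ∩ Kᶜ ⊆
      {x | N.s e x < l'} ∩ {x | l < N.s e x} ∩ {x | R₁ < N.r x} := fun x hx =>
    ⟨hx.1, not_le.1 fun r' => hx.2 (s ⟨r'.trans ((le_max_right _ _).trans r),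
      by linarith [show l < N.s e x from hx.1.2], by linarith [show N.s e x < l' from hx.1.1]⟩)⟩
  have := Sb.ev_B (hZ k) (Sb.bd_mem_B (Sb.ch_mono (sb_mono hs) hv))
  rwa [map_sub (bd k), map_sub (bd k), bd_bd, sub_zero, map_sub, sub_eq_zero] at this

end Lev

end Crest.Agent.N255.En

end
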