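import Crest.Agent.N255.En.Pa0
import Crest.Agent.N255.Lv.Top

/-!
# Row 255 (helper32): the level structure of the universal cover
-/

set_option autoImplicit false

noncomputable section

namespace Crest.Agent.N255.En

open Set Pt Fa Lv Uc Gs
open scoped Pointwise

variable {ι I Tor K : Type} [DecidableEq ι]

/-- every vertex has a non neighbour -/
theorem na [Nonempty ι] (D : Dt ι I Tor K) : NA D.Gt := fun a => by
  obtain ⟨v, hv⟩ : ∃ v, 2 < d a.v v := by
    obtain ⟨i⟩ := ‹Nonempty ι›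
    exact ⟨a.v * FreeGroup.of i ^ 3, by simp [d, FreeGroup.norm, FreeGroup.toWord_of_pow]⟩
  have key : ∀ u (b : V ι I Tor), d u (cp u b).v ≤ 1 := fun u b => by
    rcases en_cp u b with h | ⟨i, -, h⟩
    · exact (d_eq_zero.2 h).trans_le zero_le_one
    · have := d_x (cp u b).v (cp u b).v (i, true)
      rw [d_self] at this
      rw [d_comm]
      change u = (cp u b).v * _ at h
      rw [← h] at this
      omega
  refine ⟨⟨v, a.k⟩, fun h => by simp [← congrArg L.v h] at hv, ?_⟩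
  rintro ⟨u, b, b', -, h1, h2⟩
  have k1 := key u b
  have k2 := key u b'
  have k3 := d_tri a.v u v
  rw [h1, d_comm] at k1
  rw [h2] at k2
  exact absurd hv (not_lt.2 (k3.trans (add_le_add k1 k2)))

variable [Fintype ι] [Fintype I] [Fintype Tor] [DecidableEq I] [DecidableEq Tor]
  [Nonempty I] [LinearOrder K] [Finite K] {D : Dt ι I Tor K} {G : Subgroup D.mir.G} {F : Subgroup (FreeGroup ι)}
  {T : Type} [TopologicalSpace T] [MulAction G T] [ContinuousConstSMul G T] [MulAction F T] {c : ℕ → ℕ}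
  {K₀ : Set T}

/-- the walls of `D` -/
structure IsW (D : Dt ι I Tor K) (w : Wl ι (St ι I Tor)) : Prop where
  Γ : w.Γ = D.Gt
  T : w.T = supE
  B : w.B = A

variable {w : Wl ι (St ι I Tor)} (hw : IsW D w) (h : FD 4 G K₀) (E : Av G F T) (s : Slow c)

omit [Finite K] [ContinuousConstSMul G T] in
include h in
theorem exists_R0 : ∃ R0 : ℝ, (∀ x y, R0 < E.rr x → Nr G K₀ x y → E.lab x ≠ E.lab y → D.Gt.Adj (E.lab x) (E.lab y)) ∧
    ∀ x, R0 < E.rr x → ∀ e, E.lab x ∈ supE e → |E.sT s e x| ≤ 2 := by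
  obtain ⟨R1, h1⟩ := E.lab_adj h.cpt
  obtain ⟨R2, h2⟩ := E.lab_T s
  exact ⟨max R1 R2, fun x y a => h1 x y ((le_max_left _ _).trans_lt a),
    fun x a => h2 x ((le_max_right _ _).trans_lt a)⟩

/-- **the levels** -/
def lev : Lev w F T where
  s := E.sT s
  r := E.rr
  lab := E.lab
  cv := FD.cvr G K₀
  cv_open := FD.cvr_open
  cv_cover := h.cvr_cover _
  cv_smul f := by
    rintro _ ⟨g, rfl⟩
    refine ⟨E.φ f * g, Set.ext fun x => ?_⟩
    rw [mem_smul_set_iff_inv_smul_mem, E.act]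
    simp [sat, mul_smul]
  s_smul := E.sT_smul s
  r_smul := E.rr_smul
  lab_smul := E.lab_smul
  s_rev := E.sT_rev s
  s_bey _ _ x k := E.sT_bey s k x
  r_lip := by
    obtain ⟨d, k⟩ := E.rr_near h.cpt
    refine ⟨d + d, fun U a x b y e => ?_⟩
    linarith [(abs_le.1 (k x x (nr_cvr a b b) _ (E.v_mem x))).1, (abs_le.1 (k y x (nr_cvr a e b) _ (E.v_mem x))).2]
  s_lip := by
    obtain ⟨d, k⟩ := E.sT_near s h.cpt
    refine ⟨d + d, fun e' U a x b y e => ?_⟩
    linarith [(abs_le.1 (k x x (nr_cvr a b b) _ (E.v_mem x) e')).1,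
      (abs_le.1 (k y x (nr_cvr a e b) _ (E.v_mem x) e')).2]
  s_slow ε hε := (E.sv2 (Av.sv_H s) h.cpt hε).imp fun R k e U a x b y n r => by
    have := (abs_le.1 (k x y r (nr_cvr a b n) e)).1
    simp only [Av.sT]
    linarith
  R0 := (exists_R0 h E s).choose
  lab_cl U a x b y n r _ := hw.Γ ▸ or_iff_not_imp_left.2 ((exists_R0 h E s).choose_spec.1 x y r (nr_cvr a b n))
  lab_side ε hε := (E.lab_side0 s hε).imp fun R k e x r => hw.B ▸ (k x r e).1
  lab_T e x r := hw.T ▸ (exists_R0 h E s).choose_spec.2 x r e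
  cpt v N R a := have := h.gm.t2; E.out_compact s R a N v
  cpt_w e R a := by
    have := h.gm.t2
    simpa only [abs_le] using E.win_compact s R (-a) a e

@[simp] theorem lev_s : (lev hw h E s).s = E.sT s := rfl
@[simp] theorem lev_r : (lev hw h E s).r = E.rr := rfl
@[simp] theorem lev_lab : (lev hw h E s).lab = E.lab := rfl
@[simp] theorem lev_cv : (lev hw h E s).cv = FD.cvr G K₀ := rfl

/-- **the depth functions** -/
def tl [Nonempty ι] [G.FiniteIndex] (H : D.mir.Cham) (k : Type) [Field k] (h1 : (lev hw h E s).PA1 k (E.nu s)) :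
    Tl (lev hw h E s) k where
  ν := E.nu s
  adj _ hε := (E.adj0 s hε).imp fun _ a x b b' r n n' => hw.Γ ▸ or_iff_not_imp_left.2 (a x r b b' n n')
  deep := E.nu_lab0 s
  slow C _ hε := (E.mu_slow s h.cpt C hε).imp fun _ a b _ m x n y n' r => a x y r (nr_cvr m n n') {b}
  hA1 _ hε := hw.B ▸ E.hA1 s hε
  hA2 _ hε := hw.B ▸ E.hA2 s hε
  ne a C _ R hε :=
    have := h.gm.pc
    E.ne s (fun a => (na D a).imp fun _ b => ⟨b.1.symm, b.2⟩) a C R hε
  pa0 := pa0_of H (na D) h s E.P E.o k _ hw.Γ _ (fun _ => rfl) fun _ _ => rfl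
  pa1 := h1


end Crest.Agent.N255.En
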