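import Crest.Agent.N255.En.Vt
import Crest.Agent.N255.Vc.Ch

/-!
# Row 255 (helper18): the commutator of the boundary holonomies lies in `m * I`
-/

set_option autoImplicit false
open Set

noncomputable section

namespace Crest.Agent.N255.Cs
open Tw Tp

variable {X : Type} [TopologicalSpace X] {K : Type} [Field K] {p : ℕ} [hpp : Fact p.Prime]
  {O : Type} [CommRing O] [Algebra K O] {G : Gr (Gm p) K O} {m I J : Ideal O} {P : Sb X}
  {g : Cn G X} {a b : (Tw G)ˣ}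

theorem In.ksmul {x : Tw G} (hx : In I x) (r : K) : In I (r • x) := by
  rw [In, map_smul]; exact Submodule.smul_of_tower_mem _ r hx

namespace To

/-- a smaller family which carries the torus -/
def shr (T : To K X) (Q : Sb X) (h : Q.Le T.P) (ht : T.t ∈ Q.ch K 2) : To K X :=
  { T with P := Q, ht := ht, ha := Sb.Z_mono h T.ha, hb := Sb.Z_mono h T.hb }

variable (T : To K X)

/-- Bianchi on a wall -/
theorem cm_mem {hm : G.Id m} (hn : IsNilpotent m) (hI : G.Id I) (hs : T.s ≠ 0) (ha : a ∈ U hm)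
    (hb : b ∈ U hm) (e : T.Bc g a b) (h : CU P hm g) (f : CI P I (cur g)) {σ : Ch K 3 X}
    (hσ : σ ∈ P.ch K 3) (hb' : bd K σ = T.t) : In (m * I) (a.val * b.val - b.val * a.val) := by
  have e1 : In (m * I) (ev K (cur (T.g a b)) T.t) := by
    rw [← T.P.ev_congr (φ := cur g) (fun τ hτ => by
      rw [Pi.sub_apply, cur_congr e hτ, sub_self]) T.ht, ← hb', ev_bd]
    exact CI.ev (cob_cur_mem hI h f) hσ
  have key : ∀ n, In (m * I ⊔ m ^ n) (a.val * b.val - b.val * a.val) := fun n => by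
    induction n with
    | zero => exact Ideal.mem_sup_right (by simp)
    | succ n ih =>
      have e2 := T.ev_cur_g hm ((hm.mul hI).sup (hm.pow n)) ha hb ih
      have l : m * (m * I ⊔ m ^ n) ≤ m * I ⊔ m ^ (n + 1) := by
        rw [Ideal.mul_sup, pow_succ']
        exact sup_le_sup_right Ideal.mul_le_right _
      refine In.eq (In.ksmul (In.sub (In.mono e1 le_sup_left) (In.mono e2 l)) T.s⁻¹) ?_
      rw [sub_sub_cancel, smul_smul, inv_mul_cancel₀ hs, one_smul]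
  obtain ⟨n, hn⟩ := hn
  simpa [hn] using key n

end To

end Crest.Agent.N255.Cs

namespace Crest.Agent.N255.En.Lev
open Tp Nv Pt Lv Wn Cs Tw

variable {ι S : Type} [DecidableEq ι] [MulAction (FreeGroup ι) S] {w : Wl ι S}
  {F : Subgroup (FreeGroup ι)} {X : Type} [TopologicalSpace X] [MulAction F X] {N : Lev w F X}
  {M : Md w} {k : Type} [Field k] {p : ℕ} [hpp : Fact p.Prime] {A : Type} [CommRing A] [Algebra k A]
  {G : Gr (Gm p) k A} {m I J : Ideal A} {P : Tp.Sb X} {g : Cn G X} {a b : (Tw G)ˣ}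
  {ε R₀ R l r : ℝ} {e : Ed ι}

variable (N M) in
/-- the standard connection of the oriented edge `e` -/
def gs0 {B : Type} [Ring B] (R₀ : ℝ) (e : Ed ι) (a b : Bˣ) : Sx 1 X → Bˣ :=
  fun σ => a ^ N.mz M R₀ e σ * b ^ N.mz M R₀ (rev e) σ


/-- the curvature of a standard connection -/
theorem cur_gs0 (hJ : G.Id J) (h : In J (a.val * b.val - b.val * a.val)) (hP : P.Le (N.Lb R₀ (w.T e)))
    (hg : ∀ σ ∈ P.S 1, g σ = N.gs0 M R₀ e a b σ) : CI P J (cur g) := fun σ hσ => by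
  rw [cur_congr hg hσ]
  exact (N.tor M R₀ e (0 : Ch k 2 X) (zero_mem _) (map_zero _)).cur_g hJ h σ (hP 2 hσ)

/-- **the commutator lies in `m * I`** if `I` contains the curvature on a window -/
theorem cm_mem [T2Space X] {O : Ori k 3 X} {u : kˣ} (hd : N.Deg M O u) (hB : N.Big ε R₀) (hε : 0 < ε)
    (h0 : ε ≤ l) (h1 : l < r) (h2 : r ≤ 1 - ε) {𝒱 : Set (Set X)} (ho : ∀ U ∈ 𝒱, IsOpen U)
    (hc : univ ⊆ ⋃₀ 𝒱) (hP : ((N.Sb (win (N.s e) l r)).inf (Sm 𝒱)).Le P) {hm : G.Id m}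
    (hn : IsNilpotent m) (hI : G.Id I) (ha : a ∈ Tw.U hm) (hb : b ∈ Tw.U hm)
    (hg : ∀ σ ∈ ((N.Sb (fw (N.s e) N.r l r R)).inf (Sm 𝒱)).S 1, g σ = N.gs0 M R₀ e a b σ)
    (h : CU P hm g) (f : CI P I (cur g)) : In (m * I) (a.val * b.val - b.val * a.val) := by
  obtain ⟨R₁, h3⟩ := tor_s_wr (e := e) hd (hε.trans_le h0) h1 (by linarith)
  set R' := max (max R₀ R) R₁
  have r0 : R₀ ≤ R' := (le_max_left _ _).trans (le_max_left _ _)
  have r1 : R ≤ R' := (le_max_right _ _).trans (le_max_left _ _)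
  obtain ⟨σ, s1, s2⟩ := Vc.exists_wr_sm N.cv_open N.cv_cover O h1 (box_cpt N e l r R') ho hc
  have s3 := s2.mem N.cv_open N.cv_cover
  have s4 := Sb.ch_mono Sb.inf_le_left s1
  have s5 := Sb.ch_mono Sb.inf_le_right s1
  have q : ((N.Sb (fw (N.s e) N.r l r R')).inf (Sm 𝒱)).Le (N.Lb R₀ (w.T e)) :=
    Sb.inf_le_left.trans ((hB.mono le_rfl r0).fw r0 h0 h2)
  have t1 : bd k σ ∈ ((N.Sb (fw (N.s e) N.r l r R')).inf (Sm 𝒱)).ch k 2 :=
    Sml.mem_inf (Sml.mem_inf s3.2 (Sb.bd_mem s4)) (Sb.bd_mem s5)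
  refine ((N.tor M R₀ e (bd k σ) (Sb.ch_mono q t1) (bd_bd σ)).shr _ q t1).cm_mem hn hI ?_ ha hb
    (fun τ hτ => hg τ ⟨⟨hτ.1.1.trans (fw_mono le_rfl le_rfl r1), hτ.1.2⟩, hτ.2⟩) h f
    (Sb.ch_mono hP (Sml.mem_inf (Sml.mem_inf s3.1 s4) s5)) rfl
  show (N.tor M R₀ e (bd k σ) (Sb.ch_mono q t1) (bd_bd σ)).s ≠ 0
  rw [h3 R' (le_max_right _ _) σ s2 (Sb.bd_mem s4) R₀]
  exact u.ne_zero

/-- the same without a second cover -/
theorem cm_mem' [T2Space X] {O : Ori k 3 X} {u : kˣ} (hd : N.Deg M O u) (hB : N.Big ε R₀)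
    (hε : 0 < ε) (h0 : ε ≤ l) (h1 : l < r) (h2 : r ≤ 1 - ε) (hP : (N.Sb (win (N.s e) l r)).Le P)
    {hm : G.Id m} (hn : IsNilpotent m) (hI : G.Id I) (ha : a ∈ Tw.U hm) (hb : b ∈ Tw.U hm)
    (hg : ∀ σ ∈ (N.Sb (fw (N.s e) N.r l r R)).S 1, g σ = N.gs0 M R₀ e a b σ)
    (h : CU P hm g) (f : CI P I (cur g)) : In (m * I) (a.val * b.val - b.val * a.val) :=
  cm_mem hd hB hε h0 h1 h2 N.cv_open N.cv_cover (Sb.inf_le_left.trans hP) hn hI ha hb
    (fun σ hσ => hg σ hσ.1) h f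

end Crest.Agent.N255.En.Lev

end
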