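import Crest.Agent.N255.Nv.Ctg
import Crest.Agent.N255.Cs.Sing
import Crest.Agent.N255.En.My
import Crest.Agent.N255.Wn.En

-- ▼ part N255/Nv/Mul
section

/-!
# Row 255 (helper2): connections given by labels
-/

set_option autoImplicit false
open Set Finsupp

noncomputable section

namespace Crest.Agent.N255.Nv

open Crest.Agent.N255.Tp Crest.Agent.N255.Cs

variable {I : Type} {X Y : Type} [TopologicalSpace X] [TopologicalSpace Y] {n : ℕ}


theorem vl_e2 (l : X → I) (σ : Sx n X) (a b : Fin (n + 1)) :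
    vl l (e2 σ a b) = ![vl l σ a, vl l σ b] := by
  rw [e2, vl_sub]; funext t; fin_cases t <;> rfl


/-- a function of two labels as a function on edges -/
def lg {B : Type} (l : X → I) (Γ : I → I → B) : Sx 1 X → B := fun σ => Γ (vl l σ 0) (vl l σ 1)

/-- a function of one label as a function on points -/
def l0 {B : Type} (l : X → I) (γ : I → B) : Sx 0 X → B := fun σ => γ (vl l σ 0)

/-- a function of two labels as a cochain on tuples -/
def t2 {B : Type} (Γ : I → I → B) : Tu I 1 → B := fun τ => Γ (τ 0) (τ 1)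







section ring
variable {R : Type} [Ring R]






end ring

variable {p : ℕ} [hpp : Fact p.Prime] {K O : Type} [CommRing K] [CommRing O] [Algebra K O]
  {G : Gr (Gm p) K O} {P : Sb X} {m J : Ideal O} {R : I → I → Prop} {M : Set I} {l : X → I}

theorem CT.pair {τ : Tu I n} (h : τ ∈ CT R M n) (a b : Fin (n + 1)) :
    τ a ∈ M ∧ τ b ∈ M ∧ R (τ a) (τ b) :=
  ⟨h.1 ⟨a, rfl⟩, h.1 ⟨b, rfl⟩, h.2 _ ⟨a, rfl⟩ _ ⟨b, rfl⟩⟩





variable [Fact ((p : O) = 0)]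





end Crest.Agent.N255.Nv

end
end

-- ▼ part N255/En/Vt

/-!
# Row 255 (helper18): far classes, the tori `To` and the vertex ends `Vt` of an end structure
-/

set_option autoImplicit false
open Set

noncomputable section

namespace Crest.Agent.N255.En
open Tp Nv Pt Lv Ma Wn Cs

section gen
variable {ι S : Type} [DecidableEq ι] [MulAction (FreeGroup ι) S] {w : Wl ι S}
  {F : Subgroup (FreeGroup ι)} {X : Type} [TopologicalSpace X] [MulAction F X] {n : ℕ}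
  {ε R R' a b : ℝ} {A A' : Set S} {e e' : Ed ι}

namespace Lev
variable (N : Lev w F X)

/-- the pull back of a function of two labels, cut off outside the far set -/
def fz (R : ℝ) (x : S → S → ℤ) : Co ℤ 1 X := (On (hi N.r R)).res (lg N.lab x)

/-- far simplices whose labels form a clique in `A` -/
def Lb (R : ℝ) (A : Set S) : Tp.Sb X where
  S n := {σ | range σ ⊆ hi N.r R ∧ vl N.lab σ ∈ w.Ct A n}
  fc_mem _ σ i h := ⟨(range_fc σ i).trans h.1, by rw [vl_fc]; exact CT.tf h.2 i⟩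

/-- beyond the radius `R` the labels are adjacent and on the right side up to `ε` -/
structure Big (ε R : ℝ) : Prop where
  le : N.R0 ≤ R
  side : ∀ e x, R < N.r x → N.s e x < 1 - ε → N.lab x ∉ w.B e

theorem exists_big (h : 0 < ε) : ∃ R₀, ∀ R, R₀ ≤ R → N.Big ε R := by
  obtain ⟨R₁, h1⟩ := N.lab_side ε h
  exact ⟨max N.R0 R₁, fun R hR => ⟨(le_max_left _ _).trans hR,
    fun e x hx => h1 e x (((le_max_right _ _).trans hR).trans_lt hx)⟩⟩

variable {N}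

theorem Big.mono {ε' : ℝ} (h : N.Big ε R) (h1 : ε ≤ ε') (h2 : R ≤ R') : N.Big ε' R' :=
  ⟨h.le.trans h2, fun e x hx hs => h.side e x (h2.trans_lt hx) (by linarith)⟩

theorem Lb_mono (h : R ≤ R') (h' : A' ⊆ A) : (N.Lb R' A').Le (N.Lb R A) :=
  fun _ _ hσ => ⟨hσ.1.trans (hi_mono h), CT.mono h' hσ.2⟩

theorem Lb_far : (N.Lb R A).Le (On (hi N.r R)) := fun _ _ hσ => hσ.1

theorem Lb_lab {σ : Sx n X} (h : σ ∈ (N.Lb R A).S n) (i : Fin (n + 1)) : vl N.lab σ i ∈ A :=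
  h.2.1 ⟨i, rfl⟩

theorem Lb_cl {σ : Sx n X} (h : σ ∈ (N.Lb R A).S n) (i j : Fin (n + 1)) :
    Cl w.Γ (vl N.lab σ i) (vl N.lab σ j) := h.2.2 _ ⟨i, rfl⟩ _ ⟨j, rfl⟩

/-- small far simplices are labelled by cliques -/
theorem Big.sb (h : N.Big ε R') (hR : R ≤ R') {U : Set X} (hU : U ⊆ hi N.r R')
    (hA : ∀ x ∈ U, N.lab x ∈ A) : (N.Sb U).Le (N.Lb R A) := by
  rintro n σ ⟨h1, Y, hY, h2⟩
  refine ⟨(h1.trans hU).trans (hi_mono hR), ?_, ?_⟩
  · rintro _ ⟨p, rfl⟩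
    exact hA _ (h1 ⟨_, rfl⟩)
  · rintro _ ⟨p, rfl⟩ _ ⟨q, rfl⟩
    exact N.lab_cl Y hY _ (h2 ⟨_, rfl⟩) _ (h2 ⟨_, rfl⟩) (h.le.trans_lt (hU (h1 ⟨_, rfl⟩)))
      (h.le.trans_lt (hU (h1 ⟨_, rfl⟩)))


theorem Big.side' (h : N.Big ε R) {x : X} (hx : R < N.r x) (hs : ε < N.s e x) :
    N.lab x ∉ w.B (rev e) := h.side _ x hx (by rw [N.s_rev]; linarith)

theorem Big.lab_T (h : N.Big ε R) (ha : ε ≤ a) (hb : b ≤ 1 - ε) {x : X}
    (hx : x ∈ fw (N.s e) N.r a b R) : N.lab x ∈ w.T e :=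
  w.mem_T (h.side e x hx.1 (hx.2.2.trans_le hb)) (h.side' hx.1 (ha.trans_lt hx.2.1))

theorem Big.fw (h : N.Big ε R') (hR : R ≤ R') (ha : ε ≤ a) (hb : b ≤ 1 - ε) :
    (N.Sb (fw (N.s e) N.r a b R')).Le (N.Lb R (w.T e)) :=
  h.sb hR (fun _ hx => hx.1) fun _ hx => h.lab_T ha hb hx

theorem fz_far (x : S → S → ℤ) {σ : Sx 1 X} (h : range σ ⊆ hi N.r R) :
    N.fz R x σ = x (vl N.lab σ 0) (vl N.lab σ 1) := Sb.res_of_mem _ h

theorem fz_near (x : S → S → ℤ) {σ : Sx 1 X} (h : ¬range σ ⊆ hi N.r R) : N.fz R x σ = 0 :=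
  Sb.res_of_notMem _ h

theorem fz_e2 (x : S → S → ℤ) {σ : Sx n X} (h : range σ ⊆ hi N.r R) (i j : Fin (n + 1)) :
    N.fz R x (e2 σ i j) = x (vl N.lab σ i) (vl N.lab σ j) := by
  rw [fz_far x ((range_sub σ _).trans h), vl_e2]; rfl

theorem fz_zero {x : S → S → ℤ} {σ : Sx 1 X}
    (h : range σ ⊆ hi N.r R → x (vl N.lab σ 0) (vl N.lab σ 1) = 0) : N.fz R x σ = 0 := by
  by_cases k : range σ ⊆ hi N.r R
  · rw [fz_far x k, h k]
  · exact fz_near x k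


variable (N) (M : Md w)

/-- **the far class of the meridian of `e`** -/
def mz (R : ℝ) (e : Ed ι) : Co ℤ 1 X := N.fz R (M.mer e)

variable {N M}

theorem mz_cast (k : Type) [Field k] (σ : Sx 1 X) :
    (N.mz M R e σ : k) = (On (hi N.r R)).res (mc k N M e) σ := by
  by_cases h : range σ ⊆ hi N.r R
  · rw [mz, fz_far _ h, Sb.res_of_mem _ h]; rfl
  · rw [mz, fz_near _ h, Sb.res_of_notMem _ h, Int.cast_zero]

theorem mz_far (k : Type) [Field k] {σ : Sx 1 X} (h : range σ ⊆ hi N.r R) :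
    (N.mz M R e σ : k) = mc k N M e σ := (mz_cast k σ).trans (Sb.res_of_mem _ h)

theorem mz_Z (h : ∀ a ∈ A, a ∉ w.B e) : N.mz M R e ∈ (N.Lb R A).Z ℤ ℤ 1 := fun σ hσ => by
  simp only [cob_d1, d1, mz, fz_e2 _ hσ.1, M.mer_add e _ _ _ (h _ (Lb_lab hσ 0)) (h _ (Lb_lab hσ 1))
    (h _ (Lb_lab hσ 2)) (Lb_cl hσ 0 1) (Lb_cl hσ 1 2) (Lb_cl hσ 0 2)]
  ring

theorem mz_Z_T : N.mz M R e ∈ (N.Lb R (w.T e)).Z ℤ ℤ 1 := mz_Z (w.TB e)

theorem mz_Z_T' : N.mz M R (rev e) ∈ (N.Lb R (w.T e)).Z ℤ ℤ 1 := mz_Z fun _ h => w.T_nB h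

/-- the far class vanishes on and beyond the other walls behind `e` -/
theorem Big.mz_zero (h : N.Big ε R) (hb : Bey (rev e) e') {σ : Sx 1 X}
    (hσ : range σ ⊆ hi (N.s e') ε) : N.mz M R e σ = 0 := fz_zero fun k =>
  M.mer_zero e e' _ _ hb (h.side' (k ⟨_, rfl⟩) (hσ ⟨_, rfl⟩)) (h.side' (k ⟨_, rfl⟩) (hσ ⟨_, rfl⟩))


variable {k : Type} [Field k]

variable (N M) in
/-- **the far torus of the oriented edge `e`** (the `M` side is behind `e`) -/
def tor (R : ℝ) (e : Ed ι) (τ : Ch k 2 X) (h : τ ∈ (N.Lb R (w.T e)).ch k 2) (hc : bd k τ = 0) :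
    To k X where
  P := N.Lb R (w.T e)
  t := τ
  al := N.mz M R e
  be := N.mz M R (rev e)
  ht := h
  cy := hc
  ha := mz_Z_T
  hb := mz_Z_T'

theorem pz_mz {τ : Ch k 2 X} (h : τ ∈ (On (hi N.r R)).ch k 2) : Cs.pz (N.mz M R e) (N.mz M R e') τ =
    ev k (cup (LinearMap.mul k k) 2 (mc k N M e) (mc k N M e')) τ :=
  Sb.ev_congr (fun σ hσ => by
    rw [Pi.sub_apply, cup11, Int.cast_mul, mz_far k ((range_sub σ _).trans hσ),
      mz_far k ((range_sub σ _).trans hσ), LinearMap.mul_apply', sub_self]) h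

theorem tor_s {τ : Ch k 2 X} (h : τ ∈ (N.Lb R (w.T e)).ch k 2) (hc : bd k τ = 0) :
    (N.tor M R e τ h hc).s = ev k (cup (LinearMap.mul k k) 2 (mc k N M e) (mc k N M (rev e))) τ :=
  pz_mz (Sb.ch_mono Lb_far h)

/-- the intersection number of the boundary of a wall -/
theorem tor_s_wr [T2Space X] {O : Ori k 3 X} {u : kˣ} (hd : N.Deg M O u) (e : Ed ι) (h0 : 0 < a)
    (h1 : a < b) (h2 : b < 1) : ∃ R₀, ∀ R', R₀ ≤ R' → ∀ c, Wr O N.cv (N.s e) N.r a b R' c →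
      bd k c ∈ (Sm N.cv).ch k 2 → ∀ R h hc, (N.tor M R e (bd k c) h hc).s = u := by
  obtain ⟨R₀, h3⟩ := deg_wr N M hd e h0 h1 h2
  exact ⟨R₀, fun R' hR c hc hs R h _ => (tor_s h _).trans (h3 R' hR c hc hs)⟩

variable [ContinuousConstSMul F X]

theorem vl_tr (f : F) (σ : Sx n X) (i : Fin (n + 1)) :
    vl N.lab ((Uc.tr f).comp σ) i = f.1 • vl N.lab σ i := N.lab_smul f _

theorem far_tr (f : F) (σ : Sx n X) :
    range ((Uc.tr f).comp σ) ⊆ hi N.r R ↔ range σ ⊆ hi N.r R := by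
  simp only [range_subset_iff, hi, mem_ofPred_eq]
  exact forall_congr' fun p => by rw [← N.r_smul f (σ p)]; rfl

theorem mz_tr (f : F) (σ : Sx 1 X) : N.mz M R (f.1 • e) ((Uc.tr f).comp σ) = N.mz M R e σ := by
  by_cases h : range σ ⊆ hi N.r R
  · rw [mz, mz, fz_far _ h, fz_far _ ((far_tr f σ).2 h), vl_tr, vl_tr, M.mer_smul]
  · rw [mz, mz, fz_near _ h, fz_near _ (mt (far_tr f σ).1 h)]

theorem Lb_tr (f : F) {σ : Sx n X} :
    (Uc.tr f).comp σ ∈ (N.Lb R (w.T (f.1 • e))).S n ↔ σ ∈ (N.Lb R (w.T e)).S n := by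
  refine and_congr (far_tr f σ) (and_congr ?_ ?_)
  · simp only [range_subset_iff, vl_tr, w.T_smul]
  · simp only [Cq, forall_mem_range, vl_tr, Cl, w.adj_smul, smul_left_cancel_iff]

end Lev

end gen

variable {S : Type} [MulAction F3 S] {w : Wl (Fin 3) S} {F : Subgroup F3} {X : Type}
  [TopologicalSpace X] [MulAction F X] {n : ℕ} {ε R R' : ℝ} {v : F3} {h t : Fin 3 → Bool}

theorem bey_deep {e : Ed (Fin 3)} (he : Out v 1 e) (hn : ∀ j, ¬Bey (st v h j) e) (j : Fin 3) :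
    Bey (rev (st v h j)) e := by
  obtain ⟨l, hl⟩ := out_one he
  exact (bey_same (e := st v h j) (e' := ⟨v, l⟩) rfl fun q => hn j (q ▸ hl)).trans hl

namespace Lev
variable (N : Lev w F X) {M : Md w}

/-- the deep parts of the unused half trees -/
def Dv (v : F3) (h : Fin 3 → Bool) (ε : ℝ) : Set (Set X) :=
  {D | ∃ e, Out v 1 e ∧ (∀ j, Bey (rev (st v h j)) e) ∧ D = hi (N.s e) ε}

/-- the end of the vertex region: far labelled simplices and deep small simplices -/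
def Pv (v : F3) (h : Fin 3 → Bool) (ε R : ℝ) : Tp.Sb X :=
  (N.Lb R (w.Mod (stJ v h))).sup ((Sm (N.Dv v h ε)).inf (Sm N.cv))

variable {N}

theorem Lb_le_Pv : (N.Lb R (w.Mod (stJ v h))).Le (N.Pv v h ε R) := Sb.le_sup_left

theorem T_le_Pv (j : Fin 3) : (N.Lb R (w.T (st v h j))).Le (N.Pv v h ε R) :=
  (Lb_mono le_rfl (Wl.T_Mod3 j)).trans Lb_le_Pv

theorem deep_le_Pv {e : Ed (Fin 3)} (he : Out v 1 e) (hb : ∀ j, Bey (rev (st v h j)) e) {U : Set X}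
    (hU : U ⊆ hi (N.s e) ε) : (N.Sb U).Le (N.Pv v h ε R) :=
  fun _ _ hσ => .inr ⟨⟨_, ⟨e, he, hb, rfl⟩, hσ.1.trans hU⟩, hσ.2⟩

theorem Big.x_deep (hB : N.Big ε R) (i : Fin 3) {σ : Sx 1 X} (hσ : σ ∈ (Sm (N.Dv v h ε)).S 1) :
    N.mz M R (st v h i) σ = 0 := by
  obtain ⟨_, ⟨e, -, hb, rfl⟩, h1⟩ := hσ
  exact hB.mz_zero (hb i) h1

theorem Big.y_deep (hB : N.Big ε R) (L : Gm w M) (i j : Fin 3) {σ : Sx 1 X}
    (hσ : σ ∈ ((Sm (N.Dv v h ε)).inf (Sm N.cv)).S 1) : N.fz R (L.y v h i j) σ = 0 := by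
  obtain ⟨⟨_, ⟨e, he, -, rfl⟩, h1⟩, Y, hY, h2⟩ := hσ
  exact fz_zero fun k => L.y_zero v h i j e _ _ he (hB.side' (k ⟨_, rfl⟩) (h1 ⟨_, rfl⟩))
    (hB.side' (k ⟨_, rfl⟩) (h1 ⟨_, rfl⟩)) (N.lab_cl Y hY _ (h2 ⟨_, rfl⟩) _ (h2 ⟨_, rfl⟩)
      (hB.le.trans_lt (k ⟨_, rfl⟩)) (hB.le.trans_lt (k ⟨_, rfl⟩)))

/-- **the Magnus labels on the end of a vertex region** -/
def mg (hB : N.Big ε R) (L : Gm w M) (v : F3) (h : Fin 3 → Bool) : Cs.Mg (Fin 3) X where
  P := N.Pv v h ε R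
  x i := N.mz M R (st v h i)
  y i j := N.fz R (L.y v h i j)
  hx i σ hσ := hσ.elim (mz_Z (fun _ q => Wl.mem_Mod3.1 q i) σ) fun q => by
    have z := fun a b (l : a < b) => hB.x_deep (M := M) i (e2_mem _ q l).1
    simp only [cob_d1, d1, z 0 1 (by decide), z 0 2 (by decide), z 1 2 (by decide)]
    simp
  hy i j σ hσ := hσ.elim (fun q => by
    simp only [mz, fz_e2 _ q.1]
    exact L.y_add v h i j _ _ _ (Lb_lab q 0) (Lb_lab q 1) (Lb_lab q 2) (Lb_cl q 0 1) (Lb_cl q 1 2)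
      (Lb_cl q 0 2)) fun q => by
    have z := fun a b (l : a < b) => hB.y_deep L i j (e2_mem _ q l)
    rw [z 0 1 (by decide), z 0 2 (by decide), z 1 2 (by decide),
      hB.x_deep i (e2_mem _ q (show (0 : Fin 3) < 1 by decide)).1]
    simp

variable {k : Type} [Field k] {e : Fin 3 → Ed (Fin 3)}

theorem T_ek (he : ∀ j, e j = if t j then st v h j else rev (st v h j)) (j : Fin 3) :
    w.T (e j) = w.T (st v h j) := by
  rw [he]; split_ifs
  exacts [rfl, w.T_rev _]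

theorem tor_mer (he : ∀ j, e j = if t j then st v h j else rev (st v h j)) (j : Fin 3) {τ : Ch k 2 X}
    (h1 : τ ∈ (N.Lb R (w.T (e j))).ch k 2) (h2 : bd k τ = 0) :
    (N.tor M R (e j) τ h1 h2).mer (t j) = N.mz M R (st v h j) := by
  have := he j
  simp only [To.mer, tor]
  split_ifs at this ⊢ <;> simp only [this, rev_rev]

theorem tor_lon (he : ∀ j, e j = if t j then st v h j else rev (st v h j)) (j : Fin 3) {τ : Ch k 2 X}
    (h1 : τ ∈ (N.Lb R (w.T (e j))).ch k 2) (h2 : bd k τ = 0) :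
    (N.tor M R (e j) τ h1 h2).lon (t j) = N.mz M R (rev (st v h j)) := by
  have := he j
  simp only [To.lon, tor]
  split_ifs at this ⊢ <;> simp only [this]

theorem x_wall (i j : Fin 3) {σ : Sx 1 X} (hσ : σ ∈ (N.Lb R (w.T (st v h j))).S 1) :
    N.mz M R (st v h i) σ = if i = j then N.mz M R (st v h j) σ else 0 := by
  simp only [mz, fz_far _ hσ.1]
  exact M.mer_wall i j (Lb_lab hσ 0) (Lb_lab hσ 1)

theorem y_wall (L : Gm w M) (i l j : Fin 3) {σ : Sx 1 X} (hσ : σ ∈ (N.Lb R (w.T (st v h j))).S 1) :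
    N.fz R (L.y v h i l) σ =
      (if i = j ∧ l = j then N.mz M R (st v h j) σ * (N.mz M R (st v h j) σ - 1) / 2 else 0) +
        lc3 i l j * (L.ε v h : ℤ) * N.mz M R (rev (st v h j)) σ := by
  simp only [mz, fz_far _ hσ.1]
  exact L.y_wall v h i l j _ _ (Lb_lab hσ 0) (Lb_lab hσ 1) (Lb_cl hσ 0 1)

/-- **the end of a vertex region**: half edges `st v h j`, types `t j`, oriented edges `e j` -/
def vt (hB : N.Big ε R) (L : Gm w M) (he : ∀ j, e j = if t j then st v h j else rev (st v h j))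
    (τ : Fin 3 → Ch k 2 X) (h1 : ∀ j, τ j ∈ (N.Lb R (w.T (e j))).ch k 2) (h2 : ∀ j, bd k (τ j) = 0)
    (c : Ch k 3 X) (hc : c ∈ (N.Pv v h ε R).ch k 3)
    (hb : bd k c + ∑ j, (if t j then τ j else -τ j) = 0) : Vt k X t where
  M := mg hB L v h
  T j := N.tor M R (e j) (τ j) (h1 j) (h2 j)
  e := L.ε v h
  c := c
  le j := by
    show (N.Lb R (w.T (e j))).Le _
    rw [T_ek he]; exact T_le_Pv j
  hx j i σ hσ := by
    rw [tor_mer he]
    exact x_wall i j (T_ek (w := w) he j ▸ hσ)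
  hy j i l σ hσ := by
    rw [tor_mer he, tor_lon he]
    exact y_wall L i l j (T_ek (w := w) he j ▸ hσ)
  hc := hc
  hb := hb

theorem eps_sq (L : Gm w M) : (L.ε v h : ℤ) * (L.ε v h : ℤ) = 1 := by
  rw [← Units.val_mul, Int.units_mul_self, Units.val_one]

end Lev

end Crest.Agent.N255.En

end
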