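import Crest.Agent.N255.Sg.Fu
import Crest.Agent.N255.En.Vt

-- ▼ part N255/Vc/En
section

/-!
# Row 255 (helper83): wall chains and vertex chains of an end structure
-/

set_option autoImplicit false
open Set
open scoped Pointwise

noncomputable section

namespace Crest.Agent.N255.Vc

open Tp Wn En Pt Lv Ma

section gen
variable {ι S : Type} [DecidableEq ι] [MulAction (FreeGroup ι) S] {w : En.Wl ι S}
  {F : Subgroup (FreeGroup ι)} {X : Type} [TopologicalSpace X] [MulAction F X] (N : Lev w F X)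
  {k : Type} [Field k] {d : ℕ} {O : Ori k (d + 1) X} {e : Ed ι} {a b ε R R' R₀ : ℝ}
  {σ : Ch k (d + 1) X} {𝒱 : Set (Set X)}





variable [T2Space X]

/-- the wall of the reversed edge -/
theorem wr_rv (h : Wr O N.cv (N.s e) N.r a b R σ) :
    Wr O N.cv (N.s (rev e)) N.r (1 - b) (1 - a) R (-σ) :=
  wr_neg N.cv_open N.cv_cover (N.s_rev e) h


omit [T2Space X] in
/-- edges pointing away from each other have disjoint outer sides -/
theorem sep {e e' : Ed ι} (h : Bey (rev e) e') (ha : 0 ≤ a) (hb : 0 ≤ b) (x : X) :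
    N.s e x ≤ a ∨ N.s e' x ≤ b := by
  have h1 := N.s_bey _ _ x h
  rw [N.s_rev] at h1
  by_contra hn
  rw [not_or, not_le, not_le] at hn
  linarith [hn.1, hn.2]

end gen

variable {S : Type} [MulAction F3 S] {w : En.Wl (Fin 3) S} {F : Subgroup F3} {X : Type}
  [TopologicalSpace X] [MulAction F X] (N : Lev w F X) {k : Type} [Field k]
  {O : Ori k 3 X} {v : F3} {h t : Fin 3 → Bool} {e : Fin 3 → Ed (Fin 3)} {a b : Fin 3 → ℝ}
  {ε C R R' R₀ : ℝ} {σ : Fin 3 → Ch k 3 X} {𝒱 : Set (Set X)}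

/-- the vertex region up to the outer levels of the windows `(a j, b j)` of the oriented edges -/
def vreg (v : F3) (h t : Fin 3 → Bool) (a b : Fin 3 → ℝ) : Set X :=
  core (fun j => N.s (st v h j)) fun j => if t j then b j else 1 - a j

/-- the closed vertex region up to the inner levels of the windows -/
def vinn (v : F3) (h t : Fin 3 → Bool) (a b : Fin 3 → ℝ) : Set X :=
  Sg.inn (fun j => N.s (st v h j)) fun j => if t j then a j else 1 - b j


theorem isClosed_vinn : IsClosed (vinn N v h t a b) := by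
  rw [vinn, Sg.inn, setOf_forall]
  exact isClosed_iInter fun j => isClosed_le (N.s _).continuous continuous_const



theorem isOpen_Dv : ∀ U ∈ N.Dv v h C, IsOpen U := by
  rintro _ ⟨_, -, -, rfl⟩; exact isOpen_hi


/-- off a compact set the vertex region is far or deep -/
theorem core_cover {c : Fin 3 → ℝ} (hc : ∀ j, c j ≤ 1) (hC : 0 ≤ C) (R : ℝ) :
    core (fun j => N.s (st v h j)) c \ {x | N.r x ≤ R ∧ ∀ e, Out v 1 e → N.s e x ≤ C} ⊆
      hi N.r R ∪ ⋃₀ N.Dv v h C := by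
  rintro x ⟨h1, h2⟩
  by_cases hr : R < N.r x
  · exact .inl hr
  simp only [mem_ofPred_eq, not_and, not_forall, not_le] at h2
  obtain ⟨e, h3, h4⟩ := h2 (not_lt.1 hr)
  exact .inr ⟨_, ⟨e, h3, bey_deep h3 fun j hj => by
    linarith [N.s_bey _ _ x hj, show N.s (st v h j) x < c j from h1 j, hc j], rfl⟩, h4⟩

variable [T2Space X]

/-- **the chains of a vertex**: `ρ` fills the region between the walls, the end `c` is far or deep and avoids
the compact set `Q` -/
theorem exists_rc (he : ∀ j, e j = if t j then st v h j else rev (st v h j))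
    (hw : ∀ j, Wr O N.cv (N.s (e j)) N.r (a j) (b j) R (σ j)) (ha : ∀ j, 0 ≤ a j) (hb : ∀ j, b j ≤ 1)
    (hV : ∀ U ∈ 𝒱, IsOpen U) (hV' : vreg N v h t a b ⊆ ⋃₀ 𝒱) (hs : ∀ j, σ j ∈ (Sm 𝒱).ch k 3)
    (hC : 0 ≤ C) {Q : Set X} (hQ : IsCompact Q) (hQR : ∀ x ∈ Q, N.r x ≤ R) :
    ∃ ρ ∈ ((On (vreg N v h t a b)).inf (Sm 𝒱)).ch k 4,
      ∃ c ∈ (((On (vreg N v h t a b \ Q)).inf ((On (hi N.r R)).sup (Sm (N.Dv v h C)))).inf (Sm 𝒱)).ch k 3,
        (bd k ρ = c + ∑ j, if t j then σ j else -σ j) ∧ O.Fund (Q ∩ vinn N v h t a b) ρ := by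
  have hw' : ∀ j, Wr O N.cv (N.s (st v h j)) N.r (if t j then a j else 1 - b j)
      (if t j then b j else 1 - a j) R (if t j then σ j else -σ j) := fun j => by
    have h1 := he j
    have h2 := hw j
    split_ifs at h1 ⊢
    · rwa [h1] at h2
    · simpa [h1] using wr_rv N h2
  have hd : ∀ i j, i ≠ j → ∀ x, N.s (st v h i) x ≤ (if t i then a i else 1 - b i) ∨
      N.s (st v h j) x ≤ (if t j then a j else 1 - b j) := fun i j n =>
    sep N (st_bey v h n) (by split_ifs <;> linarith [ha i, hb i]) (by split_ifs <;> linarith [ha j, hb j])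
  obtain ⟨ρ, h1, c, h2, e, f⟩ := Sg.vertexF N.cv_open N.cv_cover (R := fun _ => R)
    (𝒲 := insert (hi N.r R) (N.Dv v h C)) hw' hd ((N.cpt v 1 R C).union hQ) hV hV'
    (fun j => by split_ifs; exacts [hs j, neg_mem (hs j)])
    (by rintro _ (rfl | hU); exacts [isOpen_hi, isOpen_Dv N _ hU])
    ((sdiff_subset_sdiff_right subset_union_left).trans
      ((core_cover N (fun j => by split_ifs <;> linarith [ha j, hb j]) hC R).trans (by rw [sUnion_insert])))
    fun j => ⟨_, mem_insert _ _, fun _ hx => hx.1⟩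
  refine ⟨ρ, h1, c, fun τ hτ => ⟨⟨(h2 hτ).1.1.trans (union_subset
    (sdiff_subset_sdiff_right subset_union_right) (iUnion_subset fun j x hx =>
      ⟨win_core hw' hd j hx.2, fun q => (hQR x q).not_gt hx.1⟩)), ?_⟩, (h2 hτ).2⟩, e,
    f.mono (hQ.inter_right (isClosed_vinn N)) (((N.cpt v 1 R C).union hQ).inter_right (isClosed_vinn N))
      (inter_subset_inter_left _ subset_union_right)⟩
  obtain ⟨_, rfl | hU, h3⟩ := (h2 hτ).1.2
  exacts [.inl h3, .inr ⟨_, hU, h3⟩]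





end Crest.Agent.N255.Vc

end
end

-- ▼ part N255/En/Off

/-!
# Row 255 (helper87): small simplices outside a compact set are far or deep
-/

set_option autoImplicit false
open Set

noncomputable section

namespace Crest.Agent.N255.En
open Tp Nv Pt Lv Ma Wn Vc


namespace Lev

section gen
variable {ι S : Type} [DecidableEq ι] [MulAction (FreeGroup ι) S] {w : Wl ι S}
  {F : Subgroup (FreeGroup ι)} {X : Type} [TopologicalSpace X] [MulAction F X] (N : Lev w F X)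
  {ε R R₀ a b : ℝ} {B : Set X}

/-- compact sets have bounded radius -/
theorem exists_rad (hB : IsCompact B) : ∃ R₁, ∀ R, R₁ ≤ R → ∀ x ∈ B, N.r x ≤ R :=
  let ⟨R₁, h⟩ := hB.bddAbove_image N.r.continuous.continuousOn
  ⟨R₁, fun _ hR x hx => (h ⟨x, hx, rfl⟩).trans hR⟩

theorem hi_off (h : ∀ x ∈ B, N.r x ≤ R) : hi N.r R ⊆ Bᶜ := fun x hx c => (h x c).not_gt hx

theorem fw_off (h : ∀ x ∈ B, N.r x ≤ R) (e : Ed ι) : fw (N.s e) N.r a b R ⊆ Bᶜ :=
  fun _ hx => N.hi_off h hx.1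

/-- off a compact set a window is far -/
theorem exists_off_win (e : Ed ι) (a b R : ℝ) :
    ∃ B, IsCompact B ∧ win (N.s e) a b \ B ⊆ fw (N.s e) N.r a b R :=
  ⟨_, N.cpt_w e R (max |a| |b|), fun x ⟨h1, h2⟩ => ⟨not_le.1 fun c => h2 ⟨c, abs_le.2
    ⟨by linarith [show a < N.s e x from h1.1, neg_abs_le a, le_max_left |a| |b|],
      by linarith [show N.s e x < b from h1.2, le_abs_self b, le_max_right |a| |b|]⟩⟩, h1⟩⟩

/-- off a compact set the small simplices of a window are labelled by the wall -/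
theorem exists_off_Lb (hB : N.Big ε R) (h0 : R₀ ≤ R) (e : Ed ι) :
    ∃ B, IsCompact B ∧ ∀ B', B ⊆ B' → ∀ a b, ε ≤ a → b ≤ 1 - ε →
      ((N.Sb (win (N.s e) a b)).inf (On B'ᶜ)).Le (N.Lb R₀ (w.T e)) := by
  obtain ⟨B, h1, h2⟩ := N.exists_off_win e ε (1 - ε) R
  exact ⟨B, h1, fun B' h a b ha hb n σ hσ => hB.fw h0 le_rfl le_rfl n ⟨fun x hx =>
    h2 ⟨⟨ha.trans_lt (hσ.1.1 hx).1, (hσ.1.1 hx).2.trans_le hb⟩, fun c => hσ.2 hx (h c)⟩, hσ.1.2⟩⟩

end gen

variable {S : Type} [MulAction F3 S] {w : Wl (Fin 3) S} {F : Subgroup F3} {X : Type}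
  [TopologicalSpace X] [MulAction F X] (N : Lev w F X) (v : F3) (h : Fin 3 → Bool) {ε R R₀ : ℝ}

/-- off a compact set the small simplices of the vertex region are far or deep -/
theorem exists_off (R : ℝ) {C : ℝ} (hC : 0 ≤ C) : ∃ B, IsCompact B ∧ ∀ B', B ⊆ B' → ∀ c : Fin 3 → ℝ,
    (∀ j, c j ≤ 1) → ((N.Sb (core (fun j => N.s (st v h j)) c)).inf (On B'ᶜ)).Le
      ((On (hi N.r R)).sup (Sm (N.Dv v h C))) := by
  obtain ⟨D, hD⟩ := N.r_lip
  obtain ⟨D', hD'⟩ := N.s_lip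
  refine ⟨_, N.cpt v 1 (R + D) (C + |D'|), fun B' hB c hc n σ ⟨⟨h1, U, hU, h2⟩, h3⟩ => ?_⟩
  obtain ⟨x, hx⟩ := range_nonempty σ
  rcases core_cover N hc (add_nonneg hC (abs_nonneg D')) (R + D) ⟨h1 hx, fun q => h3 hx (hB q)⟩ with
    q | ⟨_, ⟨e, q1, q2, rfl⟩, q⟩
  · exact .inl fun y hy => show R < N.r y by
      linarith [hD U hU y (h2 hy) x (h2 hx), show R + D < N.r x from q]
  · exact .inr ⟨_, ⟨e, q1, q2, rfl⟩, fun y hy => show C < N.s e y by
      linarith [hD' e U hU y (h2 hy) x (h2 hx), show C + |D'| < N.s e x from q, le_abs_self D']⟩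

/-- **off a compact set the small simplices of the vertex region belong to the end `Pv`** -/
theorem exists_off_Pv (hε : 0 ≤ ε) (hB : N.Big ε R) (h0 : R₀ ≤ R) : ∃ B, IsCompact B ∧ ∀ B', B ⊆ B' →
    ∀ c : Fin 3 → ℝ, (∀ j, c j ≤ 1 - ε) →
      ((N.Sb (core (fun j => N.s (st v h j)) c)).inf (On B'ᶜ)).Le (N.Pv v h ε R₀) := by
  obtain ⟨B, h1, h2⟩ := N.exists_off v h R hε
  refine ⟨B, h1, fun B' hB' c hc n σ hσ => ?_⟩
  rcases h2 B' hB' c (fun j => (hc j).trans (by linarith)) n hσ with q | q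
  · refine .inl (hB.sb h0 (U := range σ) q (fun x hx => ?_) n ⟨fun _ a => a, hσ.1.2⟩)
    exact Wl.mem_Mod3.2 fun j => hB.side _ x (q hx) ((hσ.1.1 hx j).trans_le (hc j))
  · exact .inr ⟨q, hσ.1.2⟩

end Lev

end Crest.Agent.N255.En

end
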