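import Crest.Agent.N255.En.Defs
import Crest.Agent.N233.PS.Gr
import Crest.Agent.N233.Lo.Nev
import Crest.Agent.N233.Lo.Mir
import Crest.Agent.N255.Lv.Tm
import Crest.Agent.N233.Lo.Defs
import Crest.Agent.N255.Ch.Amb
import Crest.Agent.N255.Dg.Car
import Crest.Agent.N255.Nv.Ctg
import Crest.Agent.N255.En.MdA
import Crest.Agent.N255.Ma.Geo
import Crest.Agent.N233.Pb.Nb
import Crest.Agent.N233.Lo.Blk
import Crest.Agent.N255.En.Lev
import Crest.Agent.N255.En.LevG
import Crest.Agent.N255.En.Wl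

-- ▼ part N233/Lo/Wl
section

/-!
# Row 233 (helper60): the walls of the subdivision `ps X`

A group acting on a graph `Γ` acts on the subdivision `ps Γ.IsClique`; a wall system `w : Wl ι S` gives the
wall system `w.ps` with `T* e = {a | car a ⊆ T e}` and `B* e = {a | car a meets B e}`.
-/

set_option autoImplicit false
open Set

noncomputable section

namespace Crest.Agent.N233.Lo

open PS Crest.Agent.N255 Crest.Agent.N255.En Crest.Agent.N255.Nv Crest.Agent.N255.Pt Crest.Agent.N255.Lv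

/-- the action preserves the graph -/
class Inv (G : Type) {S : Type} [SMul G S] (Γ : SimpleGraph S) : Prop where
  adj_smul : ∀ (f : G) a b, Γ.Adj (f • a) (f • b) ↔ Γ.Adj a b

section act
variable {G S : Type} [Group G] [MulAction G S] {Γ : SimpleGraph S}

theorem Inv.nd [Inv G Γ] (f : G) : Nd Γ.IsClique Γ.IsClique fun a => f • a := fun s hs =>
  ⟨(MulAction.injective f).injOn, by
    rintro _ ⟨a, ha, rfl⟩ _ ⟨b, hb, rfl⟩ h
    exact (Inv.adj_smul f a b).2 (hs ha hb fun e => h (congrArg _ e))⟩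

theorem Inv.cl_smul [Inv G Γ] (f : G) (a b : S) : Cl Γ (f • a) (f • b) ↔ Cl Γ a b :=
  or_congr (MulAction.injective f).eq_iff (Inv.adj_smul f a b)

/-- the action on the vertices of the subdivision -/
instance psAct [Inv G Γ] : MulAction G (PV Γ.IsClique) where
  smul f := pm (Inv.nd f)
  one_smul a := (pm_congr _ Nd.id fun v _ => one_smul G v).trans (pm_id a)
  mul_smul f g a := (pm_congr _ ((Inv.nd f).comp (Inv.nd g)) fun v _ => mul_smul f g v).trans
    (pm_comp (Inv.nd f) (Inv.nd g) a)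

theorem smul_def [Inv G Γ] (f : G) (a : PV Γ.IsClique) : f • a = pm (Inv.nd f) a := rfl

theorem car_smul [Inv G Γ] (f : G) (a : PV Γ.IsClique) : car (f • a) = (fun v => f • v) '' car a :=
  car_pm _ a


instance psInv [Inv G Γ] : Inv G (ps Γ.IsClique) :=
  ⟨fun f a b => ⟨fun h => by simpa only [← smul_def, inv_smul_smul] using pm_adj (Inv.nd f⁻¹) h,
    pm_adj (Inv.nd f)⟩⟩

end act

section basic
variable {S : Type} {Γ : SimpleGraph S}

theorem cq_iff {s : Set S} : Cq (Cl Γ) s ↔ Γ.IsClique s :=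
  ⟨fun h a ha b hb e => (h a ha b hb).resolve_left e, fun h a ha b hb => by
    by_cases e : a = b
    exacts [.inl e, .inr (h ha hb e)]⟩

/-- carriers of adjacent vertices span a clique -/
theorem cl_car {a b : PV Γ.IsClique} (h : Cl (ps Γ.IsClique) a b) {u v : S} (hu : u ∈ car a)
    (hv : v ∈ car b) : Cl Γ u v := by
  rcases h with rfl | h
  · exact cq_iff.2 (car_face a) u hu v hv
  · exact cq_iff.2 h.1 u (.inl hu) v (.inr hv)

theorem finite_up {X : Set S → Prop} {A : Set S} (hA : A.Finite) : {a : PV X | car a ⊆ A}.Finite := by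
  have := hA.to_subtype
  refine Set.Finite.of_injOn (f := fun a (v : A) => a.1 v) (t := univ) (mapsTo_univ _ _)
    (fun a ha b hb e => PV.ext (Finsupp.ext fun v => ?_)) finite_univ
  by_cases hv : v ∈ A
  · exact congrFun e ⟨v, hv⟩
  · rw [not_not.1 (mt (fun h => ha (mem_car.2 h)) hv), not_not.1 (mt (fun h => hb (mem_car.2 h)) hv)]

end basic

/-- half links in the subdivision are non-evasive (helper80) -/
def NevS : Prop :=
  ∀ (S : Type) (Γ : SimpleGraph S), Cx Γ.IsClique → ∀ P Q : Set S, P.Finite → Disjoint P Q →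
    (∀ s : Finset S, s.Nonempty → ↑s ⊆ P → Cq (Cl Γ) s →
      ∃ m, Nev (Cl Γ) m {b | b ∈ Q ∧ ∀ a ∈ s, Cl Γ a b}) →
    ∀ s : Finset (PV Γ.IsClique), s.Nonempty → (∀ a ∈ s, car a ⊆ P) → Cq (Cl (ps Γ.IsClique)) s →
      ∃ m, Nev (Cl (ps Γ.IsClique)) m
        {b | (car b ⊆ P ∪ Q ∧ (car b ∩ Q).Nonempty) ∧ ∀ a ∈ s, Cl (ps Γ.IsClique) a b}

variable {ι S : Type} [DecidableEq ι] [MulAction (FreeGroup ι) S]

omit [DecidableEq ι] in
/-- finitely many orbits: the depth of the decision trees is bounded -/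
theorem nev_unif [Finite ι] {Γ : SimpleGraph S} [Inv (FreeGroup ι) Γ] {T B : Ed ι → Set S}
    (hT : ∀ (f : FreeGroup ι) e a, f • a ∈ T (f • e) ↔ a ∈ T e)
    (hB : ∀ (f : FreeGroup ι) e a, f • a ∈ B (f • e) ↔ a ∈ B e) (hf : ∀ e, (T e).Finite)
    (h : ∀ e (s : Finset S), s.Nonempty → ↑s ⊆ T e → Cq (Cl Γ) s →
      ∃ m, Nev (Cl Γ) m {b | b ∈ B e ∧ ∀ a ∈ s, Cl Γ a b}) :
    ∃ m, ∀ e (s : Finset S), s.Nonempty → ↑s ⊆ T e → Cq (Cl Γ) s →
      Nev (Cl Γ) m {b | b ∈ B e ∧ ∀ a ∈ s, Cl Γ a b} := by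
  classical
  choose! m hm using h
  have fin : (⋃ k : ι × Bool, m ⟨1, k⟩ '' {s : Finset S | ↑s ⊆ T ⟨1, k⟩}).Finite :=
    finite_iUnion fun k => (Set.Finite.of_injOn (f := fun s : Finset S => (s : Set S))
      (t := {t | t ⊆ T ⟨1, k⟩}) (fun _ h => h) Finset.coe_injective.injOn (hf _).finite_subsets).image _
  obtain ⟨M, hM⟩ := fin.bddAbove
  refine ⟨M, fun e s hne hs hq => ?_⟩
  obtain ⟨g, k⟩ := e
  have he : (⟨g, k⟩ : Ed ι) = g • (⟨1, k⟩ : Ed ι) := L.ext (mul_one g).symm rfl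
  have h1 : ↑(s.image fun a => g⁻¹ • a) ⊆ T ⟨1, k⟩ := by
    rw [Finset.coe_image]
    rintro _ ⟨a, ha, rfl⟩
    rw [← hT g, smul_inv_smul, ← he]
    exact hs ha
  have h2 := (hm ⟨1, k⟩ _ (hne.image _) h1 (by
    rw [Finset.coe_image]
    rintro _ ⟨a, ha, rfl⟩ _ ⟨b, hb, rfl⟩
    exact (Inv.cl_smul _ a b).2 (hq a ha b hb))).mono (hM (mem_iUnion.2 ⟨k, _, h1, rfl⟩))
  convert h2.image (MulAction.injective g) (Inv.cl_smul g) using 1
  ext b
  obtain ⟨b, rfl⟩ := MulAction.surjective g b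
  rw [(MulAction.injective g).mem_set_image, mem_ofPred_eq, mem_ofPred_eq, he, hB,
    Finset.forall_mem_image]
  refine and_congr_right fun _ => forall_congr' fun a => imp_congr_right fun _ => ?_
  rw [← Inv.cl_smul g (g⁻¹ • a), smul_inv_smul]

instance wlInv (w : Wl ι S) : Inv (FreeGroup ι) w.Γ := ⟨w.adj_smul⟩

end Crest.Agent.N233.Lo

namespace Crest.Agent.N255.En.Wl

open Crest.Agent.N233 Crest.Agent.N233.PS Crest.Agent.N233.Lo Nv Pt Lv

variable {ι S : Type} [DecidableEq ι] [MulAction (FreeGroup ι) S] (w : Wl ι S)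

theorem cx : Cx w.Γ.IsClique :=
  cx_of_card (fun h1 h2 => h2.subset h1) fun s hs => w.dim s (cq_iff.2 hs)

/-- a clique meeting `B e` lies in `T e ∪ B e` -/
theorem car_sub {e : Ed ι} {a : PV w.Γ.IsClique} (h : (car a ∩ w.B e).Nonempty) :
    car a ⊆ w.T e ∪ w.B e := fun v hv => by
  obtain ⟨u, hu, hu'⟩ := h
  rcases w.tri e v with h | h | h
  exacts [.inl h, .inr h, (w.BB e u v hu' h (cl_car (Cl.rfl a) hu hv)).elim]

/-- **the walls of the subdivision** -/
def ps [Finite ι] [hN : Fact NevS] : Wl ι (PV w.Γ.IsClique) :=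
  have hT : ∀ (f : FreeGroup ι) e (a : PV w.Γ.IsClique),
      f • a ∈ {a | car a ⊆ w.T (f • e)} ↔ a ∈ {a | car a ⊆ w.T e} := fun f e a => by
    simp only [mem_ofPred_eq, car_smul, image_subset_iff]
    exact forall₂_congr fun v _ => w.T_smul f e v
  have hB : ∀ (f : FreeGroup ι) e (a : PV w.Γ.IsClique),
      f • a ∈ {a | (car a ∩ w.B (f • e)).Nonempty} ↔ a ∈ {a | (car a ∩ w.B e).Nonempty} := fun f e a => by
    simp only [mem_ofPred_eq, car_smul, image_inter_nonempty_iff]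
    exact exists_congr fun v => and_congr_right fun _ => w.B_smul f e v
  { Γ := PS.ps w.Γ.IsClique
    adj_smul := Inv.adj_smul
    dim := fun s hs => card_le w.cx s (cq_iff.1 hs)
    T := fun e => {a | car a ⊆ w.T e}
    B := fun e => {a | (car a ∩ w.B e).Nonempty}
    T_rev := fun e => by rw [w.T_rev]
    T_smul := hT
    B_smul := hB
    T_fin := fun e => finite_up (w.T_fin e)
    T_ne := fun e => by
      obtain ⟨v, hv⟩ := w.T_ne e
      exact ⟨corner v (w.Γ.isClique_singleton v), by rwa [mem_ofPred_eq, car_corner, singleton_subset_iff]⟩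
    tri := fun e a => by
      by_cases h : car a ⊆ w.T e
      · exact .inl h
      obtain ⟨v, hv, h'⟩ := not_subset.1 h
      exact .inr (((w.tri e v).resolve_left h').imp (fun h => ⟨v, hv, h⟩) fun h => ⟨v, hv, h⟩)
    TB := fun e a h ⟨v, hv, h'⟩ => w.TB e v (h hv) h'
    BB := fun e a b ⟨u, hu, hu'⟩ ⟨v, hv, hv'⟩ h => w.BB e u v hu' hv' (cl_car h hu hv)
    bey := fun e e' h a ha => by
      rcases ha with ha | ⟨v, hv, h'⟩
      · obtain ⟨v, hv⟩ := car_nonempty a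
        exact ⟨v, hv, w.bey e e' h (.inl (ha hv))⟩
      · exact ⟨v, hv, w.bey e e' h (.inr h')⟩
    nev := nev_unif hT hB (fun e => finite_up (w.T_fin e)) fun e s hne hs hq => by
      obtain ⟨m, hm⟩ := w.nev
      obtain ⟨m', h⟩ := hN.out S w.Γ w.cx (w.T e) (w.B e) (w.T_fin e) (disjoint_left.2 (w.TB e))
        (fun s h1 h2 h3 => ⟨m, hm e s h1 h2 h3⟩) s hne (fun a ha => hs ha) hq
      refine ⟨m', ?_⟩
      convert h using 3
      exact and_congr_left fun _ => ⟨fun h => ⟨w.car_sub h, h⟩, fun h => h.2⟩ }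

variable [Finite ι] [Fact NevS]

@[simp] theorem ps_Γ : w.ps.Γ = PS.ps w.Γ.IsClique := rfl







omit [Finite ι] [Fact NevS] in
theorem inv_of_eq {Γ : SimpleGraph S} (h : w.Γ = Γ) : Inv (FreeGroup ι) Γ := h ▸ wlInv w

/-- the same walls, for a graph that is propositionally equal to `w.Γ` -/
def psOf {Γ : SimpleGraph S} (h : w.Γ = Γ) [Inv (FreeGroup ι) Γ] : Wl ι (PV Γ.IsClique) where
  Γ := PS.ps Γ.IsClique
  adj_smul := Inv.adj_smul
  dim := by subst h; exact w.ps.dim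
  T e := {a | car a ⊆ w.T e}
  B e := {a | (car a ∩ w.B e).Nonempty}
  T_rev := by subst h; exact w.ps.T_rev
  T_smul := by subst h; exact w.ps.T_smul
  B_smul := by subst h; exact w.ps.B_smul
  T_fin := by subst h; exact w.ps.T_fin
  T_ne := by subst h; exact w.ps.T_ne
  tri := by subst h; exact w.ps.tri
  TB := by subst h; exact w.ps.TB
  BB := by subst h; exact w.ps.BB
  bey := by subst h; exact w.ps.bey
  nev := by subst h; exact w.ps.nev


section of
variable {Γ : SimpleGraph S} (h : w.Γ = Γ) [Inv (FreeGroup ι) Γ]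

@[simp] theorem psOf_Γ : (w.psOf h).Γ = PS.ps Γ.IsClique := rfl





end of

end Crest.Agent.N255.En.Wl

end
end

-- ▼ part N233/Lo/NevS
section

/-!
# Row 233 (helper80): `NevS` holds
-/

set_option autoImplicit false
open Set

namespace Crest.Agent.N233.Lo

open PS

theorem nevS : NevS := fun S Γ hX P Q hP hd k s hs hs' q => by
  have c : (ps Γ.IsClique).IsClique s := fun a ha b hb e => (q a ha b hb).resolve_left e
  obtain ⟨a, ha, t⟩ := exists_top hX c s.finite_toSet hs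
  refine (Ne.Tp.half hX ⟨ha, t, c⟩ hP hd (hs' a ha)
    (k a.1.support (car_nonempty a) (hs' a ha) fun x hx y hy => Ne.rc_car a hx hy)).imp fun m l => ?_
  refine (congrArg (N255.Nv.Nev _ m) (Set.ext fun b => ?_)).mpr l
  constructor
  · rintro ⟨⟨h, y, hy, hq⟩, r⟩
    exact ⟨fun x hx => (r x hx).resolve_left fun e => disjoint_left.1 hd (hs' x hx (e ▸ hy)) hq, h,
      fun l => disjoint_left.1 hd (l hy) hq⟩
  · rintro ⟨h1, h2, h3⟩
    obtain ⟨y, hy, n⟩ := not_subset.1 h3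
    exact ⟨⟨h2, y, hy, (h2 hy).resolve_left n⟩, fun x hx => Or.inr (h1 x hx)⟩

instance factNevS : Fact NevS := ⟨nevS⟩

end Crest.Agent.N233.Lo
end

-- ▼ part N233/Lo/Tm
section

/-!
# Row 233 (helper86): the subdivision of a model over the tree is a model over the tree
-/

set_option autoImplicit false

noncomputable section

namespace Crest.Agent.N233.Lo

open Crest.Agent.N255 Crest.Agent.N233.PS Set Pt Lv

variable {ι S : Type} [DecidableEq ι]

theorem en_two {t t' : Pt.Nd ι} {v v' : FreeGroup ι} (n : v ≠ v') (a : En t v) (a' : En t v')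
    (b : En t' v) (b' : En t' v') : ∃ e, t = tgt e ∧ t' = tgt e := by
  have k : ∀ {t : Pt.Nd ι}, En t v → En t v' → ∃ e, t = tgt e ∧ v = e.v ∧ v' = hd e := fun {t} a a' => by
    rcases node_cases t with ⟨u, rfl⟩ | ⟨e, rfl⟩
    · exact absurd ((en_none.1 a).trans (en_none.1 a').symm) n
    rcases en_tgt.1 a with c | c <;> rcases en_tgt.1 a' with c' | c'
    · exact absurd (c.trans c'.symm) n
    · exact ⟨e, rfl, c, c'⟩
    · exact ⟨rev e, (tgt_rev e).symm, c, c'.trans (hd_rev e).symm⟩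
    · exact absurd (c.trans c'.symm) n
  obtain ⟨e, rfl, c, d⟩ := k a a'
  obtain ⟨e', rfl, c', d'⟩ := k b b'
  refine ⟨e, rfl, congrArg tgt (rev_injective (cross (e := e) (e' := rev e') ?_ ?_))⟩
  · rw [rev_v, ← d', d]; exact hs_hd e
  · rw [hd_rev, ← c', c]; exact not_hs_v e

variable [DecidableEq S] [MulAction (FreeGroup ι) S]
  {M : Ce.Mir S (Fin 4) (FreeGroup ι) (Pt.Nd ι) (Pt.Ed ι)} {w : En.Wl ι S} (Z : TM M w)

variable (M w) in
/-- `t` is the node of `a` -/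
def IsNd (a : PG M.Γ) (t : Pt.Nd ι) : Prop := car a ⊆ M.sp t ∧ (t.k = none → ∀ e, ¬car a ⊆ w.T e)

include Z

theorem sub_T {A : Set S} {e : Pt.Ed ι} : A ⊆ M.sp (tgt e) ↔ A ⊆ w.T e :=
  forall₂_congr fun a _ => Z.sp_tgt e a

theorem isNd_tgt {a : PG M.Γ} {e : Pt.Ed ι} : IsNd M w a (tgt e) ↔ car a ⊆ w.T e :=
  ⟨fun h => (sub_T Z).1 h.1, fun h => ⟨(sub_T Z).2 h, fun k => absurd k (Option.some_ne_none _)⟩⟩

theorem exists_nd (a : PG M.Γ) : ∃ t, IsNd M w a t := by
  by_cases h : ∃ e, car a ⊆ w.T e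
  · exact h.elim fun e h => ⟨_, (isNd_tgt Z).2 h⟩
  · obtain ⟨R, hR⟩ := M.root a.1.support (car_face a)
    exact ⟨R.o, fun v hv => (hR v hv).1, fun _ e k => h ⟨e, k⟩⟩

theorem IsNd.uniq {a : PG M.Γ} {t t' : Pt.Nd ι} (h : IsNd M w a t) (h' : IsNd M w a t') : t = t' := by
  obtain ⟨b, hb⟩ := car_nonempty a
  rcases node_cases t with ⟨v, rfl⟩ | ⟨e, rfl⟩ <;> rcases node_cases t' with ⟨v', rfl⟩ | ⟨e', rfl⟩
  · by_contra n
    have n' : v ≠ v' := fun e => n (e ▸ rfl)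
    have k := fun c (hc : c ∈ car a) => en_two n' ((Z.sp_none _ _).1 (h.1 hb))
      ((Z.sp_none _ _).1 (h'.1 hb)) ((Z.sp_none _ _).1 (h.1 hc)) ((Z.sp_none _ _).1 (h'.1 hc))
    obtain ⟨e, he, -⟩ := k b hb
    exact h.2 rfl e fun c hc => (Z.mem_T _ _).2 (let ⟨_, p, q⟩ := k c hc; q.trans (p.symm.trans he))
  · exact absurd ((isNd_tgt Z).1 h') (h.2 rfl e')
  · exact absurd ((isNd_tgt Z).1 h) (h'.2 rfl e)
  · exact ((Z.mem_T _ _).1 ((isNd_tgt Z).1 h hb)).symm.trans ((Z.mem_T _ _).1 ((isNd_tgt Z).1 h' hb))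

/-- the node of a vertex of the subdivision -/
def ndP (a : PG M.Γ) : Pt.Nd ι := (exists_nd Z a).choose

theorem ndP_spec (a : PG M.Γ) : IsNd M w a (ndP Z a) := (exists_nd Z a).choose_spec

theorem ndP_eq {a : PG M.Γ} {t : Pt.Nd ι} : ndP Z a = t ↔ IsNd M w a t :=
  ⟨fun h => h ▸ ndP_spec Z a, (ndP_spec Z a).uniq Z⟩

theorem ndP_smul (g : FreeGroup ι) (a : PG M.Γ) : ndP Z (psIso (M.ρ g) a) = g • ndP Z a := by
  obtain ⟨p, q⟩ := ndP_spec Z a
  refine (ndP_eq Z).2 ⟨?_, fun k e h => q k (g⁻¹ • e) fun b hb => ?_⟩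
  · rw [car_psIso, M.sp_smul, Finset.coe_image]; exact image_mono p
  · rw [← w.T_smul g, smul_inv_smul, ← Z.ρ_eq]
    exact h (by rw [car_psIso]; exact mem_image_of_mem _ hb)

theorem ndP_B (e : Pt.Ed ι) (a : PG M.Γ) : (car a ∩ w.B e).Nonempty ↔ Hd e (ndP Z a) := by
  have h := ndP_spec Z a
  rcases node_cases (ndP Z a) with ⟨v, k⟩ | ⟨e', k⟩ <;> rw [k] at h ⊢
  · refine ⟨fun ⟨b, p, q⟩ => Hd_none.2 (Z.sp_mem_A (h.1 p) q), fun p => ?_⟩
    obtain ⟨b, hb, n⟩ := not_subset.1 (h.2 rfl e)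
    exact ⟨b, hb, ((Z.A_trich e b).resolve_right fun c =>
      c.elim (Z.sp_nmem_A (Hd_none.1 p) (h.1 hb)) n)⟩
  · have u := fun b (hb : b ∈ car a) => (Z.mem_T _ _).1 ((isNd_tgt Z).1 h hb)
    obtain ⟨b, hb⟩ := car_nonempty a
    exact ⟨fun ⟨c, p, q⟩ => u c p ▸ (Z.mem_B _ _).1 q, fun p => ⟨b, hb, (Z.mem_B _ _).2 (u b hb ▸ p)⟩⟩

theorem ndP_none (v : FreeGroup ι) (a : PG M.Γ) : car a ⊆ M.sp ⟨v, none⟩ ↔ En (ndP Z a) v := by
  have h := ndP_spec Z a
  rcases node_cases (ndP Z a) with ⟨u, k⟩ | ⟨e', k⟩ <;> rw [k] at h ⊢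
  · exact ⟨fun p => en_none.2 (congrArg L.v (IsNd.uniq Z ⟨p, fun _ => h.2 rfl⟩ h)),
      fun p => en_none.1 p ▸ h.1⟩
  · have u := fun b (hb : b ∈ car a) => (Z.mem_T _ _).1 ((isNd_tgt Z).1 h hb)
    obtain ⟨b, hb⟩ := car_nonempty a
    exact ⟨fun p => u b hb ▸ (Z.sp_none _ _).1 (p hb), fun p c hc => (Z.sp_none _ _).2 (u c hc ▸ p)⟩

/-- **the subdivided model** -/
def tmPs [MulAction (FreeGroup ι) (PG M.Γ)] (w' : En.Wl ι (PG M.Γ)) (hΓ : w'.Γ = psG M.Γ)
    (hρ : ∀ (f : FreeGroup ι) (a : PG M.Γ), psIso (M.ρ f) a = f • a)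
    (hT : ∀ e a, a ∈ w'.T e ↔ car a ⊆ w.T e) (hB : ∀ e a, a ∈ w'.B e ↔ (car a ∩ w.B e).Nonempty) :
    TM (mps M) w' where
  Γ_eq := hΓ
  ρ_eq := hρ
  src_eq := Z.src_eq
  tgt_eq := Z.tgt_eq
  nd := ndP Z
  nd_smul g a := hρ g a ▸ ndP_smul Z g a
  mem_T e a := (hT e a).trans ((ndP_eq Z).trans (isNd_tgt Z)).symm
  mem_B e a := (hB e a).trans (ndP_B Z e a)
  sp_tgt e a := mem_st.trans ((sub_T Z).trans (hT e a).symm)
  sp_none v a := mem_st.trans (ndP_none Z v a)

end Crest.Agent.N233.Lo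

end
end

-- ▼ part N233/Lo/TmP
section

/-!
# Row 233 (helper86): the subdivided model with the subdivided walls
-/

set_option autoImplicit false

noncomputable section

namespace Crest.Agent.N233.Lo

open Crest.Agent.N255 Crest.Agent.N233.PS Set Pt Lv

variable {ι S : Type} [DecidableEq ι] [DecidableEq S] [MulAction (FreeGroup ι) S] [Finite ι] [Fact NevS]
  {M : Ce.Mir S (Fin 4) (FreeGroup ι) (Pt.Nd ι) (Pt.Ed ι)} {w : En.Wl ι S}

/-- **the subdivided model** -/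
def tmP (Z : TM M w) [Inv (FreeGroup ι) M.Γ] : TM (mps M) (w.psOf Z.Γ_eq) :=
  tmPs Z _ rfl (fun f _ => pm_congr (nd_iso (M.ρ f)) (Inv.nd f) fun v _ => Z.ρ_eq f v) (fun _ _ => Iff.rfl) fun _ _ => Iff.rfl

end Crest.Agent.N233.Lo

end
end

-- ▼ part N233/Lo/Wal
section

/-!
# Row 233 (helper91): walls and chambers of a subdivision

`Qi`: the summation map `sd` over the cells of full dimension is a quasi-isomorphism on all stars.
The facts `Tor` and `Wal` pass to the subdivision.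
-/

set_option autoImplicit false
set_option linter.unusedSectionVars false
open Finsupp

noncomputable section

namespace Crest.Agent.N233.Lo

open Crest.Agent.N255.Ch

variable {S S' K K' : Type} [DecidableEq S] [DecidableEq S'] [LinearOrder K] [LinearOrder K']

/-- summation over the cells of full dimension -/
def sd (car : S' → Finset S) (σ : Finset S' → ℤ) : (Finset S' →₀ ℤ) →ₗ[ℤ] (Finset S →₀ ℤ) :=
  linearCombination ℤ fun t => single (cr car t) (σ t)

theorem sd_single (car : S' → Finset S) (σ : Finset S' → ℤ) (t : Finset S') :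
    sd car σ (single t 1) = σ t • single (cr car t) 1 := by simp [sd]

/-- the subdivided chain -/
def sz (car : S' → Finset S) (σ : Finset S' → ℤ) (z : Finset S → ℤ) (t : Finset S') : ℤ :=
  σ t * z (cr car t)

theorem pe_sz (car : S' → Finset S) (σ : Finset S' → ℤ) (z : Finset S → ℤ) (a : Finset S' →₀ ℤ) :
    pe (sz car σ z) a = pe z (sd car σ a) := by
  induction a using Finsupp.induction_linear with
  | zero => simp
  | add a b ha hb => simp only [map_add, ha, hb]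
  | single t r =>
    rw [← smul_single_one t r, map_smul, map_smul, map_smul, sd_single, map_smul]
    simp [sz]

theorem cr_empty (car : S' → Finset S) : cr car ∅ = ∅ := Finset.biUnion_empty

theorem cr_mono (car : S' → Finset S) {t t' : Finset S'} (h : t ⊆ t') : cr car t ⊆ cr car t' :=
  Finset.biUnion_subset_biUnion_of_subset_left _ h

theorem car_sub_cr (car : S' → Finset S) {t : Finset S'} {a : S'} (h : a ∈ t) : car a ⊆ cr car t :=
  Finset.subset_biUnion_of_mem car h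

/-- a subdivision, homological form -/
structure Qi (Γ' : SimpleGraph S') (col' : S' → K') (Γ : SimpleGraph S) (col : S → K) where
  car : S' → Finset S
  up : Finset S → Finset S'
  σ : Finset S' → ℤ
  mem_up : ∀ U a, a ∈ up U ↔ car a ⊆ U
  car_ne : ∀ a, (car a).Nonempty
  clq : ∀ t : Finset S', Γ'.IsClique (t : Set S') → Γ.IsClique (cr car t : Set S)
  σ_sup : ∀ t : Finset S', σ t ≠ 0 → Γ'.IsClique (t : Set S') ∧ t.card = (cr car t).card
  top : ∀ τ : Finset S, Γ.IsClique (τ : Set S) → ∀ t0 ∈ Q Γ' (up τ) ∅,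
    ∃ t ∈ Q Γ' (up τ) t0, cr car t = τ ∧ (σ t = 1 ∨ σ t = -1)
  sd_dq : ∀ U, ∀ a ∈ Sp (Q Γ' (up U) ∅), sd car σ (dq Γ' col' (up U) a) = dq Γ col U (sd car σ a)
  ker : ∀ U, ∀ t0 ∈ Q Γ' (up U) ∅, ∀ b ∈ Sp (Q Γ' (up U) t0), dq Γ' col' (up U) b = 0 →
    sd car σ b = 0 → ∃ a ∈ Sp (Q Γ' (up U) t0), sd car σ a = 0 ∧ dq Γ' col' (up U) a = b

namespace Qi

variable {Γ' : SimpleGraph S'} {col' : S' → K'} {Γ : SimpleGraph S} {col : S → K}
  (q : Qi Γ' col' Γ col)

theorem sub_up {U : Finset S} {t : Finset S'} : t ⊆ q.up U ↔ cr q.car t ⊆ U := by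
  simp only [cr, Finset.biUnion_subset, ← q.mem_up]; rfl

theorem up_mono {U U' : Finset S} (h : U ⊆ U') : q.up U ⊆ q.up U' := fun a ha =>
  (q.mem_up _ a).2 (((q.mem_up _ a).1 ha).trans h)

theorem cr_ne {t : Finset S'} (h : t.Nonempty) : (cr q.car t).Nonempty :=
  let ⟨a, ha⟩ := h; (q.car_ne a).mono (car_sub_cr _ ha)

theorem cr_mem {U : Finset S} {t0 t : Finset S'} (h : t ∈ Q Γ' (q.up U) t0) :
    cr q.car t ∈ Q Γ U (cr q.car t0) := ⟨q.clq t h.1, cr_mono _ h.2.1, q.sub_up.1 h.2.2⟩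

theorem cr_mem0 {U : Finset S} {t0 t : Finset S'} (h : t ∈ Q Γ' (q.up U) t0) :
    cr q.car t ∈ Q Γ U ∅ := ⟨q.clq t h.1, Finset.empty_subset _, q.sub_up.1 h.2.2⟩

theorem sd_mem {U : Finset S} {t0 : Finset S'} {a : Finset S' →₀ ℤ} (h : a ∈ Sp (Q Γ' (q.up U) t0)) :
    sd q.car q.σ a ∈ Sp (Q Γ U (cr q.car t0)) :=
  map_mem (fun t ht y hy => by
    rw [sd_single] at hy
    have : y = cr q.car t := by
      by_contra n
      exact hy (by simp [single_eq_of_ne n])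
    exact this ▸ q.cr_mem ht) h

theorem Q_sub {U : Finset S'} (t0 : Finset S') : Q Γ' U t0 ⊆ Q Γ' U ∅ :=
  fun _ h => ⟨h.1, Finset.empty_subset _, h.2.2⟩

theorem empty_mem (U : Finset S') : ∅ ∈ Q Γ' U ∅ := ⟨by simp, subset_rfl, Finset.empty_subset _⟩

/-- a cell of full dimension over a given simplex -/
theorem exists_full {U τ : Finset S} {t0 : Finset S'} (h0 : t0 ∈ Q Γ' (q.up U) ∅)
    (hτ : τ ∈ Q Γ U (cr q.car t0)) :
    ∃ t ∈ Q Γ' (q.up U) t0, cr q.car t = τ ∧ (q.σ t = 1 ∨ q.σ t = -1) := by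
  obtain ⟨t, ht, e⟩ := q.top τ hτ.1 t0 ⟨h0.1, h0.2.1, q.sub_up.2 hτ.2.1⟩
  exact ⟨t, ⟨ht.1, ht.2.1, ht.2.2.trans (q.up_mono hτ.2.2)⟩, e⟩

theorem onto {U : Finset S} {t0 : Finset S'} (h0 : t0 ∈ Q Γ' (q.up U) ∅) {b : Finset S →₀ ℤ}
    (hb : b ∈ Sp (Q Γ U (cr q.car t0))) : ∃ a ∈ Sp (Q Γ' (q.up U) t0), sd q.car q.σ a = b := by
  rw [Sp, supported_eq_span_single] at hb
  induction hb using Submodule.span_induction with
  | mem x hx =>
    obtain ⟨τ, hτ, rfl⟩ := hx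
    obtain ⟨t, ht, rfl, e⟩ := q.exists_full h0 hτ
    refine ⟨q.σ t • single t 1, Submodule.smul_mem _ _ (single_mem ht 1), ?_⟩
    rw [map_smul, sd_single, smul_smul]
    rcases e with e | e <;> simp [e]
  | zero => exact ⟨0, zero_mem _, map_zero _⟩
  | add x y _ _ hx hy =>
    obtain ⟨a, ha, rfl⟩ := hx
    obtain ⟨b, hb, rfl⟩ := hy
    exact ⟨a + b, add_mem ha hb, map_add _ _ _⟩
  | smul r x _ hx =>
    obtain ⟨a, ha, rfl⟩ := hx
    exact ⟨r • a, Submodule.smul_mem _ _ ha, map_smul _ _ _⟩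

variable (hc : ∀ s t, Γ'.Adj s t → col' s ≠ col' t)

include hc in
/-- cocycles lift -/
theorem lift {U : Finset S} {t0 : Finset S'} (h0 : t0 ∈ Q Γ' (q.up U) ∅) {b : Finset S →₀ ℤ}
    (hb : b ∈ Sp (Q Γ U (cr q.car t0))) (hd : dq Γ col U b = 0) :
    ∃ a ∈ Sp (Q Γ' (q.up U) t0), dq Γ' col' (q.up U) a = 0 ∧ sd q.car q.σ a = b := by
  obtain ⟨a, ha, rfl⟩ := q.onto h0 hb
  obtain ⟨c, hc', e, d⟩ := q.ker U t0 h0 _ (cl_Q _ _ a ha) (dq_dq hc _ _)
    (by rw [q.sd_dq U a (Sp_mono (Q_sub t0) ha), hd])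
  exact ⟨a - c, sub_mem ha hc', by rw [map_sub, d, sub_self], by rw [map_sub, e, sub_zero]⟩

include hc in
/-- primitives lift -/
theorem prim {U : Finset S} {t0 : Finset S'} (h0 : t0 ∈ Q Γ' (q.up U) ∅) {x : Finset S' →₀ ℤ}
    (hx : x ∈ Sp (Q Γ' (q.up U) t0)) (hd : dq Γ' col' (q.up U) x = 0) {b : Finset S →₀ ℤ}
    (hb : b ∈ Sp (Q Γ U (cr q.car t0))) (e : dq Γ col U b = sd q.car q.σ x) :
    ∃ a ∈ Sp (Q Γ' (q.up U) t0), dq Γ' col' (q.up U) a = x := by
  obtain ⟨a, ha, rfl⟩ := q.onto h0 hb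
  obtain ⟨c, hc', -, d⟩ := q.ker U t0 h0 (x - dq Γ' col' (q.up U) a) (sub_mem hx (cl_Q _ _ a ha))
    (by rw [map_sub, hd, dq_dq hc, sub_zero])
    (by rw [map_sub, q.sd_dq U a (Sp_mono (Q_sub t0) ha), e, sub_self])
  exact ⟨a + c, add_mem ha hc', by rw [map_add, d, add_sub_cancel]⟩

theorem dq_sd {U : Finset S} {t0 : Finset S'} {x : Finset S' →₀ ℤ}
    (hx : x ∈ Sp (Q Γ' (q.up U) t0)) (hd : dq Γ' col' (q.up U) x = 0) :
    dq Γ col U (sd q.car q.σ x) = 0 := by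
  rw [← q.sd_dq U x (Sp_mono (Q_sub t0) hx), hd, map_zero]

include hc in
/-- **exactness passes to the subdivision** -/
theorem ex {U : Finset S} {t0 : Finset S'} (h0 : t0 ∈ Q Γ' (q.up U) ∅)
    {s : (Finset S →₀ ℤ) →ₗ[ℤ] ℤ} {s' : (Finset S' →₀ ℤ) →ₗ[ℤ] ℤ}
    (hs : ∀ a, s' a = s (sd q.car q.σ a)) (h : Ex (dq Γ col U) s (Sp (Q Γ U (cr q.car t0)))) :
    Ex (dq Γ' col' (q.up U)) s' (Sp (Q Γ' (q.up U) t0)) := fun x hx hd h1 => by
  obtain ⟨b, hb, e⟩ := h _ (q.sd_mem hx) (q.dq_sd hx hd) (by rw [← hs, h1])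
  exact q.prim hc h0 hx hd hb e

/-- the subdivided chain -/
abbrev z (z : Finset S → ℤ) : Finset S' → ℤ := sz q.car q.σ z

theorem z_sup {U : Finset S} {z : Finset S → ℤ} {n : ℕ}
    (h : ∀ t, z t ≠ 0 → t ∈ Q Γ U ∅ ∧ t.card = n) (t : Finset S') (ht : q.z z t ≠ 0) :
    t ∈ Q Γ' (q.up U) ∅ ∧ t.card = n := by
  obtain ⟨h1, h2⟩ := mul_ne_zero_iff.1 ht
  exact ⟨⟨(q.σ_sup t h1).1, Finset.empty_subset _, q.sub_up.2 (h _ h2).1.2.2⟩,
    (q.σ_sup t h1).2.trans (h _ h2).2⟩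

theorem pe_dq {U : Finset S} (z : Finset S → ℤ) {t : Finset S'} (ht : t ∈ Q Γ' (q.up U) ∅) :
    pe (q.z z) (dq Γ' col' (q.up U) (single t 1)) =
      q.σ t * pe z (dq Γ col U (single (cr q.car t) 1)) := by
  rw [pe_sz, q.sd_dq U _ (single_mem ht 1), sd_single, map_smul, map_smul, smul_eq_mul]

theorem z_top {U : Finset S} {z : Finset S → ℤ}
    (h : ∀ t0 ∈ Q Γ U ∅, ∃ t ∈ Q Γ U t0, z t = 1 ∨ z t = -1) :
    ∀ t0 ∈ Q Γ' (q.up U) ∅, ∃ t ∈ Q Γ' (q.up U) t0, q.z z t = 1 ∨ q.z z t = -1 := fun t0 h0 => by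
  obtain ⟨τ, hτ, e⟩ := h _ (q.cr_mem0 h0)
  obtain ⟨t, ht, rfl, e'⟩ := q.exists_full h0 hτ
  refine ⟨t, ht, ?_⟩
  rcases e with e | e <;> rcases e' with e' | e' <;> simp [sz, e, e']

theorem mem0 {U : Finset S} {b : Finset S →₀ ℤ} :
    b ∈ Sp (Q Γ U (cr q.car ∅)) ↔ b ∈ Sp (Q Γ U ∅) := by rw [cr_empty]

include hc in
/-- **walls** -/
theorem tor {T : Finset S} {m l ω : Finset S → ℤ} (h : Tor Γ col T m l ω) :
    Tor Γ' col' (q.up T) (q.z m) (q.z l) (q.z ω) where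
  m_sup := q.z_sup h.m_sup
  l_sup := q.z_sup h.l_sup
  ω_sup := q.z_sup h.ω_sup
  m_cyc t ht := by rw [q.pe_dq _ ht, h.m_cyc _ (q.cr_mem0 ht), mul_zero]
  l_cyc t ht := by rw [q.pe_dq _ ht, h.l_cyc _ (q.cr_mem0 ht), mul_zero]
  ω_cyc t ht := by rw [q.pe_dq _ ht, h.ω_cyc _ (q.cr_mem0 ht), mul_zero]
  top := q.z_top h.top
  link t0 h0 hn := q.ex hc h0 (pe_sz _ _ _) (h.link _ (q.cr_mem0 h0) (q.cr_ne hn))
  glob y hy hd h1 h2 h3 := by
    rw [pe_sz] at h1 h2 h3
    obtain ⟨b, hb, e⟩ := h.glob _ (q.mem0.1 (q.sd_mem hy)) (q.dq_sd hy hd) h1 h2 h3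
    exact q.prim hc (empty_mem _) hy hd (q.mem0.2 hb) e

include hc in
/-- **chambers** -/
theorem wal {ι : Type} [DecidableEq ι] {J : Set ι} {C : Finset S} {T : ι → Finset S}
    {o : Finset S → ℤ} {m l ω : ι → Finset S → ℤ} (hT : ∀ j ∈ J, T j ⊆ C)
    (h : Wal Γ col J C T o m l ω) :
    Wal Γ' col' J (q.up C) (fun j => q.up (T j)) (q.z o) (fun j => q.z (m j)) (fun j => q.z (l j))
      fun j => q.z (ω j) := by
  have n : ∀ t : Finset S', (∀ j ∈ J, ¬t ⊆ q.up (T j)) → ∀ j ∈ J, ¬cr q.car t ⊆ T j :=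
    fun t a j hj b => a j hj (q.sub_up.2 b)
  have w : ∀ j ∈ J, ∀ t ∈ Q Γ' (q.up (T j)) ∅, t ∈ Q Γ' (q.up C) ∅ := fun j hj t ht =>
    ⟨ht.1, ht.2.1, ht.2.2.trans (q.up_mono (hT j hj))⟩
  refine ⟨q.z_sup h.o_sup, q.z_top h.top, fun t ht a => ?_, fun j hj t ht => ?_,
    fun t ht hn a => ?_, fun j hj t ht hn => ?_, fun y hy hd a => ?_, fun j hj => ?_, ?_⟩
  · rw [q.pe_dq _ ht, h.st_in _ (q.cr_mem0 ht) (n t a), mul_zero]
  · rw [q.pe_dq _ (w j hj t ht), Qi.z, sz, ← mul_add, h.st_bd j hj _ (q.cr_mem0 ht), mul_zero]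
  · exact q.ex hc ht (pe_sz _ _ _) (h.link_in _ (q.cr_mem0 ht) (q.cr_ne hn) (n t a))
  · exact q.ex hc (w j hj t ht) (fun _ => rfl) (h.link_bd j hj _ (q.cr_mem0 ht) (q.cr_ne hn))
  · simp only [pe_sz] at a
    obtain ⟨b, hb, e⟩ := h.glob _ (q.mem0.1 (q.sd_mem hy)) (q.dq_sd hy hd) a
    exact q.prim hc (empty_mem _) hy hd (q.mem0.2 hb) e
  · obtain ⟨x, hx, hd, a⟩ := h.one j hj
    obtain ⟨y, hy, hd', rfl⟩ := q.lift hc (empty_mem _) (q.mem0.2 hx) hd
    exact ⟨y, hy, hd', by simpa only [pe_sz] using a⟩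
  · obtain ⟨j0, h0⟩ := h.two
    refine ⟨j0, fun j hj => ?_⟩
    obtain ⟨x, hx, hd, a⟩ := h0 j hj
    obtain ⟨y, hy, hd', rfl⟩ := q.lift hc (empty_mem _) (q.mem0.2 hx) hd
    exact ⟨y, hy, hd', by simpa only [pe_sz] using a⟩

end Qi

variable {F Nd Ed : Type} [Group F] [MulAction F Nd] [MulAction F Ed] [DecidableEq Ed]

/-- **the local structure of a subdivided mirror model** -/
def locSd {M : N255.Ce.Mir S K F Nd Ed} {M' : N255.Ce.Mir S' K' F Nd Ed} (L : Loc M)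
    (q : Qi M'.Γ M'.col M.Γ M.col) (hs : M'.src = M.src) (ht : M'.tgt = M.tgt) (hy : M'.ty = M.ty)
    (hsp : ∀ n, M'.sp n = q.up (M.sp n))
    (hcar : ∀ f a, q.car (M'.ρ f a) = (q.car a).image (M.ρ f))
    (hσ : ∀ f t, q.σ (t.image (M'.ρ f)) = q.σ t) : Loc M' :=
  have hcr : ∀ f t, cr q.car (t.image (M'.ρ f)) = (cr q.car t).image (M.ρ f) := fun f t => by
    simp only [cr, Finset.image_biUnion, hcar, Finset.biUnion_image]
  have mem : ∀ {n a}, a ∈ M'.sp n → ∀ s ∈ q.car a, s ∈ M.sp n := fun {n a} h s hs =>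
    (q.mem_up _ a).1 (hsp n ▸ h) hs
  { op := L.op
    op_ne := L.op_ne
    tgt_op := ht ▸ L.tgt_op
    tgt_eq := ht ▸ L.tgt_eq
    mid := ht ▸ hy ▸ L.mid
    wall := fun e => by rw [hsp, hsp, hs, ht]; exact q.up_mono (L.wall e)
    w1 := fun e e' a h h' => by
      obtain ⟨s, hs⟩ := q.car_ne a
      rw [ht] at h h' ⊢
      exact L.w1 e e' s (mem h s hs) (mem h' s hs)
    w2 := fun n n' a h h' hn ha ha' => by
      obtain ⟨s, hs'⟩ := q.car_ne a
      rw [hy] at h h'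
      obtain ⟨e, e1, e2, e3⟩ := L.w2 n n' s h h' hn (mem ha s hs') (mem ha' s hs')
      refine ⟨e, hs ▸ e1, hs ▸ e2, fun b hb => ?_⟩
      rw [Finset.mem_inter] at hb
      rw [hsp, ht, q.mem_up]
      exact fun x hx => e3 (Finset.mem_inter.2 ⟨mem hb.1 x hx, mem hb.2 x hx⟩)
    src_op := hs ▸ L.src_op
    vtx := hy ▸ L.vtx
    o := fun n => q.z (L.o n)
    m := fun e => q.z (L.m e)
    ω := fun e => q.z (L.ω e)
    ω_op := fun e t => by simp only [sz, L.ω_op, mul_neg]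
    o_smul := fun f n t hn h => by
      simp only [sz, hσ, hcr]
      rw [L.o_smul f n _ (hy ▸ hn) (q.sub_up.1 (hsp n ▸ h))]
    ω_smul := fun f e t h => by
      simp only [sz, hσ, hcr]
      rw [L.ω_smul f e _ (q.sub_up.1 (by rwa [hsp, ht] at h))]
    tor := fun e => by rw [hsp, ht]; exact q.tor M'.col_ne (L.tor e)
    wal := fun n hn => by
      simp only [hsp, hs, ht]
      exact q.wal M'.col_ne (fun e he => he ▸ L.wall e) (L.wal n (hy ▸ hn)) }

end Crest.Agent.N233.Lo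

end
end

-- ▼ part N233/Lo/Qi
section

/-!
# Row 233 (helper91): the facts simplex by simplex give the quasi-isomorphism
-/

set_option autoImplicit false
set_option linter.unusedSectionVars false
open Finsupp

noncomputable section

namespace Crest.Agent.N233.Lo

open Crest.Agent.N255.Ch

variable {S S' K K' : Type} [DecidableEq S] [DecidableEq S'] [LinearOrder K] [LinearOrder K']

theorem sd_apply (car : S' → Finset S) (σ : Finset S' → ℤ) (a : Finset S' →₀ ℤ) (τ : Finset S) :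
    sd car σ a τ = pe (fu car σ τ) a := by
  induction a using Finsupp.induction_linear with
  | zero => simp
  | add a b ha hb => simp only [map_add, Finsupp.add_apply, ha, hb]
  | single t r =>
    rw [← smul_single_one t r, map_smul, map_smul, sd_single, Finsupp.smul_apply, Finsupp.smul_apply]
    simp [fu, single_apply]

namespace Sd

variable {Γ' : SimpleGraph S'} {col' : S' → K'} {Γ : SimpleGraph S} {col : S → K}
  (q : Sd Γ' col' Γ col)

theorem sub_up {U : Finset S} {t : Finset S'} : t ⊆ q.up U ↔ cr q.car t ⊆ U := by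
  simp only [cr, Finset.biUnion_subset, ← q.mem_up]; rfl

theorem up_mono {U U' : Finset S} (h : U ⊆ U') : q.up U ⊆ q.up U' := fun a ha =>
  (q.mem_up _ a).2 (((q.mem_up _ a).1 ha).trans h)

open Classical in
/-- the orientation, cut off outside the cliques -/
def sg (t : Finset S') : ℤ := if Γ'.IsClique (t : Set S') then q.σ t else 0

theorem pe_fu {U t0 : Finset S'} (τ : Finset S) {a : Finset S' →₀ ℤ} (h : a ∈ Sp (Q Γ' U t0)) :
    pe (fu q.car q.sg τ) a = pe (fu q.car q.σ τ) a := by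
  simp only [linearCombination_apply, Finsupp.sum]
  exact Finset.sum_congr rfl fun t ht => by
    simp only [fu, sg, if_pos (mem_Sp.1 h t (mem_support_iff.1 ht)).1]

theorem fu_ne {σ : Finset S' → ℤ} {τ : Finset S} {t : Finset S'} (h : fu q.car σ τ t ≠ 0) :
    cr q.car t = τ := by
  by_contra n
  exact h (if_neg n)

theorem sd_dq1 {U : Finset S} {t : Finset S'} (ht : t ∈ Q Γ' (q.up U) ∅) :
    sd q.car q.sg (dq Γ' col' (q.up U) (single t 1)) = dq Γ col U (sd q.car q.sg (single t 1)) := by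
  ext τ
  have hm := cl_Q (col := col') _ _ _ (single_mem ht (1 : ℤ))
  rw [sd_apply, q.pe_fu τ hm, sd_single, map_smul, Finsupp.smul_apply, sg, if_pos ht.1, smul_eq_mul]
  by_cases h : Γ.IsClique (τ : Set S) ∧ τ ⊆ U ∧ cr q.car t ⊆ τ
  · rw [← dq_restrict h.2.1 _ subset_rfl,
      ← q.chain τ h.1 t ⟨ht.1, ht.2.1, q.sub_up.2 h.2.2⟩]
    refine (pe_congr 1 fun t' h' => ?_).trans (one_mul _)
    rw [one_mul, dq_restrict (q.up_mono h.2.1) _ (q.sub_up.2 (q.fu_ne h').le)]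
  · have h1 : dq Γ col U (single (cr q.car t) 1) τ = 0 := by
      by_contra n
      obtain ⟨c, s, hs, -, rfl⟩ := dq_ne n
      exact h ⟨c, Finset.insert_subset hs (q.sub_up.1 ht.2.2), Finset.subset_insert _ _⟩
    rw [h1, mul_zero]
    refine pe_zero fun t' h' => by_contra fun n => h ?_
    obtain ⟨c, s, hs, -, e⟩ := dq_ne n
    have m := mem_Sp.1 hm t' n
    rw [← q.fu_ne h']
    exact ⟨q.clq _ c, q.sub_up.1 m.2.2, cr_mono _ (e ▸ Finset.subset_insert _ _)⟩

theorem sd_dq (U : Finset S) (a : Finset S' →₀ ℤ) (ha : a ∈ Sp (Q Γ' (q.up U) ∅)) :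
    sd q.car q.sg (dq Γ' col' (q.up U) a) = dq Γ col U (sd q.car q.sg a) :=
  sub_eq_zero.1 (eq_zero_on (f := sd q.car q.sg ∘ₗ dq Γ' col' (q.up U) - dq Γ col U ∘ₗ sd q.car q.sg)
    (fun _ ht => sub_eq_zero.2 (q.sd_dq1 ht)) ha)

/-- the cells whose carrier has at least `n` vertices -/
def Hi (U : Finset S) (t0 : Finset S') (n : ℕ) : Set (Finset S') :=
  Q Γ' (q.up U) t0 ∩ {t | n ≤ (cr q.car t).card}

theorem cl_Hi (U : Finset S) (t0 : Finset S') (n : ℕ) : Cl (dq Γ' col' (q.up U)) (Sp (q.Hi U t0 n)) :=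
  cl_Sp fun t ht y hy => ⟨mem_Sp.1 (cl_Q _ _ _ (single_mem ht.1 (1 : ℤ))) y hy, by
    obtain ⟨-, s, -, -, rfl⟩ := dq_ne hy
    exact le_trans ht.2 (Finset.card_le_card (cr_mono _ (Finset.subset_insert _ _)))⟩

/-- on the lowest layer the coboundary respects the carrier -/
theorem dq_low {U τ : Finset S} {t0 : Finset S'} {n : ℕ} {b : Finset S' →₀ ℤ}
    (hb : b ∈ Sp (q.Hi U t0 n)) (hτ : τ ⊆ U) (hn : τ.card ≤ n) {t : Finset S'} (ht : t ⊆ q.up τ) :
    dq Γ' col' (q.up τ) (rs {t | cr q.car t = τ} b) t = dq Γ' col' (q.up U) b t := by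
  rw [← dq_restrict (q.up_mono hτ) _ ht, dq_apply, dq_apply]
  split_ifs
  · refine Finset.sum_congr rfl fun s _ => ?_
    by_cases e : cr q.car (t.erase s) = τ
    · rw [rs_of_mem _ (show t.erase s ∈ {t | cr q.car t = τ} from e)]
    · rw [rs_of_notMem _ (show t.erase s ∉ {t | cr q.car t = τ} from e)]
      by_cases z : b (t.erase s) = 0
      · rw [z]
      · exact absurd (Finset.eq_of_subset_of_card_le
          (q.sub_up.1 ((Finset.erase_subset _ _).trans ht)) (hn.trans (mem_Sp.1 hb _ z).2)) e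
  · rfl

/-- one simplex -/
theorem step1 {U τ : Finset S} {t0 : Finset S'} {n : ℕ} {b : Finset S' →₀ ℤ}
    (h0 : t0 ∈ Q Γ' (q.up U) ∅) (hb : b ∈ Sp (q.Hi U t0 n)) (hd : dq Γ' col' (q.up U) b = 0)
    (hs : sd q.car q.sg b = 0) (hn : τ.card = n) :
    ∃ a ∈ Sp (Q Γ' (q.up U) t0 ∩ {t | cr q.car t = τ}), sd q.car q.sg a = 0 ∧
      ∀ t, cr q.car t = τ → dq Γ' col' (q.up U) a t = b t := by
  by_cases z : rs {t | cr q.car t = τ} b = 0
  · refine ⟨0, zero_mem _, map_zero _, fun t ht => ?_⟩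
    rw [map_zero, ← rs_of_mem b (show t ∈ {t | cr q.car t = τ} from ht), z]
  obtain ⟨t1, h1⟩ : ∃ t1, rs {t | cr q.car t = τ} b t1 ≠ 0 := by
    by_contra n
    exact z (Finsupp.ext fun t => by_contra fun e => n ⟨t, e⟩)
  have m1 := mem_Sp.1 (rs_mem_inter {t | cr q.car t = τ} hb) t1 h1
  have e1 : cr q.car t1 = τ := m1.2
  have cτ : Γ.IsClique (τ : Set S) := e1 ▸ q.clq _ m1.1.1.1
  have hτ : τ ⊆ U := e1 ▸ q.sub_up.1 m1.1.1.2.2
  have k0 : t0 ∈ Q Γ' (q.up τ) ∅ := ⟨h0.1, h0.2.1, q.sub_up.2 (e1 ▸ cr_mono _ m1.1.1.2.1)⟩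
  have mb : rs {t | cr q.car t = τ} b ∈ Sp (Q Γ' (q.up τ) t0 ∩ {t | cr q.car t = τ}) :=
    mem_Sp.2 fun t ht =>
      have m := mem_Sp.1 (rs_mem_inter {t | cr q.car t = τ} hb) t ht
      ⟨⟨m.1.1.1, m.1.1.2.1, q.sub_up.2 (le_of_eq m.2)⟩, m.2⟩
  obtain ⟨a, ha, e⟩ := q.ex τ cτ t0 k0 _ mb (Finsupp.ext fun t => by_contra fun n => n (by
      rw [q.dq_low hb hτ hn.le (mem_Sp.1 (cl_Q _ _ _ (Sp_mono Set.inter_subset_left mb)) t n).2.2,
        hd])) (by
      rw [pe_rs (V := {t | cr q.car t = τ}) fun t ht => q.fu_ne ht, ← q.pe_fu τ (Sp_mono Set.inter_subset_left hb), ← sd_apply, hs]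
      rfl)
  have ma := rs_mem_inter {t : Finset S' | t.card ≠ τ.card} ha
  refine ⟨rs {t | t.card ≠ τ.card} a, mem_Sp.2 fun t ht => ?_, ?_, fun t ht => ?_⟩
  · have m := (mem_Sp.1 ma t ht).1
    exact ⟨⟨m.1.1, m.1.2.1, m.1.2.2.trans (q.up_mono hτ)⟩, m.2⟩
  · refine eq_zero_on (fun t ht => ?_) ma
    rw [sd_single, sg, if_pos ht.1.1.1]
    by_cases z : q.σ t = 0
    · rw [z, zero_smul]
    · exact absurd ((q.σ_card t ht.1.1.1 z).trans (congrArg _ ht.1.2)) ht.2
  · have full : dq Γ' col' (q.up τ) (rs {t : Finset S' | t.card ≠ τ.card}ᶜ a) = 0 :=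
      eq_zero_on (fun t ht => Finsupp.ext fun y => by_contra fun n => by
        obtain ⟨c, s, hs, ns, rfl⟩ := dq_ne n
        have h1 := q.dim _ c
        have h2 := Finset.card_le_card (q.sub_up.1 (Finset.insert_subset hs ht.1.1.2.2))
        have h3 : t.card = τ.card := not_not.1 ht.2
        rw [Finset.card_insert_of_notMem ns] at h1
        omega) (rs_mem_inter _ ha)
    rw [← dq_restrict (q.up_mono hτ) _ (q.sub_up.2 ht.le), eq_sub_of_add_eq (rs_add_compl _ a), map_sub,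
      full, sub_zero, e, rs_of_mem _ (show t ∈ {t | cr q.car t = τ} from ht)]

variable (hc : ∀ s t, Γ'.Adj s t → col' s ≠ col' t)

/-- one layer -/
theorem step {U : Finset S} {t0 : Finset S'} {n : ℕ} {b : Finset S' →₀ ℤ}
    (h0 : t0 ∈ Q Γ' (q.up U) ∅) (hb : b ∈ Sp (q.Hi U t0 n)) (hd : dq Γ' col' (q.up U) b = 0)
    (hs : sd q.car q.sg b = 0) : ∃ a ∈ Sp (Q Γ' (q.up U) t0), sd q.car q.sg a = 0 ∧
      b - dq Γ' col' (q.up U) a ∈ Sp (q.Hi U t0 (n + 1)) := by
  choose! a ha hz he using fun (τ : Finset S) (hn : τ.card = n) => q.step1 h0 hb hd hs hn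
  have hi : ∀ τ, τ.card = n → a τ ∈ Sp (q.Hi U t0 n) := fun τ hn =>
    Sp_mono (fun t ht => And.intro ht.1 (by
      rw [Set.mem_ofPred_eq, show cr q.car t = τ from ht.2, hn])) (ha τ hn)
  have mem : ∀ τ ∈ U.powersetCard n, τ.card = n := fun τ h => (Finset.mem_powersetCard.1 h).2
  have sm : ∑ τ ∈ U.powersetCard n, a τ ∈ Sp (q.Hi U t0 n) := sum_mem fun τ h => hi τ (mem τ h)
  refine ⟨∑ τ ∈ U.powersetCard n, a τ, Sp_mono Set.inter_subset_left sm, ?_, mem_Sp.2 fun t ht => ?_⟩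
  · rw [map_sum]
    exact Finset.sum_eq_zero fun τ h => hz τ (mem τ h)
  have m := mem_Sp.1 (sub_mem hb (q.cl_Hi U t0 n _ sm)) t ht
  refine ⟨m.1, Nat.succ_le_of_lt (lt_of_le_of_ne (show n ≤ (cr q.car t).card from m.2) fun e => ht ?_)⟩
  have hU := q.sub_up.1 m.1.2.2
  rw [Finsupp.sub_apply, map_sum, Finsupp.finsetSum_apply, Finset.sum_eq_single (cr q.car t),
    he _ e.symm t rfl, sub_self]
  · intro τ h ne
    rw [← q.dq_low (hi τ (mem τ h)) hU e.ge (q.sub_up.2 subset_rfl),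
      (rs_eq_zero (U := {t' | cr q.car t' = cr q.car t})).2
        (Sp_mono (fun t' ht (e : cr q.car t' = cr q.car t) => ne (ht.2.symm.trans e))
          (ha τ (mem τ h))), map_zero]
    rfl
  · exact fun h => absurd (Finset.mem_powersetCard.2 ⟨hU, e.symm⟩) h

include hc in
theorem ker {U : Finset S} {t0 : Finset S'} (h0 : t0 ∈ Q Γ' (q.up U) ∅) (m : ℕ) :
    ∀ n, U.card < n + m → ∀ b ∈ Sp (q.Hi U t0 n), dq Γ' col' (q.up U) b = 0 → sd q.car q.sg b = 0 →
      ∃ a ∈ Sp (Q Γ' (q.up U) t0), sd q.car q.sg a = 0 ∧ dq Γ' col' (q.up U) a = b := by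
  induction m with
  | zero =>
    refine fun n hn b hb _ _ => ⟨0, zero_mem _, map_zero _, ?_⟩
    rw [map_zero]
    refine (Finsupp.ext fun t => by_contra fun e => ?_).symm
    have m := mem_Sp.1 hb t e
    exact absurd (le_trans m.2 (Finset.card_le_card (q.sub_up.1 m.1.2.2))) (by omega)
  | succ m ih =>
    intro n hn b hb hd hs
    obtain ⟨a, ha, hz, h⟩ := q.step h0 hb hd hs
    obtain ⟨c, hc', hz', e⟩ := ih (n + 1) (by omega) _ h (by rw [map_sub, hd, dq_dq hc, sub_zero])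
      (by rw [map_sub, hs, q.sd_dq U a (Sp_mono (Qi.Q_sub t0) ha), hz, map_zero, sub_zero])
    exact ⟨a + c, add_mem ha hc', by rw [map_add, hz, hz', add_zero], by rw [map_add, e, add_sub_cancel]⟩

/-- **the quasi-isomorphism** -/
def qi : Qi Γ' col' Γ col where
  car := q.car
  up := q.up
  σ := q.sg
  mem_up := q.mem_up
  car_ne := q.car_ne
  clq := q.clq
  σ_sup t h := by
    have c : Γ'.IsClique (t : Set S') := by_contra fun n => h (if_neg n)
    exact ⟨c, q.σ_card t c (by rwa [sg, if_pos c] at h)⟩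
  top τ h t0 h0 := by
    obtain ⟨t, ht, e, s⟩ := q.top τ h t0 h0
    exact ⟨t, ht, e, by rwa [sg, if_pos ht.1]⟩
  sd_dq := q.sd_dq
  ker U t0 h0 b hb := q.ker hc h0 (U.card + 1) 0 (by omega) b
    (Sp_mono (fun _ h => And.intro h (Nat.zero_le _)) hb)

@[simp] theorem qi_car : (q.qi hc).car = q.car := rfl
@[simp] theorem qi_up : (q.qi hc).up = q.up := rfl
@[simp] theorem qi_σ : (q.qi hc).σ = q.sg := rfl

end Sd

end Crest.Agent.N233.Lo

end
end

-- ▼ part N233/Lo/Per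
section

/-!
# Row 233 (helper91): periods of closed cochains on tuples over subdivided cycles (Sperner's lemma)
-/

set_option autoImplicit false
set_option linter.unusedSectionVars false
open Finsupp

noncomputable section

namespace Crest.Agent.N233.Lo

open Crest.Agent.N255 Crest.Agent.N255.Ch Crest.Agent.N255.Nv Crest.Agent.N255.Dg

variable {S S' K K' : Type} [DecidableEq S] [DecidableEq S'] [LinearOrder K] [LinearOrder K']

open Classical in
/-- a function on the cliques of `U` as a cochain -/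
def ct (Γ : SimpleGraph S) (U : Finset S) (g : Finset S → ℤ) : Finset S →₀ ℤ :=
  onFinset U.powerset (fun t => if t ∈ Q Γ U ∅ then g t else 0) fun t h =>
    Finset.mem_powerset.2 (by by_contra n; exact h (if_neg fun m => n m.2.2))

section ct
variable {Γ : SimpleGraph S} {col : S → K} {U : Finset S}

theorem ct_of_mem (g : Finset S → ℤ) {t : Finset S} (h : t ∈ Q Γ U ∅) : ct Γ U g t = g t := if_pos h

theorem ct_mem (g : Finset S → ℤ) : ct Γ U g ∈ Sp (Q Γ U ∅) :=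
  mem_Sp.2 fun _ h => by_contra fun n => h (if_neg n)

theorem pe_ct {z : Finset S → ℤ} (h : ∀ t, z t ≠ 0 → t ∈ Q Γ U ∅) (g : Finset S → ℤ) :
    pe z (ct Γ U g) = ∑ t ∈ U.powerset, z t * g t := by
  rw [linearCombination_apply, sum_of_support_subset _
    (show (ct Γ U g).support ⊆ U.powerset from support_onFinset_subset) _ (by simp)]
  refine Finset.sum_congr rfl fun t _ => ?_
  by_cases e : z t = 0
  · simp [e]
  · rw [ct_of_mem g (h t e), smul_eq_mul, mul_comm]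

theorem dq_ct (g : Finset S → ℤ) {t : Finset S} (h : t ∈ Q Γ U ∅) :
    dq Γ col U (ct Γ U g) t = ∑ s ∈ t, eps col s (t.erase s) * g (t.erase s) := by
  rw [dq_apply, if_pos h.1, Finset.inter_eq_left.2 h.2.2]
  exact Finset.sum_congr rfl fun s _ => by rw [ct_of_mem g (Q_erase h s)]

theorem eps_er (s : S) (t : Finset S) :
    eps col s (t.erase s) = (-1) ^ (t.filter fun x => col x < col s).card := by
  rw [eps, Finset.filter_erase, Finset.erase_eq_of_notMem (by simp)]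

theorem injOn_of (hc : ∀ s t, Γ.Adj s t → col s ≠ col t) {t : Finset S} (h : Γ.IsClique (t : Set S)) :
    Set.InjOn col t := fun a ha b hb e => by_contra fun n => hc a b (h ha hb n) e

theorem tb_Δ' (hc : ∀ s t, Γ.Adj s t → col s ≠ col t) {n : ℕ} {t : Finset S}
    (h : Γ.IsClique (t : Set S)) (hn : t.card = n + 2) : tb ℤ n (Δ ℤ col (n + 1) t) =
      ∑ s ∈ t, eps col s (t.erase s) • Δ ℤ col n (t.erase s) := by
  rw [tb_Δ (injOn_of hc h) hn]
  exact Finset.sum_congr rfl fun s _ => by rw [eps_er]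

variable (col) in
/-- minus the boundary -/
def mD : (Finset S →₀ ℤ) →ₗ[ℤ] (Finset S →₀ ℤ) :=
  linearCombination ℤ fun t => -∑ s ∈ t, eps col s (t.erase s) • single (t.erase s) 1

theorem mD_eq {V : Type} [AddCommGroup V] (T : (Finset S →₀ ℤ) →ₗ[ℤ] V) (t : Finset S) :
    T (mD col (single t 1)) = -∑ s ∈ t, eps col s (t.erase s) • T (single (t.erase s) 1) := by
  simp only [mD, linearCombination_single, one_smul, map_neg, map_sum, map_smul]

theorem mD_mD (hc : ∀ s t, Γ.Adj s t → col s ≠ col t) {t : Finset S} (h : Γ.IsClique (t : Set S)) :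
    mD col (mD col (single t 1)) = 0 := by
  ext y
  have m : t ∈ Q Γ t ∅ := ⟨h, Finset.empty_subset _, subset_rfl⟩
  have := congrArg (· t) (dq_dq hc t (ct Γ t fun u => single u (1 : ℤ) y))
  simp only [dq_apply _ _ t, if_pos h, Finset.inter_self, Finsupp.zero_apply] at this
  rw [mD_eq, Finsupp.zero_apply, ← this]
  simp only [Finsupp.neg_apply, Finsupp.finsetSum_apply, Finsupp.smul_apply, smul_eq_mul,
    ← Finset.sum_neg_distrib]
  refine Finset.sum_congr rfl fun s _ => ?_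
  rw [dq_ct _ (Q_erase m s), ← mul_neg, show mD col (single (t.erase s) 1) y =
    lapply (R := ℤ) y (mD col (single (t.erase s) 1)) from rfl, mD_eq, neg_neg]
  rfl

end ct

namespace Qi

variable {Γ' : SimpleGraph S'} {col' : S' → K'} {Γ : SimpleGraph S} {col : S → K}
  (q : Qi Γ' col' Γ col)

theorem σ_empty : q.σ ∅ = 1 ∨ q.σ ∅ = -1 := by
  obtain ⟨t, ht, e, h⟩ := q.top ∅ (by simp) ∅ (empty_mem _)
  rcases t.eq_empty_or_nonempty with rfl | n
  · exact h
  · exact absurd (e ▸ q.cr_ne n) Finset.not_nonempty_empty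

theorem fu_ne {τ : Finset S} {t : Finset S'} (h : fu q.car q.σ τ t ≠ 0) :
    cr q.car t = τ ∧ q.σ t ≠ 0 := by
  by_cases e : cr q.car t = τ
  · exact ⟨e, by rwa [fu, if_pos e] at h⟩
  · exact absurd (if_neg e) h

theorem fu_mem {U τ : Finset S} (hU : τ ⊆ U) (t : Finset S') (h : fu q.car q.σ τ t ≠ 0) :
    t ∈ Q Γ' (q.up U) ∅ :=
  ⟨(q.σ_sup t (q.fu_ne h).2).1, Finset.empty_subset _, q.sub_up.2 ((q.fu_ne h).1.le.trans hU)⟩

theorem sd_ct {U τ : Finset S} (hU : τ ⊆ U) (g : Finset S' → ℤ) :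
    sd q.car q.σ (ct Γ' (q.up U) g) τ = ∑ t ∈ (q.up τ).powerset, fu q.car q.σ τ t * g t := by
  rw [sd_apply, ← pe_ct (q.fu_mem subset_rfl)]
  refine (pe_congr 1 fun t h => ?_).trans (one_mul _)
  rw [one_mul, ct_of_mem g (q.fu_mem hU t h), ct_of_mem g (q.fu_mem subset_rfl t h)]

/-- Stokes on one subdivided simplex -/
theorem stokes {τ : Finset S} (h : Γ.IsClique (τ : Set S)) (g : Finset S' → ℤ) :
    ∑ t ∈ (q.up τ).powerset, fu q.car q.σ τ t * ∑ s ∈ t, eps col' s (t.erase s) * g (t.erase s) =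
      ∑ s ∈ τ, eps col s (τ.erase s) *
        ∑ t ∈ (q.up (τ.erase s)).powerset, fu q.car q.σ (τ.erase s) t * g t := by
  have := congrArg (· τ) (q.sd_dq τ _ (ct_mem g))
  simp only [dq_apply _ _ τ, if_pos h, Finset.inter_self, q.sd_ct (Finset.erase_subset _ _)] at this
  rw [← this, sd_apply, ← pe_ct (q.fu_mem subset_rfl)]
  refine (pe_congr 1 fun t h => ?_).trans (one_mul _)
  rw [one_mul, ct_of_mem _ (q.fu_mem subset_rfl t h), dq_ct g (q.fu_mem subset_rfl t h)]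

variable (ap : S' → S)

/-- the subdivided simplex, pushed back -/
def bk (n : ℕ) (τ : Finset S) : Tu S n →₀ ℤ :=
  ∑ t ∈ (q.up τ).powerset, fu q.car q.σ τ t • tm ℤ ap n (Δ ℤ col' n t)

theorem lin_bk {n : ℕ} (l : (Tu S n →₀ ℤ) →ₗ[ℤ] ℤ) (τ : Finset S) : l (q.bk ap n τ) =
    ∑ t ∈ (q.up τ).powerset, fu q.car q.σ τ t * l (tm ℤ ap n (Δ ℤ col' n t)) := by
  simp only [bk, map_sum, map_smul, smul_eq_mul]

variable {ap} (hap : ∀ a, ap a ∈ q.car a)

include hap in
theorem bk_Car (n : ℕ) (τ : Finset S) : q.bk ap n τ ∈ Dg.Car ℤ (τ : Set S) n :=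
  sum_mem fun t ht => Submodule.smul_mem _ _ (by
    refine mem_of (fun x hx => ?_) (Δ_Car n t)
    rw [tm_single]
    refine single_mem_supported ℤ 1 ?_
    rintro _ ⟨i, rfl⟩
    exact (q.mem_up τ _).1 (Finset.mem_powerset.1 ht (hx ⟨i, rfl⟩)) (hap _))

variable (hc' : ∀ s t, Γ'.Adj s t → col' s ≠ col' t) (hc : ∀ s t, Γ.Adj s t → col s ≠ col t)

include hc' in
theorem tb_bk {n : ℕ} {τ : Finset S} (h : Γ.IsClique (τ : Set S)) (hn : τ.card = n + 2) :
    tb ℤ n (q.bk ap (n + 1) τ) = ∑ s ∈ τ, eps col s (τ.erase s) • q.bk ap n (τ.erase s) := by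
  ext x
  have e : ∀ c : Tu S n →₀ ℤ, c x = lapply (R := ℤ) x c := fun _ => rfl
  rw [e, e, map_sum]
  simp only [map_smul, smul_eq_mul, lin_bk]
  rw [← q.stokes h fun t => lapply (R := ℤ) x (tm ℤ ap n (Δ ℤ col' n t)), ← LinearMap.comp_apply, lin_bk]
  refine Finset.sum_congr rfl fun t _ => ?_
  by_cases z : fu q.car q.σ τ t = 0
  · rw [z, zero_mul, zero_mul]
  · have a := q.fu_ne z
    have b := q.σ_sup t a.2
    rw [LinearMap.comp_apply, tb_tm, tb_Δ' hc' b.1 (by rw [b.2, a.1, hn])]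
    simp only [map_sum, map_smul, smul_eq_mul]

theorem ta_bk {τ : Finset S} (h : Γ.IsClique (τ : Set S)) (hn : τ.card = 1) :
    ta ℤ (q.bk ap 0 τ) = q.σ ∅ := by
  obtain ⟨v, rfl⟩ := Finset.card_eq_one.1 hn
  have := q.stokes h fun t => if t = ∅ then 1 else 0
  rw [Finset.sum_singleton, Finset.erase_singleton,
    Finset.sum_eq_single (s := (q.up ∅).powerset) ∅ (fun t _ n => by rw [if_neg n, mul_zero])
      (by simp)] at this
  rw [lin_bk, show q.σ ∅ = eps col v ∅ * (fu q.car q.σ ∅ ∅ * if (∅ : Finset S') = ∅ then 1 else 0) by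
    simp [eps, fu, cr_empty], ← this]
  refine Finset.sum_congr rfl fun t _ => ?_
  by_cases z : fu q.car q.σ {v} t = 0
  · rw [z, zero_mul, zero_mul]
  · have a := q.fu_ne z
    obtain ⟨b, rfl⟩ := Finset.card_eq_one.1 ((q.σ_sup t a.2).2.trans (by rw [a.1, hn]))
    simp [ta_tm, ta_Δ, eps]

include hap hc' hc in
/-- **periods over a subdivided cycle** -/
theorem per {U : Finset S} {z : Finset S → ℤ} {n : ℕ}
    (sup : ∀ t, z t ≠ 0 → t ∈ Q Γ U ∅ ∧ t.card = n + 1)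
    (cyc : ∀ t ∈ Q Γ U ∅, pe z (dq Γ col U (single t 1)) = 0) (f : Tu S n → ℤ)
    (hf : ∀ x : Tu S (n + 1), Set.range x ⊆ U → Γ.IsClique (Set.range x) → td ℤ f x = 0) :
    ∑ t ∈ (q.up U).powerset, q.z z t * linearCombination ℤ (fun x => f (ap ∘ x)) (Δ ℤ col' n t) =
      q.σ ∅ * ∑ τ ∈ U.powerset, z τ * linearCombination ℤ f (Δ ℤ col n τ) := by
  obtain ⟨F, -, F1, F2⟩ := exists_car (k := ℤ) (mD col) Finset.card (fun τ => (τ : Set S)) {∅}
    {τ | Γ.IsClique (τ : Set S)}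
    (fun n => linearCombination ℤ fun τ => q.bk ap n τ - q.σ ∅ • Δ ℤ col n τ) (fun _ => 0) 0
    (fun y _ hy => Finset.coe_nonempty.2 (Finset.nonempty_iff_ne_empty.2 hy))
    (fun y hy => by
      rw [show mD col (single y 1) = LinearMap.id (R := ℤ) (mD col (single y 1)) from rfl, mD_eq]
      refine neg_mem (sum_mem fun s hs => Submodule.smul_mem _ _ (single_mem_supported ℤ 1 ?_))
      exact ⟨SimpleGraph.IsClique.subset (Finset.erase_subset s y) hy, Finset.erase_subset s y,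
        Finset.card_erase_add_one hs⟩)
    (by rintro _ rfl; simp [mD]) (fun y hy => mD_mD hc hy)
    (fun n y _ _ => by
      rw [linearCombination_single, one_smul]
      exact sub_mem (q.bk_Car hap n y) (Submodule.smul_mem _ _ (Δ_Car n y)))
    (fun n y hy hn => by
      rw [mD_eq]
      simp only [linearCombination_single, one_smul, map_sub, map_smul, q.tb_bk hc' hy hn,
        tb_Δ' hc hy hn, smul_sub, Finset.sum_sub_distrib, Finset.smul_sum, smul_comm (q.σ ∅)]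
      abel)
    (fun y _ _ => ⟨zero_mem _, fun _ => rfl⟩)
    (fun y hy hn => by
      obtain ⟨v, rfl⟩ := Finset.card_eq_one.1 hn
      simp [q.ta_bk hy hn, ta_Δ])
    (by rintro n _ rfl h; simp at h)
  have key : ∀ τ ∈ U.powerset, z τ * linearCombination ℤ f (q.bk ap n τ) =
      q.σ ∅ * (z τ * linearCombination ℤ f (Δ ℤ col n τ)) +
        z τ * dq Γ col U (ct Γ U fun u => linearCombination ℤ f (F n (single u 1))) τ := fun τ _ => by
    by_cases e : z τ = 0
    · simp [e]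
    obtain ⟨m, hn⟩ := sup τ e
    have h := congrArg (linearCombination ℤ f) (F2 n τ m.1 hn)
    rw [lc_tb, lc_zero (fun x hx => hf x (Set.Subset.trans hx m.2.2) (m.1.subset hx))
      (F1 (n + 1) τ m.1 hn).1, map_add, ← LinearMap.comp_apply _ (F n), mD_eq, linearCombination_single,
      one_smul, map_sub, map_smul] at h
    rw [dq_ct _ m]
    simp only [LinearMap.comp_apply, smul_eq_mul] at h
    linear_combination (-z τ) * h
  have z0 : ∑ τ ∈ U.powerset, z τ *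
      dq Γ col U (ct Γ U fun u => linearCombination ℤ f (F n (single u 1))) τ = 0 := by
    rw [← pe_ct fun t h => (sup t h).1]
    refine (pe_congr 1 fun t h => ?_).trans ((one_mul _).trans
      (eq_zero_on (f := pe z ∘ₗ dq Γ col U) cyc
        (ct_mem fun u => linearCombination ℤ f (F n (single u 1)))))
    rw [one_mul, ct_of_mem _ (sup t h).1]
  rw [Finset.mul_sum, ← add_zero (∑ _ ∈ U.powerset, _), ← z0, ← Finset.sum_add_distrib,
    ← Finset.sum_congr rfl key, ← pe_ct fun t h => (q.z_sup sup t h).1, pe_sz,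
    ← pe_ct fun t h => (sup t h).1]
  refine (pe_congr 1 fun t h => ?_).trans (one_mul _)
  rw [one_mul, ct_of_mem _ (sup t h).1, q.sd_ct (sup t h).1.2.2, lin_bk]
  simp only [lc_tm]

end Qi

end Crest.Agent.N233.Lo

end
end

-- ▼ part N233/Lo/Pl
section

/-!
# Row 233 (helper12): pull back of the model facts to a subdivision
-/

set_option autoImplicit false
set_option linter.unusedSectionVars false
open Finsupp

noncomputable section

namespace Crest.Agent.N233.Lo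

open Crest.Agent.N255 Crest.Agent.N255.Ch Crest.Agent.N255.Nv Crest.Agent.N255.Dg
open Crest.Agent.N255.En Crest.Agent.N255.Pt Crest.Agent.N255.Lv

section pl
variable {ι S S' : Type} [DecidableEq ι] [MulAction (FreeGroup ι) S] [MulAction (FreeGroup ι) S']

/-- a simplicial approximation compatible with the walls -/
structure Pl (w' : Wl ι S') (w : Wl ι S) (ap : S' → S) : Prop where
  smul : ∀ (f : FreeGroup ι) a, ap (f • a) = f • ap a
  cl : ∀ a b, En.Cl w'.Γ a b → En.Cl w.Γ (ap a) (ap b)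
  nB : ∀ e a, a ∉ w'.B e → ap a ∉ w.B e

variable {w' : Wl ι S'} {w : Wl ι S} {ap : S' → S}

theorem Pl.T (p : Pl w' w ap) {e : Ed ι} {a : S'} (h : a ∈ w'.T e) : ap a ∈ w.T e :=
  (w.tri e _).resolve_right fun q => q.elim (p.nB e a (w'.TB e a h))
    (p.nB _ a (w'.TB _ a (w'.T_rev e ▸ h)))

theorem Pl.mod (p : Pl w' w ap) {J : Finset (Ed ι)} {a : S'} (h : a ∈ w'.Mod J) : ap a ∈ w.Mod J :=
  fun e he => p.nB e a (h e he)

end pl

/-- pull back of the quadratic labels -/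
def Pl.gm {S S' : Type} [MulAction Ma.F3 S] [MulAction Ma.F3 S'] {w' : Wl (Fin 3) S'} {w : Wl (Fin 3) S}
    {ap : S' → S} (p : Pl w' w ap) {M : En.Md w} (L : Ma.Gm w M) (M' : En.Md w')
    (h : ∀ e a b, M'.mer e a b = M.mer e (ap a) (ap b)) : Ma.Gm w' M' where
  y v t i j a b := L.y v t i j (ap a) (ap b)
  ε := L.ε
  y_add v t i j a b c ha hb hc h1 h2 h3 := by
    rw [h, h]
    exact L.y_add v t i j _ _ _ (p.mod ha) (p.mod hb) (p.mod hc) (p.cl _ _ h1) (p.cl _ _ h2) (p.cl _ _ h3)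
  y_wall v t i j s a b ha hb c := by
    rw [h, h]
    exact L.y_wall v t i j s _ _ (p.T ha) (p.T hb) (p.cl _ _ c)
  y_zero v t i j e a b o ha hb c := L.y_zero v t i j e _ _ o (p.nB _ _ ha) (p.nB _ _ hb) (p.cl _ _ c)

variable {S S' K K' : Type} [DecidableEq S] [DecidableEq S'] [LinearOrder K] [LinearOrder K']

section per
variable {Γ : SimpleGraph S} {col : S → K} {U : Finset S} {z : Finset S → ℤ}

theorem pA_Δ1 (hc : ∀ s t, Γ.Adj s t → col s ≠ col t) (sup : ∀ t, z t ≠ 0 → t ∈ Q Γ U ∅ ∧ t.card = 2)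
    (φ : S → S → ℤ) : Md.pA z U (Md.s1 col φ) =
      ∑ t ∈ U.powerset, z t * linearCombination ℤ (fun x : Tu S 1 => φ (x 0) (x 1)) (Δ ℤ col 1 t) :=
  Md.pA_congr fun t ht => by
    obtain ⟨a, -, b, -, -, l, rfl⟩ := Md.X2 hc (Md.mem_Xn.2 (sup t ht))
    have m : StrictMono (col ∘ (![a, b] : Tu S 1)) := Fin.strictMono_iff_lt_succ.2 fun i => by
      fin_cases i; exact l
    rw [Md.s1_pair _ l, show ({a, b} : Finset S) = im (![a, b] : Tu S 1) by
      ext; simp [im, Fin.exists_fin_succ, eq_comm], Δ_im m]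
    simp

theorem pA_Δ2 (hc : ∀ s t, Γ.Adj s t → col s ≠ col t) (sup : ∀ t, z t ≠ 0 → t ∈ Q Γ U ∅ ∧ t.card = 3)
    (φ : S → S → S → ℤ) : Md.pA z U (Md.s2 col φ) = ∑ t ∈ U.powerset,
      z t * linearCombination ℤ (fun x : Tu S 2 => φ (x 0) (x 1) (x 2)) (Δ ℤ col 2 t) :=
  Md.pA_congr fun t ht => by
    obtain ⟨a, -, b, -, c, -, -, -, -, l, l', rfl⟩ := Md.X3 hc (Md.mem_Xn.2 (sup t ht))
    have m : StrictMono (col ∘ (![a, b, c] : Tu S 2)) := Fin.strictMono_iff_lt_succ.2 fun i => by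
      fin_cases i; exacts [l, l']
    rw [Md.s2_tri _ l l', show ({a, b, c} : Finset S) = im (![a, b, c] : Tu S 2) by
      ext; simp [im, Fin.exists_fin_succ, eq_comm], Δ_im m]
    simp

theorem cl_of_clq {n : ℕ} {x : Tu S n} (h : Γ.IsClique (Set.range x)) (i j : Fin (n + 1)) :
    Md.Cl Γ (x i) (x j) := or_iff_not_imp_left.2 (h ⟨i, rfl⟩ ⟨j, rfl⟩)

end per

namespace Qi
variable {Γ' : SimpleGraph S'} {col' : S' → K'} {Γ : SimpleGraph S} {col : S → K}
  (q : Qi Γ' col' Γ col) {ap : S' → S} (hap : ∀ a, ap a ∈ q.car a)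
  (hc' : ∀ s t, Γ'.Adj s t → col' s ≠ col' t) (hc : ∀ s t, Γ.Adj s t → col s ≠ col t)
  {U : Finset S} {z : Finset S → ℤ}

include hap hc' hc in
theorem per1 (sup : ∀ t, z t ≠ 0 → t ∈ Q Γ U ∅ ∧ t.card = 2)
    (cyc : ∀ t ∈ Q Γ U ∅, pe z (dq Γ col U (single t 1)) = 0) {φ : S → S → ℤ}
    (h : Md.Z1 Γ (U : Set S) φ) :
    Md.pA (q.z z) (q.up U) (Md.s1 col' fun a b => φ (ap a) (ap b)) =
      q.σ ∅ * Md.pA z U (Md.s1 col φ) := by
  rw [pA_Δ1 hc' (q.z_sup sup), pA_Δ1 hc sup]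
  exact q.per hap hc' hc sup cyc (fun x => φ (x 0) (x 1)) fun x h1 h2 =>
    h.td x (Md.ct_iff.2 ⟨fun i => h1 ⟨i, rfl⟩, cl_of_clq h2⟩)

include hap hc' hc in
theorem per2 (sup : ∀ t, z t ≠ 0 → t ∈ Q Γ U ∅ ∧ t.card = 3)
    (cyc : ∀ t ∈ Q Γ U ∅, pe z (dq Γ col U (single t 1)) = 0) {φ : S → S → S → ℤ}
    (h : Md.Z2 Γ (U : Set S) φ) :
    Md.pA (q.z z) (q.up U) (Md.s2 col' fun a b c => φ (ap a) (ap b) (ap c)) =
      q.σ ∅ * Md.pA z U (Md.s2 col φ) := by
  rw [pA_Δ2 hc' (q.z_sup sup), pA_Δ2 hc sup]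
  refine q.per hap hc' hc sup cyc (fun x => φ (x 0) (x 1) (x 2)) fun x h1 h2 => ?_
  have c := cl_of_clq h2
  have := h _ (h1 ⟨0, rfl⟩) _ (h1 ⟨1, rfl⟩) _ (h1 ⟨2, rfl⟩) _ (h1 ⟨3, rfl⟩) (c 0 1) (c 0 2) (c 0 3)
    (c 1 2) (c 1 3) (c 2 3)
  rw [td2]
  simp only [Matrix.cons_val]
  linear_combination this

theorem sd_sc (u : ℤ) (car : S' → Finset S) (σ : Finset S' → ℤ) (a : Finset S' →₀ ℤ) :
    sd car (fun t => u * σ t) a = u • sd car σ a := by
  induction a using Finsupp.induction_linear with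
  | zero => simp
  | add a b ha hb => simp only [map_add, ha, hb, smul_add]
  | single t r =>
    rw [← smul_single_one t r, map_smul, map_smul, sd_single, sd_single, smul_comm u, mul_smul]

/-- normalisation of the sign -/
def nrm : Qi Γ' col' Γ col :=
  have u := q.σ_empty
  have k : ∀ a, sd q.car (fun t => q.σ ∅ * q.σ t) a = 0 ↔ sd q.car q.σ a = 0 := fun a => by
    rw [sd_sc]; rcases u with u | u <;> simp [u]
  { q with
    σ := fun t => q.σ ∅ * q.σ t
    σ_sup := fun t h => q.σ_sup t (right_ne_zero_of_mul h)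
    top := fun τ h t0 h0 => by
      obtain ⟨t, h1, h2, h3⟩ := q.top τ h t0 h0
      exact ⟨t, h1, h2, by rcases u with u | u <;> rcases h3 with h3 | h3 <;> simp [u, h3]⟩
    sd_dq := fun U a h => by rw [sd_sc, sd_sc, q.sd_dq U a h, map_smul]
    ker := fun U t0 h0 b hb hd h => by
      simpa only [k] using q.ker U t0 h0 b hb hd ((k b).1 h) }

theorem nrm_empty : q.nrm.σ ∅ = 1 := by
  show q.σ ∅ * q.σ ∅ = 1
  rcases q.σ_empty with u | u <;> simp [u]

end Qi

variable {ι F : Type} [DecidableEq ι] [MulAction (FreeGroup ι) S] [MulAction (FreeGroup ι) S']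
  [Group F] [MulAction F (Nd ι)] [MulAction F (Ed ι)] {M : Ce.Mir S K F (Nd ι) (Ed ι)}
  {M' : Ce.Mir S' K' F (Nd ι) (Ed ι)} {L : Loc M} {w : Wl ι S} {w' : Wl ι S'}

/-- the data of a subdivided model -/
structure Sb (w' : Wl ι S') (M' : Ce.Mir S' K' F (Nd ι) (Ed ι)) {w : Wl ι S} {L : Loc M} (h : Wm w L) where
  q : Qi M'.Γ M'.col M.Γ M.col
  hs : M'.src = M.src
  ht : M'.tgt = M.tgt
  hy : M'.ty = M.ty
  hsp : ∀ n, M'.sp n = q.up (M.sp n)
  hcar : ∀ f a, q.car (M'.ρ f a) = (q.car a).image (M.ρ f)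
  hσ : ∀ f t, q.σ (t.image (M'.ρ f)) = q.σ t
  Γ : w'.Γ = M'.Γ
  T : ∀ e a, a ∈ w'.T e ↔ ↑(q.car a) ⊆ w.T e
  B : ∀ e a, a ∉ w'.B e ↔ ∀ s ∈ q.car a, s ∉ w.B e
  ap : S' → S
  hap : ∀ a, ap a ∈ q.car a
  smul : ∀ (f : FreeGroup ι) a, ap (f • a) = f • ap a

namespace Sb
variable {h : Wm w L} (s : Sb w' M' h)

/-- the local structure -/
def loc : Loc M' := locSd L s.q s.hs s.ht s.hy s.hsp s.hcar s.hσ

/-- the same with normalised sign -/
def locN : Loc M' := locSd L s.q.nrm s.hs s.ht s.hy s.hsp s.hcar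
  fun f t => congrArg (s.q.σ ∅ * ·) (s.hσ f t)

theorem pl : Pl w' w s.ap := ⟨s.smul, fun a b c => by
  rcases c with rfl | c
  · exact .rfl _
  have := s.q.clq {a, b} (by simpa using SimpleGraph.isClique_pair.2 fun _ => s.Γ ▸ c)
  rw [h.Γ]
  exact or_iff_not_imp_left.2 (this (car_sub_cr _ (by simp) (s.hap a)) (car_sub_cr _ (by simp) (s.hap b))),
  fun e a k => (s.B e a).1 k _ (s.hap a)⟩

include s in
theorem wm (L' : Loc M') (hop : L'.op = L.op) : Wm w' L' :=
  ⟨s.Γ, s.hs.trans h.src, s.ht.trans h.tgt, hop.trans h.op,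
    fun e => Set.ext fun a => by rw [s.T, h.T, s.hsp, Finset.mem_coe, s.q.mem_up, Finset.coe_subset],
    fun e a => by
      simp only [s.B, s.hsp, s.q.mem_up]
      refine ⟨fun k => ?_, fun ⟨v, h1, h2⟩ x hx => (h.B e x).2 ⟨v, h1, h2 hx⟩⟩
      obtain ⟨⟨v, _⟩, ⟨rfl, h1⟩, h2⟩ := (h.side e).sub.full (t := s.q.car a)
        (by simpa [cr] using s.q.clq {a} (by simp)) (s.q.car_ne a) fun x hx =>
          let ⟨v, h1, h2⟩ := (h.B e x).1 (k x hx); ⟨_, ⟨rfl, h1⟩, h2⟩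
      exact ⟨v, h1, h2⟩⟩

variable (m : En.Md w)

include h in
omit s in
theorem z1T (e : Ed ι) : Md.Z1 M.Γ (M.sp (M.tgt e) : Set S) (m.mer e) := fun a ha b hb c hc h1 h2 h3 =>
  have t : ∀ {a}, a ∈ (M.sp (M.tgt e) : Set S) → a ∉ w.B e := fun k => w.TB e _ (h.wall e ▸ k)
  m.mer_add e a b c (t ha) (t hb) (t hc) (h.Γ ▸ h1) (h.Γ ▸ h3) (h.Γ ▸ h2)

include h in
omit s in
theorem z2T (e : Ed ι) :
    Md.Z2 M.Γ (M.sp (M.tgt e) : Set S) fun a b c => m.mer e a b * m.mer (rev e) b c :=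
  (z1T (h := h) m e).cup (by simpa only [h.tgt, tgt_rev] using z1T (h := h) m (rev e))


theorem p2_locN (e : Ed ι) : Md.p2 M' e (s.locN.ω e)
    (fun a b c => m.mer e (s.ap a) (s.ap b) * m.mer (rev e) (s.ap b) (s.ap c)) =
      Md.p2 M e (L.ω e) fun a b c => m.mer e a b * m.mer (rev e) b c := by
  rw [Md.p2, s.hsp, s.ht]
  exact (s.q.nrm.per2 s.hap M'.col_ne M.col_ne (L.cω e).sup (L.cω e).cyc (z2T (h := h) m e)).trans
    (by rw [s.q.nrm_empty, one_mul]; rfl)

theorem p1_locN (e : Ed ι) : Md.p1 M' e (s.locN.m e) (fun a b => m.mer e (s.ap a) (s.ap b)) =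
    Md.p1 M e (L.m e) (m.mer e) := by
  rw [Md.p1, s.hsp, s.ht]
  exact (s.q.nrm.per1 s.hap M'.col_ne M.col_ne (L.cm e).sup (L.cm e).cyc (z1T (h := h) m e)).trans
    (by rw [s.q.nrm_empty, one_mul]; rfl)

/-- **the model facts of the subdivision** -/
def md (q1 : ∀ e, Md.p1 M e (L.m e) (m.mer e) = 1)
    (q2 : ∀ e, ∃ u, Md.p2 M e (L.ω e) (fun a b c => m.mer e a b * m.mer (rev e) b c) * u = 1) :
    En.Md w' :=
  (s.wm s.locN rfl).md (fun e a b => m.mer e (s.ap a) (s.ap b))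
    (fun f e a b => by rw [s.smul, s.smul, m.mer_smul])
    (fun e a b c ha hb hc h1 h2 h3 => m.mer_add e _ _ _ (s.pl.nB _ _ ha) (s.pl.nB _ _ hb) (s.pl.nB _ _ hc)
      (s.pl.cl _ _ h1) (s.pl.cl _ _ h2) (s.pl.cl _ _ h3))
    (fun e e' a b k ha hb => m.mer_zero e e' _ _ k (s.pl.nB _ _ ha) (s.pl.nB _ _ hb))
    (fun e => (s.p1_locN m e).trans (q1 e)) fun e => by rw [s.p2_locN m e]; exact q2 e

theorem md_mer (q1 q2) (e : Ed ι) (a b : S') :
    (s.md m q1 q2).mer e a b = m.mer e (s.ap a) (s.ap b) := rfl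

end Sb

end Crest.Agent.N233.Lo

end
end

-- ▼ part N233/Lo/Ps
section

/-!
# Row 233 (helper81): the facts about the block are transported to the subdivision
-/

set_option autoImplicit false

noncomputable section

namespace Crest.Agent.N233.Lo

open Crest.Agent.N255 Crest.Agent.N255.Ch Crest.Agent.N233.PS Finsupp
open Pb (Pr ix ix_pm mem_cr)

attribute [local irreducible] Pb.ixc

section base

variable {S S' K : Type} [DecidableEq S] [DecidableEq S'] [LinearOrder K]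

/-- the coefficient of the top cell only depends on the colours -/
theorem dq_top {G : SimpleGraph S} {col : S → K} (h : ∀ a b, G.Adj a b → col a ≠ col b)
    {τ ρ : Finset S} (hτ : G.IsClique (τ : Set S)) (hρ : ρ ⊆ τ) :
    dq G col τ (single ρ 1) τ =
      dq (⊤ : SimpleGraph K) id (τ.image col) (single (ρ.image col) 1) (τ.image col) := by
  have hi := injOn_col h hτ
  have ht : (⊤ : SimpleGraph K).IsClique (τ.image col : Finset K) := fun _ _ _ _ n => n
  rw [dq_apply, dq_apply, if_pos hτ, if_pos ht, Finset.inter_self, Finset.inter_self,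
    Finset.sum_image hi]
  refine Finset.sum_congr rfl fun s hs => ?_
  have he : (τ.image col).erase (col s) = (τ.erase s).image col := by
    ext k
    simp only [Finset.mem_erase, Finset.mem_image]
    constructor
    · rintro ⟨n, u, hu, rfl⟩
      exact ⟨u, ⟨fun e => n (e ▸ rfl), hu⟩, rfl⟩
    · rintro ⟨u, ⟨n, hu⟩, rfl⟩
      exact ⟨fun e => n (hi hu hs e), u, hu, rfl⟩
  have hi' : Set.InjOn col (τ.erase s : Finset S) := hi.mono (by simp)
  rw [he]
  congr 1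
  · unfold eps
    rw [Finset.filter_image, Finset.card_image_of_injOn (hi'.mono (Finset.coe_subset.2 (Finset.filter_subset _ _)))]
    rfl
  · simp only [single_apply]
    refine if_congr ⟨fun e => e ▸ rfl, fun e => ?_⟩ rfl rfl
    exact Finset.coe_injective ((hi.image_eq_image_iff (Finset.coe_subset.2 hρ) (by simp)).1
      (by rw [← Finset.coe_image, ← Finset.coe_image, e]))

end base

variable {S : Type} [DecidableEq S] {G : SimpleGraph S} {col : S → Fin 4}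

/-- the carrier as a finite set -/
abbrev ca (a : PG G) : Finset S := a.1.support

theorem cr_ca (t : Finset (PG G)) : cr ca t = Pb.cr t := rfl

theorem cr_ix (h : Pr G col) (t : Finset (PG G)) : cr bc (t.image (ix col)) = (Pb.cr t).image col := by
  rw [cr, Pb.cr, Finset.image_biUnion, Finset.biUnion_image]
  exact Finset.biUnion_congr rfl fun a _ => h.bc_ix a

section face

variable (h : Pr G col) {τ : Finset S} (hτ : G.IsClique (τ : Set S))

include h hτ

omit [DecidableEq S] h in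
theorem cl_pair {a b : PG G} (ha : a ∈ st G τ) (hb : b ∈ st G τ) : G.IsClique (car a ∪ car b) :=
  hτ.subset (Set.union_subset (mem_st.1 ha) (mem_st.1 hb))

/-- the vertices over a face embed into the block -/
def jb : st G τ ↪ Fin 116 :=
  ⟨fun a => ix col a.1, fun a b e => Subtype.ext (h.ix_inj (cl_pair hτ a.2 b.2) e)⟩

omit [DecidableEq S] in
theorem jb_adj (a b : st G τ) :
    BG.Adj (jb h hτ a) (jb h hτ b) ↔ ((psG G).comap Subtype.val).Adj a b :=
  h.adj_ix (cl_pair hτ a.2 b.2)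

omit h hτ [DecidableEq S] in
theorem map_univ_st : (Finset.univ : Finset (st G τ)).map (.subtype _) = st G τ := by
  ext a
  simp

theorem map_univ_jb {U : Finset (Fin 116)} (hU : ∀ i, i ∈ U ↔ bc i ⊆ τ.image col) :
    (Finset.univ : Finset (st G τ)).map (jb h hτ) = U := by
  ext i
  rw [hU, Finset.mem_map]
  constructor
  · rintro ⟨a, -, rfl⟩
    exact (h.bc_ix a.1).symm ▸ Finset.image_subset_image (mem_st'.1 a.2)
  · intro hi
    obtain ⟨a, ha, e⟩ := h.exists_ix hτ hi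
    exact ⟨⟨a, mem_st'.2 ha⟩, Finset.mem_univ _, e⟩

omit [DecidableEq S] in
theorem map_jb (u : Finset (st G τ)) : u.map (jb h hτ) = (u.map (.subtype _)).image (ix col) := by
  rw [Finset.map_eq_image, Finset.map_eq_image, Finset.image_image]
  rfl

omit h hτ in
theorem cr_map_sub (u : Finset (st G τ)) : Pb.cr (u.map (.subtype _)) ⊆ τ :=
  cr_sub_iff.2 fun a ha => by
    obtain ⟨b, -, rfl⟩ := Finset.mem_map.1 ha
    exact b.2

theorem cr_jb (u : Finset (st G τ)) :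
    cr bc (u.map (jb h hτ)) = τ.image col ↔ Pb.cr (u.map (.subtype _)) = τ := by
  rw [map_jb, cr_ix h]
  refine ⟨fun e => ?_, fun e => by rw [e]⟩
  exact Finset.coe_injective (((h.injOn hτ).image_eq_image_iff
    (Finset.coe_subset.2 (cr_map_sub u)) subset_rfl).1
      (by rw [← Finset.coe_image, ← Finset.coe_image, e]))

end face

omit [DecidableEq S] in
theorem exists_map_st {τ : Finset S} {t : Finset (PG G)} (ht : t ⊆ st G τ) :
    ∃ u : Finset (st G τ), u.map (.subtype _) = t := by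
  obtain ⟨u, -, e⟩ := Finset.subset_map_iff.1 (map_univ_st (G := G) (τ := τ) ▸ ht)
  exact ⟨u, e.symm⟩

theorem Q_map_iff {A B : Type} {Γ : SimpleGraph A} {Γ' : SimpleGraph B} (j : B ↪ A)
    (hadj : ∀ x y, Γ.Adj (j x) (j y) ↔ Γ'.Adj x y) {U t0 t : Finset B} :
    t.map j ∈ Q Γ (U.map j) (t0.map j) ↔ t ∈ Q Γ' U t0 :=
  and_congr (clique_map j hadj t) (and_congr Finset.map_subset_map Finset.map_subset_map)

omit [DecidableEq S] in
theorem Q_st {τ : Finset S} {u : Finset (st G τ)} (h : u.map (.subtype _) ∈ Q (psG G) (st G τ) ∅) :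
    u ∈ Q ((psG G).comap Subtype.val) Finset.univ ∅ :=
  ⟨(clique_map (.subtype _) (fun _ _ => Iff.rfl) u).1 h.1, Finset.empty_subset _,
    Finset.subset_univ _⟩

theorem image_Q {A B : Type} {Γ : SimpleGraph A} {Γ' : SimpleGraph B} (j : B ↪ A)
    (hadj : ∀ x y, Γ.Adj (j x) (j y) ↔ Γ'.Adj x y) (U t0 : Finset B) (p : Finset A → Prop) :
    Finset.map j '' (Q Γ' U t0 ∩ {t | p (t.map j)}) = Q Γ (U.map j) (t0.map j) ∩ {t | p t} := by
  ext t
  constructor
  · rintro ⟨u, hu, rfl⟩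
    exact ⟨(Q_map_iff j hadj).2 hu.1, hu.2⟩
  · rintro ⟨ht, hp⟩
    obtain ⟨u, -, rfl⟩ := Finset.subset_map_iff.1 ht.2.2
    exact ⟨u, ⟨(Q_map_iff j hadj).1 ht, hp⟩, rfl⟩

/-- **the subdivision of a four-coloured flag complex** -/
def Sd.ps (B : Sd BG id (⊤ : SimpleGraph (Fin 4)) id) (hB : B.car = bc) (h : Pr G col) :
    Sd (psG G) (ix col) G col where
  car := ca
  up := st G
  σ t := B.σ (t.image (ix col))
  mem_up _ _ := mem_st'
  car_ne a := Finset.coe_nonempty.1 (car_nonempty a)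
  clq _ ht := h.cr_clique ht
  dim _ ht := card_le_cr ht
  σ_card t ht hs := by
    have hτ := h.cr_clique ht
    obtain ⟨u, e⟩ := exists_map_st (cr_sub_iff.1 (subset_refl (Pb.cr t)))
    have h1 := B.σ_card _ ((clique_map _ (jb_adj h hτ) u).2
      ((clique_map (.subtype _) (fun _ _ => Iff.rfl) u).1 (e.symm ▸ ht))) (by rwa [map_jb, e])
    rw [hB, (cr_jb h hτ u).2 (congrArg Pb.cr e), Finset.card_image_of_injOn (h.injOn hτ),
      Finset.card_map] at h1
    exact ((congrArg Finset.card e).symm.trans (Finset.card_map _)).trans h1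
  top τ hτ t0 ht0 := by
    obtain ⟨u0, rfl⟩ := exists_map_st ht0.2.2
    have hU := map_univ_jb h hτ (U := B.up (τ.image col)) fun i => by rw [B.mem_up, hB]
    replace ht0 := Q_st ht0
    obtain ⟨t, ht, e1, e2⟩ := B.top (τ.image col) (fun _ _ _ _ n => n) (u0.map (jb h hτ))
      (hU ▸ (Q_map_iff _ (jb_adj h hτ)).2 ht0)
    rw [← hU] at ht
    obtain ⟨u, -, rfl⟩ := Finset.subset_map_iff.1 ht.2.2
    rw [hB, cr_jb] at e1
    rw [map_jb] at e2
    refine ⟨u.map (.subtype _), ?_, e1, e2⟩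
    have := (Q_map_iff (Γ := psG G) (.subtype _) fun _ _ => Iff.rfl).2
      ((Q_map_iff _ (jb_adj h hτ)).1 ht)
    rwa [map_univ_st] at this
  chain τ hτ t ht := by
    obtain ⟨u, rfl⟩ := exists_map_st ht.2.2
    have hU := map_univ_jb h hτ (U := B.up (τ.image col)) fun i => by rw [B.mem_up, hB]
    replace ht := Q_st ht
    have h1 := B.chain (τ.image col) (fun _ _ _ _ n => n) (u.map (jb h hτ))
      (hU ▸ (Q_map_iff _ (jb_adj h hτ)).2 ht)
    rw [← hU, Pb.pe_dq' _ (jb_adj h hτ) (c' := fun a => ix col a.1) (fun _ => rfl), hB, map_jb,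
      cr_ix h, ← dq_top h hτ (cr_map_sub u)] at h1
    have h2 := Pb.pe_dq' (Γ := psG G) (Γ' := (psG G).comap Subtype.val) (c := ix col)
      (.subtype (· ∈ st G τ)) (fun _ _ => Iff.rfl)
      (c' := fun a => ix col a.1) (fun _ => rfl) (fu ca (fun t => B.σ (t.image (ix col))) τ)
      Finset.univ u
    rw [map_univ_st] at h2
    rw [h2, cr_ca, ← h1]
    congr 2
    ext t
    rw [fu, fu, cr_ca, ← map_jb h hτ]
    exact if_congr (cr_jb h hτ t).symm rfl rfl
  ex τ hτ t0 ht0 := by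
    obtain ⟨u0, rfl⟩ := exists_map_st ht0.2.2
    have hU := map_univ_jb h hτ (U := B.up (τ.image col)) fun i => by rw [B.mem_up, hB]
    replace ht0 := Q_st ht0
    have h1 := B.ex (τ.image col) (fun _ _ _ _ n => n) (u0.map (jb h hτ))
      (hU ▸ (Q_map_iff _ (jb_adj h hτ)).2 ht0)
    rw [← hU, ← image_Q _ (jb_adj h hτ), Pb.ex_iff _ (jb_adj h hτ) (c' := fun a => ix col a.1)
      (fun _ => rfl), hB] at h1
    have h2 := (Pb.ex_iff (Γ := psG G) (Γ' := (psG G).comap Subtype.val) (c := ix col)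
      (.subtype (· ∈ st G τ)) (fun _ _ => Iff.rfl)
      (c' := fun a => ix col a.1) (fun _ => rfl) Finset.univ
      (Q _ Finset.univ u0 ∩ {t | cr ca (t.map (.subtype _)) = τ})
      (fu ca (fun t => B.σ (t.image (ix col))) τ)).2 (by
        convert h1 using 3 with t t
        · rw [fu, fu, cr_ca, ← map_jb h hτ]
          exact if_congr (cr_jb h hτ t).symm rfl rfl
        · ext t
          exact (cr_jb h hτ t).symm)
    rwa [image_Q (Γ := psG G) _ (fun _ _ => Iff.rfl) _ _ fun t => cr ca t = τ, map_univ_st] at h2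

section simp

variable (B : Sd BG id (⊤ : SimpleGraph (Fin 4)) id) (hB : B.car = bc) (h : Pr G col)

@[simp] theorem Sd.ps_car : (Sd.ps B hB h).car = ca := rfl
@[simp] theorem Sd.ps_up : (Sd.ps B hB h).up = st G := rfl
theorem Sd.ps_σ (t : Finset (PG G)) : (Sd.ps B hB h).σ t = B.σ (t.image (ix col)) := rfl

/-- the orientation is natural -/
theorem Sd.ps_σ_pm {S' : Type} [DecidableEq S'] {G' : SimpleGraph S'} {col' : S' → Fin 4}
    (h' : Pr G' col') {j : S → S'} (hj : Nd G.IsClique G'.IsClique j) (hc : ∀ v, col' (j v) = col v)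
    (t : Finset (PG G)) : (Sd.ps B hB h').σ (t.image (pm hj)) = (Sd.ps B hB h).σ t := by
  rw [Sd.ps_σ, Sd.ps_σ, Finset.image_image]
  exact congrArg B.σ (Finset.image_congr fun a _ => ix_pm hj a fun v _ => hc v)

end simp

variable {F Nd Ed : Type} [Group F] [MulAction F Nd] [MulAction F Ed]

/-- the subdivision structure of the mirror model -/
def sdM (B : Sd BG id (⊤ : SimpleGraph (Fin 4)) id) (hB : B.car = bc)
    (M : Ce.Mir S (Fin 4) F Nd Ed) : Sd (mps M).Γ (mps M).col M.Γ M.col := Sd.ps B hB (mir_pr M)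

theorem sdM_σ_smul (B : Sd BG id (⊤ : SimpleGraph (Fin 4)) id) (hB : B.car = bc)
    (M : Ce.Mir S (Fin 4) F Nd Ed) (f : F) (t : Finset (PG M.Γ)) :
    (sdM B hB M).σ (t.image ((mps M).ρ f)) = (sdM B hB M).σ t :=
  Sd.ps_σ_pm B hB (mir_pr M) (mir_pr M) (nd_iso (M.ρ f)) (M.col_ρ f) t

/-- the chosen block structure -/
def BlkS.sd (hb : BlkS) : Sd BG id (⊤ : SimpleGraph (Fin 4)) id := Exists.choose hb

theorem BlkS.car (hb : BlkS) : hb.sd.car = bc := Exists.choose_spec hb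

/-- **the quasi-isomorphism of the subdivision** -/
def qiPs (hb : BlkS) (h : Pr G col) : Qi (psG G) (ix col) G col :=
  (Sd.ps hb.sd hb.car h).qi h.ix_ne

@[simp] theorem qiPs_car (hb : BlkS) (h : Pr G col) : (qiPs hb h).car = ca := rfl
@[simp] theorem qiPs_up (hb : BlkS) (h : Pr G col) : (qiPs hb h).up = st G := rfl

/-- the quasi-isomorphism of the mirror model -/
def qiM (hb : BlkS) (M : Ce.Mir S (Fin 4) F Nd Ed) : Qi (mps M).Γ (mps M).col M.Γ M.col :=
  qiPs hb (mir_pr M)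

@[simp] theorem qiM_car (hb : BlkS) (M : Ce.Mir S (Fin 4) F Nd Ed) : (qiM hb M).car = ca := rfl
@[simp] theorem qiM_up (hb : BlkS) (M : Ce.Mir S (Fin 4) F Nd Ed) : (qiM hb M).up = st M.Γ := rfl

theorem ca_smul (M : Ce.Mir S (Fin 4) F Nd Ed) (f : F) (a : PG M.Γ) :
    ca ((mps M).ρ f a) = (ca a).image (M.ρ f) :=
  Finset.coe_injective ((car_mps M f a).trans Finset.coe_image.symm)

theorem qiM_σ_smul (hb : BlkS) (M : Ce.Mir S (Fin 4) F Nd Ed) (f : F) (t : Finset (PG M.Γ)) :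
    (qiM hb M).σ (t.image ((mps M).ρ f)) = (qiM hb M).σ t := by
  classical
  refine if_congr ⟨fun h => ?_, (mps M).clique_image f⟩ (sdM_σ_smul hb.sd hb.car M f t) rfl
  intro a ha b hb n
  exact ((mps M).ρ f).map_adj_iff.1 (h (Finset.mem_image_of_mem _ ha) (Finset.mem_image_of_mem _ hb)
    (((mps M).ρ f).injective.ne n))

/-- **the local structure of the subdivided mirror model** -/
def locPs [DecidableEq Ed] (hb : BlkS) {M : Ce.Mir S (Fin 4) F Nd Ed} (L : Loc M) : Loc (mps M) :=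
  locSd L (qiM hb M) rfl rfl rfl (fun _ => rfl) (ca_smul M) (qiM_σ_smul hb M)

end Crest.Agent.N233.Lo
end
end

-- ▼ part N233/Pb/Car
section

/-!
# Row 233 (helper40): acyclic carriers on tuples; cocycles on a subdivision are pulled back
-/

set_option autoImplicit false
open Set Finsupp

noncomputable section

namespace Crest.Agent.N233.Pb

open N255.Nv

/-- a subdivision with acyclic carriers and a simplicial approximation `ap` of the identity -/
structure Ca (k : Type) [CommRing k] {S P : Type} (R : S → S → Prop) (R' : P → P → Prop) where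
  car : P → Set S
  ap : P → S
  j : S → P
  refl : ∀ a, R' a a
  ap_mem : ∀ a, ap a ∈ car a
  car_j : ∀ v, car (j v) ⊆ {v}
  fin : ∀ a, (car a).Finite
  cq : ∀ a b, R' a b → ∀ x ∈ car a, ∀ y ∈ car b, R x y
  ac : ∀ s : Set S, s.Finite → s.Nonempty → Cq R s →
    Ac (tb k) (ta k) (Fl R' {a | car a ⊆ s}) (Fl R' {a | car a ⊆ s})

variable {k : Type} [CommRing k] {S P : Type} {R : S → S → Prop} {R' : P → P → Prop}

namespace Ca
variable (C : Ca k R R')

/-- the vertices carried by `U` -/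
def up (U : Set S) : Set P := {a | C.car a ⊆ U}

theorem up_mono {U U' : Set S} (h : U ⊆ U') : C.up U ⊆ C.up U' := fun _ ha => ha.trans h

/-- the subdivision map -/
def sd : ∀ n, (Tu S n →₀ k) →ₗ[k] (Tu P n →₀ k)
  | 0 => tm k C.j 0
  | n + 1 => pick (tb k n) (sd n ∘ₗ tb k n) fun ω => supported k k (Fl R' (C.up (range ω)) (n + 1))

theorem sd_step {n : ℕ} (h : ∀ U, ∀ c ∈ supported k k (Fl R U n),
    C.sd n c ∈ supported k k (Fl R' (C.up U) n) ∧
      (c ∈ rc (tb k) (ta k) n → C.sd n c ∈ rc (tb k) (ta k) n)) (U : Set S) :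
    ∀ c ∈ supported k k (Fl R U (n + 1)), C.sd (n + 1) c ∈ supported k k (Fl R' (C.up U) (n + 1)) ∧
      tb k n (C.sd (n + 1) c) = C.sd n (tb k n c) := by
  have key : ∀ ω ∈ Fl R U (n + 1), C.sd (n + 1) (single ω 1) ∈
      supported k k (Fl R' (C.up (range ω)) (n + 1)) ∧
      tb k n (C.sd (n + 1) (single ω 1)) = C.sd n (tb k n (single ω 1)) := fun ω hω => by
    have := h (range ω) _ (cl_fl (range ω) n _ (single_mem_supported k 1 ⟨Subset.rfl, hω.2⟩))
    exact pick_spec (d := tb k n) (z := C.sd n ∘ₗ tb k n) (a := ω)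
      (N := fun ω => supported k k (Fl R' (C.up (range ω)) (n + 1)))
      (C.ac _ (finite_range ω) (range_nonempty ω) hω.2 n _ this.1 (this.2 (tb_rc n _)))
  exact fun c hc => ⟨mem_of (fun ω hω => supported_mono (Fl.mono (C.up_mono hω.1) _) (key ω hω).1) hc,
    eq_of (F := tb k n ∘ₗ C.sd (n + 1)) (F' := C.sd n ∘ₗ tb k n) (fun ω hω => (key ω hω).2) hc⟩

theorem sd_spec : ∀ n U, ∀ c ∈ supported k k (Fl R U n),
    C.sd n c ∈ supported k k (Fl R' (C.up U) n) ∧
      (c ∈ rc (tb k) (ta k) n → C.sd n c ∈ rc (tb k) (ta k) n)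
  | 0, U, c, hc => by
    refine ⟨mem_of (fun ω hω => ?_) hc, fun h => (ta_tm C.j c).trans h⟩
    rw [sd, tm_single]
    refine single_mem_supported k 1 ⟨?_, ?_⟩
    · rintro _ ⟨i, rfl⟩
      exact (C.car_j _).trans (singleton_subset_iff.2 (hω.1 ⟨i, rfl⟩))
    · rintro _ ⟨i, rfl⟩ _ ⟨i', rfl⟩
      rw [Fin.fin_one_eq_zero i, Fin.fin_one_eq_zero i']
      exact C.refl _
  | n + 1, U, c, hc => by
    have := C.sd_step (sd_spec n) U c hc
    refine ⟨this.1, fun h => this.2.trans ?_⟩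
    rw [show tb k n c = 0 from h, map_zero]

theorem tb_sd {n : ℕ} {U : Set S} {c : Tu S (n + 1) →₀ k} (hc : c ∈ supported k k (Fl R U (n + 1))) :
    tb k n (C.sd (n + 1) c) = C.sd n (tb k n c) := (C.sd_step (C.sd_spec n) U c hc).2

/-- the carrier of a tuple -/
def cu {n : ℕ} (t : Tu P n) : Set S := ⋃ i, C.car (t i)

theorem ap_fl {n : ℕ} {U : Set S} {t : Tu P n} (h : t ∈ Fl R' (C.up U) n) : C.ap ∘ t ∈ Fl R U n :=
  ⟨by rintro _ ⟨i, rfl⟩; exact h.1 ⟨i, rfl⟩ (C.ap_mem _), by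
    rintro _ ⟨i, rfl⟩ _ ⟨i', rfl⟩
    exact C.cq _ _ (h.2 _ ⟨i, rfl⟩ _ ⟨i', rfl⟩) _ (C.ap_mem _) _ (C.ap_mem _)⟩

theorem tm_fl {n : ℕ} {U : Set S} {c : Tu P n →₀ k} (h : c ∈ supported k k (Fl R' (C.up U) n)) :
    tm k C.ap n c ∈ supported k k (Fl R U n) :=
  mem_of (fun t ht => by rw [tm_single]; exact single_mem_supported k 1 (C.ap_fl ht)) h

/-- the homotopy, composed with the boundary -/
def hp : ∀ n, (Tu P n →₀ k) →ₗ[k] (Tu P n →₀ k)
  | 0 => 0
  | n + 1 => pick (tb k n) (LinearMap.id - C.sd n ∘ₗ tm k C.ap n - hp n)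
      (fun t => supported k k (Fl R' (C.up (C.cu t)) (n + 1))) ∘ₗ tb k n

/-- the homotopy -/
def ho (n : ℕ) : (Tu P n →₀ k) →ₗ[k] (Tu P (n + 1) →₀ k) :=
  pick (tb k n) (LinearMap.id - C.sd n ∘ₗ tm k C.ap n - C.hp n)
    fun t => supported k k (Fl R' (C.up (C.cu t)) (n + 1))

theorem hp_succ (n : ℕ) (c : Tu P (n + 1) →₀ k) : C.hp (n + 1) c = C.ho n (tb k n c) := rfl

theorem hp_tb : ∀ (n : ℕ) (c : Tu P (n + 1) →₀ k), C.hp n (tb k n c) = 0
  | 0, _ => rfl
  | n + 1, c => by rw [hp_succ, tb_tb, map_zero]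

theorem ho_step {n : ℕ} (h : ∀ U, ∀ c ∈ supported k k (Fl R' (C.up U) n),
    C.hp n c ∈ supported k k (Fl R' (C.up U) n) ∧
      c - C.sd n (tm k C.ap n c) - C.hp n c ∈ rc (tb k) (ta k) n) (U : Set S) :
    ∀ c ∈ supported k k (Fl R' (C.up U) n), C.ho n c ∈ supported k k (Fl R' (C.up U) (n + 1)) ∧
      tb k n (C.ho n c) = c - C.sd n (tm k C.ap n c) - C.hp n c := by
  have key : ∀ t ∈ Fl R' (C.up U) n, C.ho n (single t 1) ∈
      supported k k (Fl R' (C.up (C.cu t)) (n + 1)) ∧ tb k n (C.ho n (single t 1)) =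
        (LinearMap.id (R := k) (M := Tu P n →₀ k) - C.sd n ∘ₗ tm k C.ap n - C.hp n) (single t 1) :=
      fun t ht => by
    have m : single t (1 : k) ∈ supported k k (Fl R' (C.up (C.cu t)) n) :=
      single_mem_supported k 1 ⟨by
        rintro _ ⟨i, rfl⟩; exact subset_iUnion (fun i => C.car (t i)) i, ht.2⟩
    have := h _ _ m
    refine pick_spec (d := tb k n) (z := LinearMap.id - C.sd n ∘ₗ tm k C.ap n - C.hp n) (a := t)
      (N := fun t => supported k k (Fl R' (C.up (C.cu t)) (n + 1)))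
      (C.ac (C.cu t) (finite_iUnion fun i => C.fin _)
      ⟨_, mem_iUnion.2 ⟨0, C.ap_mem _⟩⟩ ?_ n _
      (sub_mem (sub_mem m (C.sd_spec n _ _ (C.tm_fl m)).1) this.1) this.2)
    intro x hx y hy
    obtain ⟨i, hi⟩ := mem_iUnion.1 hx
    obtain ⟨i', hi'⟩ := mem_iUnion.1 hy
    exact C.cq _ _ (ht.2 _ ⟨i, rfl⟩ _ ⟨i', rfl⟩) _ hi _ hi'
  exact fun c hc => ⟨mem_of (fun t ht => supported_mono (Fl.mono (C.up_mono
      (iUnion_subset fun i => ht.1 ⟨i, rfl⟩)) _) (key t ht).1) hc,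
    eq_of (F := tb k n ∘ₗ C.ho n) (fun t ht => (key t ht).2) hc⟩

theorem hp_spec : ∀ n U, ∀ c ∈ supported k k (Fl R' (C.up U) n),
    C.hp n c ∈ supported k k (Fl R' (C.up U) n) ∧
      c - C.sd n (tm k C.ap n c) - C.hp n c ∈ rc (tb k) (ta k) n
  | 0, U, c, _ => ⟨zero_mem _, show ta k (c - tm k C.j 0 _ - 0) = 0 by
      rw [sub_zero, map_sub, ta_tm, ta_tm, sub_self]⟩
  | n + 1, U, c, hc => by
    have := C.ho_step (hp_spec n) U _ (cl_fl _ n c hc)
    refine ⟨this.1, show tb k n _ = 0 from ?_⟩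
    rw [map_sub, map_sub, hp_succ, this.2, C.tb_sd (C.tm_fl hc), tb_tm, hp_tb, sub_zero, sub_self]

variable {A : Type} [AddCommGroup A] [Module k A] {n : ℕ} {U : Set S}

/-- the cochain on the base -/
def dn (ψ : Tu P n → A) (ω : Tu S n) : A := linearCombination k ψ (C.sd n (single ω 1))

theorem lc_dn (ψ : Tu P n → A) (c : Tu S n →₀ k) :
    linearCombination k (C.dn ψ) c = linearCombination k ψ (C.sd n c) :=
  tu_ext (T := linearCombination k ψ ∘ₗ C.sd n) (fun τ => by simp [dn]) c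

theorem td_dn {ψ : Tu P n → A} (h : ∀ v ∈ CT R' (C.up U) (n + 1), td k ψ v = 0) :
    ∀ v ∈ CT R U (n + 1), td k (C.dn ψ) v = 0 := fun v hv => by
  have m : single v (1 : k) ∈ supported k k (Fl R U (n + 1)) := single_mem_supported k 1 hv
  rw [td_eq, lc_dn, ← C.tb_sd m, lc_tb]
  exact lc_zero h (C.sd_spec _ U _ m).1

theorem eq_dn {ψ : Tu P n → A} (h : ∀ v ∈ CT R' (C.up U) (n + 1), td k ψ v = 0) :
    ∀ t ∈ CT R' (C.up U) n, ψ t = C.dn ψ (C.ap ∘ t) + linearCombination k ψ (C.hp n (single t 1)) :=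
  fun t ht => by
  have := C.ho_step (C.hp_spec n) U _ (single_mem_supported k (1 : k) (show t ∈ Fl _ _ _ from ht))
  have e := lc_zero h this.1
  rw [← lc_tb, this.2, map_sub, map_sub, tm_single, linearCombination_single, one_smul, sub_sub,
    sub_eq_zero] at e
  exact e

/-- **closed zero-cochains are pulled back** -/
theorem pull0 {ψ : Tu P 0 → A} (h : ∀ v ∈ CT R' (C.up U) 1, td k ψ v = 0) :
    ∃ φ : Tu S 0 → A, (∀ v ∈ CT R U 1, td k φ v = 0) ∧ ∀ t ∈ CT R' (C.up U) 0, ψ t = φ (C.ap ∘ t) :=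
  ⟨C.dn ψ, C.td_dn h, fun t ht => (C.eq_dn h t ht).trans (by
    rw [show C.hp 0 (single t 1) = 0 from rfl, map_zero, add_zero])⟩

/-- **cocycles are pulled back up to coboundaries** -/
theorem pull {ψ : Tu P (n + 1) → A} (h : ∀ v ∈ CT R' (C.up U) (n + 2), td k ψ v = 0) :
    ∃ (φ : Tu S (n + 1) → A) (η : Tu P n → A), (∀ v ∈ CT R U (n + 2), td k φ v = 0) ∧
      ∀ t ∈ CT R' (C.up U) (n + 1), ψ t = φ (C.ap ∘ t) + td k η t := by
  refine ⟨C.dn ψ, fun u => linearCombination k ψ (C.ho n (single u 1)), C.td_dn h, fun t ht => ?_⟩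
  rw [C.eq_dn h t ht, td_eq, hp_succ]
  congr 1
  exact (tu_ext (T := linearCombination k ψ ∘ₗ C.ho n) (fun τ => by simp) _).symm

theorem ap_ct {t : Tu P n} (h : t ∈ CT R' (C.up U) n) : C.ap ∘ t ∈ CT R U n := C.ap_fl h

end Ca

theorem td_comp {A : Type} [AddCommGroup A] [Module k A] {n : ℕ} (f : P → S) (η : Tu S n → A)
    (t : Tu P (n + 1)) : td k (fun u => η (f ∘ u)) t = td k η (f ∘ t) := rfl

/-- the subdivision of a four-coloured flag complex has acyclic carriers -/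
def Pr.ca (k : Type) [CommRing k] {V : Type} {G : SimpleGraph V} {col : V → Fin 4} (h : Pr G col)
    (ap : PS.PV G.IsClique → V) (hap : ∀ a, ap a ∈ PS.car a) :
    Ca k (fun a b => a = b ∨ G.Adj a b) (RP G) where
  car := PS.car
  ap := ap
  j v := PS.corner v (by simp)
  refl _ := .inl rfl
  ap_mem := hap
  car_j v := (PS.car_corner v _).subset
  fin := PS.car_finite
  cq a b r x hx y hy := or_iff_not_imp_left.2 fun e => by
    rcases r with rfl | r
    exacts [PS.car_face a hx hy e, r.1 (.inl hx) (.inr hy) e]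
  ac s hf hne hq := by
    classical
    lift s to Finset V using hf
    exact (h.nev_up (fun x hx y hy e => (hq x hx y hy).resolve_left e) (Finset.coe_nonempty.1 hne)).ac
      (fun _ => .inl rfl) fun _ _ r => r.imp Eq.symm SimpleGraph.Adj.symm

end Crest.Agent.N233.Pb

end
private theorem rz_8aea553cbb : type_of% @_root_.Crest.Agent.N233.Pb.Ca.sd.eq_def := @_root_.Crest.Agent.N233.Pb.Ca.sd.eq_def -- L41
private theorem rz_d822c4c98a : type_of% @_root_.Crest.Agent.N233.Pb.Ca.sd.eq_1 := @_root_.Crest.Agent.N233.Pb.Ca.sd.eq_1 -- L41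
end

-- ▼ part N233/Pb/Md
section

/-!
# Row 233 (helper40): the model cocycles pull back to a subdivision
-/

set_option autoImplicit false
open Set

noncomputable section

namespace Crest.Agent.N233.Pb

open N255 N255.Nv N255.En N255.Pt N255.Lv

variable {ι S P : Type} [DecidableEq ι] [MulAction (FreeGroup ι) S] [MulAction (FreeGroup ι) P]

/-- the walls `w'` subdivide the walls `w` -/
structure Sw (w' : Wl ι P) (w : Wl ι S) extends Ca ℤ (En.Cl w.Γ) (En.Cl w'.Γ) where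
  mem_T : ∀ e a, a ∈ w'.T e ↔ car a ⊆ w.T e
  mem_B : ∀ e a, a ∈ w'.B e ↔ (car a ∩ w.B e).Nonempty
  ap_smul : ∀ (f : FreeGroup ι) a, ap (f • a) = f • ap a

namespace Sw
variable {w' : Wl ι P} {w : Wl ι S} (C : Sw w' w)

theorem ap_nB {e : Ed ι} {a : P} (h : a ∉ w'.B e) : C.ap a ∉ w.B e :=
  fun k => h ((C.mem_B e a).2 ⟨_, C.ap_mem a, k⟩)


theorem ap_cl {a b : P} (h : En.Cl w'.Γ a b) : En.Cl w.Γ (C.ap a) (C.ap b) :=
  C.cq a b h _ (C.ap_mem a) _ (C.ap_mem b)

theorem T_eq (e : Ed ι) : w'.T e = C.up (w.T e) := Set.ext (C.mem_T e)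

theorem mod_eq (J : Finset (Ed ι)) : w'.Mod J = C.up (w.Mod J) :=
  Set.ext fun a => ⟨fun h x hx e he k => h e he ((C.mem_B e a).2 ⟨x, hx, k⟩),
    fun h e he k => let ⟨_, hx, k⟩ := (C.mem_B e a).1 k; h hx e he k⟩


/-- **the model cocycles of the subdivision** -/
def md (M : Md w) : Md w' where
  mer e a b := M.mer e (C.ap a) (C.ap b)
  mer_smul f e a b := by rw [C.ap_smul, C.ap_smul, M.mer_smul]
  mer_add e _ _ _ ha hb hc h1 h2 h3 :=
    M.mer_add e _ _ _ (C.ap_nB ha) (C.ap_nB hb) (C.ap_nB hc) (C.ap_cl h1) (C.ap_cl h2) (C.ap_cl h3)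
  mer_zero e e' _ _ h ha hb := M.mer_zero e e' _ _ h (C.ap_nB ha) (C.ap_nB hb)
  ne J hJ := by
    obtain ⟨v, hv⟩ := M.ne J hJ
    exact ⟨C.j v, C.mod_eq J ▸ (C.car_j v).trans (singleton_subset_iff.2 hv)⟩
  h0 J hJ A _ ψ hψ := by
    rw [C.mod_eq] at hψ ⊢
    obtain ⟨φ, h1, h2⟩ := C.pull0 hψ
    obtain ⟨a, ha⟩ := M.h0 J hJ A φ h1
    exact ⟨a, fun v hv => (h2 v hv).trans (ha _ (C.ap_ct hv))⟩
  h1 J hJ A _ ψ hψ := by
    rw [C.mod_eq] at hψ ⊢
    obtain ⟨φ, η, h1, h2⟩ := C.pull hψ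
    obtain ⟨a, θ, ha⟩ := M.h1 J hJ A φ h1
    refine ⟨a, (fun u => θ (C.ap ∘ u)) + η, fun v hv => ?_⟩
    rw [h2 v hv, ha _ (C.ap_ct hv), map_add, Pi.add_apply, td_comp, add_assoc]
    rfl
  h2 e A _ ψ hψ := by
    rw [C.T_eq] at hψ ⊢
    obtain ⟨φ, η, h1, h2⟩ := C.pull hψ
    obtain ⟨a, θ, ha⟩ := M.h2 e A φ h1
    refine ⟨a, (fun u => θ (C.ap ∘ u)) + η, fun v hv => ?_⟩
    rw [h2 v hv, ha _ (C.ap_ct hv), map_add, Pi.add_apply, td_comp, add_assoc]
    rfl

@[simp] theorem md_mer (M : Md w) (e : Ed ι) (a b : P) :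
    (C.md M).mer e a b = M.mer e (C.ap a) (C.ap b) := rfl

end Sw

section ps
variable [Finite ι] [Fact Lo.NevS] (w : Wl ι S) {Γ : SimpleGraph S} (h : w.Γ = Γ)
  [Lo.Inv (FreeGroup ι) Γ] {col : S → Fin 4} (hp : Pr Γ col)
  (hc : ∀ (f : FreeGroup ι) v, col (f • v) = col v)

/-- the walls of `ps X` subdivide the walls of `X` -/
def swPs : Sw (w.psOf h) w where
  car := PS.car
  ap := Lo.ap col
  j := (hp.ca ℤ _ (Lo.ap_mem col)).j
  refl _ := .inl rfl
  ap_mem := Lo.ap_mem col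
  car_j := (hp.ca ℤ _ (Lo.ap_mem col)).car_j
  fin := PS.car_finite
  cq := by rw [h]; exact (hp.ca ℤ _ (Lo.ap_mem col)).cq
  ac := by rw [h]; exact (hp.ca ℤ _ (Lo.ap_mem col)).ac
  mem_T _ _ := Iff.rfl
  mem_B _ _ := Iff.rfl
  ap_smul f a := Lo.ap_pm (Lo.Inv.nd f) (hc f) a (hp.injOn (PS.car_face _))

/-- **the model cocycles of `ps X`** -/
def mdPs (M : Md w) : Md (w.psOf h) := (swPs w h hp hc).md M

@[simp] theorem mdPs_mer (M : Md w) (e : Ed ι) (a b : PS.PV Γ.IsClique) :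
    (mdPs w h hp hc M).mer e a b = M.mer e (Lo.ap col a) (Lo.ap col b) := rfl

end ps

end Crest.Agent.N233.Pb

end
end

-- ▼ part N233/Lo/Pre
section

/-!
# Row 233, block Lo (helper75): a subdivision from acyclic links (acyclic models)
-/

set_option autoImplicit false
set_option linter.unusedSectionVars false
open Finsupp

noncomputable section

namespace Crest.Agent.N233.Lo

open Crest.Agent.N255.Ch

variable {S S' K K' : Type} [DecidableEq S] [DecidableEq S'] [LinearOrder K] [LinearOrder K']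

/-- `x` is an apex of `t` inside `U` -/
def Apx (Γ' : SimpleGraph S') (U t : Finset S') (x : S') : Prop :=
  x ∈ U ∧ x ∉ t ∧ Γ'.IsClique (insert x t : Finset S')

/-- at most one critical cell -/
def One (Γ' : SimpleGraph S') (col' : S' → K') (U t0 : Finset S') : Prop :=
  ∀ s : (Finset S' →₀ ℤ) →ₗ[ℤ] ℤ, (∀ a ∈ Sp (Q Γ' U t0), s (dq Γ' col' U a) = 0) →
    Top (dq Γ' col' U) s (Sp (Q Γ' U t0)) → Ex (dq Γ' col' U) s (Sp (Q Γ' U t0))

/-- the sign free facts about a subdivision -/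
structure Pre (Γ' : SimpleGraph S') (col' : S' → K') (Γ : SimpleGraph S) (col : S → K) where
  car : S' → Finset S
  up : Finset S → Finset S'
  rk : S' → ℕ
  hc' : ∀ s t, Γ'.Adj s t → col' s ≠ col' t
  hc : ∀ s t, Γ.Adj s t → col s ≠ col t
  mem_up : ∀ U a, a ∈ up U ↔ car a ⊆ U
  car_ne : ∀ a, (car a).Nonempty
  clq : ∀ t : Finset S', Γ'.IsClique (t : Set S') → Γ.IsClique (cr car t : Set S)
  dim : ∀ t : Finset S', Γ'.IsClique (t : Set S') → t.card ≤ (cr car t).card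
  nest : ∀ t : Finset S', Γ'.IsClique (t : Set S') → t.Nonempty → ∃ a ∈ t, car a = cr car t
  ext : ∀ τ : Finset S, Γ.IsClique (τ : Set S) → ∀ t ∈ Q Γ' (up τ) ∅, t.card < τ.card →
    ∃ x, Apx Γ' (up τ) t x
  b0 : ∀ τ : Finset S, Γ.IsClique (τ : Set S) → ∀ t ∈ Q Γ' (up τ) ∅, cr car t ≠ τ →
    Ex (dq Γ' col' (up τ)) 0 (Sp (Q Γ' (up τ) t))
  b1 : ∀ τ : Finset S, Γ.IsClique (τ : Set S) → ∀ t ∈ Q Γ' (up τ) ∅, One Γ' col' (up τ) t
  b2 : ∀ τ : Finset S, Γ.IsClique (τ : Set S) → ∀ t ∈ Q Γ' (up τ) ∅, cr car t ≠ τ →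
    One Γ' col' ((up τ).filter fun a => car a ≠ τ) t
  flip : ∀ τ : Finset S, Γ.IsClique (τ : Set S) → ∀ t ∈ Q Γ' (up τ) ∅, t.card = τ.card →
    t.Nonempty → ∃ s ∈ t, (cr car (t.erase s) ≠ τ ∧ ∀ x, Apx Γ' (up τ) (t.erase s) x → x = s) ∨
      (cr car (t.erase s) = τ ∧ ∃ s', rk s' < rk s ∧ s' ≠ s ∧ Apx Γ' (up τ) (t.erase s) s' ∧
        ∀ x, Apx Γ' (up τ) (t.erase s) x → x = s ∨ x = s')

theorem pe_eq {X : Type} {z : X → ℤ} {a b : X →₀ ℤ} (h : ∀ t, z t ≠ 0 → a t = b t) :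
    pe z a = pe z b := by
  rw [← sub_eq_zero, ← map_sub, linearCombination_apply, Finsupp.sum]
  refine Finset.sum_eq_zero fun t _ => ?_
  by_cases e : z t = 0
  · rw [e, smul_zero]
  · rw [Finsupp.sub_apply, h t e, sub_self, zero_smul]

theorem pe_single {X : Type} (z : X → ℤ) (t : X) (r : ℤ) : pe z (single t r) = r * z t :=
  linearCombination_single _ _ _

theorem dq_single_apx {Γ' : SimpleGraph S'} {col' : S' → K'} (U t : Finset S') (z : Finset S' → ℤ)
    (A : Finset S') (h : ∀ x, x ∈ A ↔ Apx Γ' U t x) :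
    pe z (dq Γ' col' U (single t 1)) = ∑ x ∈ A, eps col' x t * z (insert x t) := by
  classical
  rw [dq_single, one_smul, cof, map_sum]
  refine Finset.sum_congr (Finset.ext fun x => ?_) fun x _ => pe_single _ _ _
  rw [h, Finset.mem_filter]; rfl

theorem dq_no_apx {Γ' : SimpleGraph S'} {col' : S' → K'} {U t : Finset S'}
    (h : ∀ x, ¬Apx Γ' U t x) (r : ℤ) : dq Γ' col' U (single t r) = 0 := by
  classical
  rw [dq_single, cof, Finset.sum_eq_zero, smul_zero]
  exact fun x hx => (h x (Finset.mem_filter.1 hx)).elim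

theorem anti {Γ : SimpleGraph S} {col : S → K} (hc : ∀ s t, Γ.Adj s t → col s ≠ col t)
    {τ : Finset S} (hτ : Γ.IsClique (τ : Set S)) (F : Finset S → ℤ) :
    ∑ v ∈ τ, eps col v (τ.erase v) * ∑ w ∈ τ.erase v,
      eps col w ((τ.erase v).erase w) * F ((τ.erase v).erase w) = 0 := by
  let a : Finset S →₀ ℤ := onFinset τ.powerset (fun L => if L ⊆ τ then F L else 0)
    fun L h => Finset.mem_powerset.2 (by_contra fun e => h (if_neg e))
  have h := DFunLike.congr_fun (dq_dq (Γ := Γ) hc τ a) τ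
  rw [dq_apply, if_pos hτ, Finset.inter_self, Finsupp.zero_apply] at h
  rw [← h]
  refine Finset.sum_congr rfl fun v _ => ?_
  rw [dq_apply, if_pos (hτ.subset (by simp)), Finset.inter_eq_left.2 (Finset.erase_subset _ _)]
  congr 1
  refine Finset.sum_congr rfl fun w _ => ?_
  rw [onFinset_apply, if_pos ((Finset.erase_subset _ _).trans (Finset.erase_subset _ _))]

namespace Pre

variable {Γ' : SimpleGraph S'} {col' : S' → K'} {Γ : SimpleGraph S} {col : S → K}
  (P : Pre Γ' col' Γ col)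

theorem sub_up {U : Finset S} {t : Finset S'} : t ⊆ P.up U ↔ cr P.car t ⊆ U := by
  rw [cr, Finset.biUnion_subset]
  exact ⟨fun h a ha => (P.mem_up U a).1 (h ha), fun h a ha => (P.mem_up U a).2 (h a ha)⟩

theorem up_mono {U V : Finset S} (h : U ⊆ V) : P.up U ⊆ P.up V :=
  fun a ha => (P.mem_up V a).2 (((P.mem_up U a).1 ha).trans h)

theorem card_le {τ : Finset S} {t t0 : Finset S'} (h : t ∈ Q Γ' (P.up τ) t0) : t.card ≤ τ.card :=
  (P.dim t h.1).trans (Finset.card_le_card (P.sub_up.1 h.2.2))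

theorem cr_eq {τ : Finset S} {t t0 : Finset S'} (h : t ∈ Q Γ' (P.up τ) t0) (e : t.card = τ.card) :
    cr P.car t = τ :=
  Finset.eq_of_subset_of_card_le (P.sub_up.1 h.2.2) (e ▸ P.dim t h.1)

theorem Apx.mem {U t t0 : Finset S'} {x : S'} (h : Apx Γ' U t x) (ht : t ∈ Q Γ' U t0) :
    insert x t ∈ Q Γ' U t0 :=
  ⟨h.2.2, ht.2.1.trans (Finset.subset_insert _ _), Finset.insert_subset h.1 ht.2.2⟩

theorem no_apx {τ : Finset S} {t t0 : Finset S'} (h : t ∈ Q Γ' (P.up τ) t0) (e : t.card = τ.card)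
    (x : S') : ¬Apx Γ' (P.up τ) t x := fun hx => by
  have := P.card_le (Apx.mem hx h)
  rw [Finset.card_insert_of_notMem hx.2.1] at this
  omega

theorem full {τ : Finset S} (hτ : Γ.IsClique (τ : Set S)) (m : ℕ) : ∀ t0 ∈ Q Γ' (P.up τ) ∅,
    t0.card + m = τ.card → ∃ t ∈ Q Γ' (P.up τ) t0, t.card = τ.card := by
  induction m with
  | zero => exact fun t0 h0 e => ⟨t0, ⟨h0.1, subset_rfl, h0.2.2⟩, e⟩
  | succ m ih =>
    intro t0 h0 e
    obtain ⟨x, hx⟩ := P.ext τ hτ t0 h0 (by omega)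
    obtain ⟨t, ht, c⟩ := ih _ (Apx.mem hx h0) (by rw [Finset.card_insert_of_notMem hx.2.1]; omega)
    exact ⟨t, ⟨ht.1, (Finset.subset_insert _ _).trans ht.2.1, ht.2.2⟩, c⟩

theorem full' {τ : Finset S} (hτ : Γ.IsClique (τ : Set S)) {t0 : Finset S'}
    (h : t0 ∈ Q Γ' (P.up τ) ∅) : ∃ t ∈ Q Γ' (P.up τ) t0, t.card = τ.card :=
  P.full hτ (τ.card - t0.card) t0 h (by have := P.card_le h; omega)

open Classical in
/-- the fundamental chains -/
def gN : ℕ → Finset S → Finset S' → ℤ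
  | 0, _, t => if t = ∅ then 1 else 0
  | n + 1, τ, t =>
    if h : t.card = n + 1 ∧ ∃ a ∈ Sp (Q Γ' (P.up τ) ∅), dq Γ' col' (P.up τ) a = single t 1 then
      ∑ v ∈ τ, eps col v (τ.erase v) * pe (gN n (τ.erase v)) h.2.choose else 0

/-- the fundamental chain of `τ` -/
def g (τ : Finset S) : Finset S' → ℤ := P.gN τ.card τ

/-- the fundamental chain of the boundary -/
def zz (τ : Finset S) : (Finset S' →₀ ℤ) →ₗ[ℤ] ℤ :=
  ∑ v ∈ τ, eps col v (τ.erase v) • pe (P.g (τ.erase v))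

theorem zz_apply (τ : Finset S) (a : Finset S' →₀ ℤ) :
    P.zz τ a = ∑ v ∈ τ, eps col v (τ.erase v) * pe (P.g (τ.erase v)) a := by
  simp [zz]

theorem gN_sup {n : ℕ} {τ : Finset S} {t : Finset S'} (h : P.gN n τ t ≠ 0) :
    t ∈ Q Γ' (P.up τ) ∅ ∧ t.card = n := by
  cases n with
  | zero =>
    rw [gN] at h
    obtain rfl : t = ∅ := by_contra fun e => h (if_neg e)
    exact ⟨⟨by simp, subset_rfl, Finset.empty_subset _⟩, rfl⟩
  | succ n =>
    rw [gN] at h
    split_ifs at h with e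
    · obtain ⟨e1, a, ha, e2⟩ := e
      exact ⟨mem_Sp.1 (e2 ▸ cl_Q _ _ a ha) t (by simp), e1⟩
    · exact absurd rfl h

theorem g_sup {τ : Finset S} {t : Finset S'} (h : P.g τ t ≠ 0) :
    t ∈ Q Γ' (P.up τ) ∅ ∧ t.card = τ.card := P.gN_sup h

theorem g_cr {τ : Finset S} {t : Finset S'} (h : P.g τ t ≠ 0) : cr P.car t = τ :=
  P.cr_eq (P.g_sup h).1 (P.g_sup h).2

theorem g_empty : P.g ∅ ∅ = 1 := by simp [g, gN]


theorem g_top {τ : Finset S} (hτ : Γ.IsClique (τ : Set S)) (hn : τ.Nonempty) {t : Finset S'}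
    (ht : t ∈ Q Γ' (P.up τ) ∅) (e : t.card = τ.card) :
    ∃ a ∈ Sp (Q Γ' (P.up τ) ∅), dq Γ' col' (P.up τ) a = single t 1 ∧ P.g τ t = P.zz τ a := by
  obtain ⟨n, hn'⟩ : ∃ n, τ.card = n + 1 := ⟨τ.card - 1, by have := hn.card_pos; omega⟩
  have h : t.card = n + 1 ∧ ∃ a ∈ Sp (Q Γ' (P.up τ) ∅), dq Γ' col' (P.up τ) a = single t 1 :=
    ⟨e.trans hn', P.b0 τ hτ ∅ ⟨by simp, subset_rfl, Finset.empty_subset _⟩ hn.ne_empty.symm _
      (single_mem ht 1) (dq_no_apx (P.no_apx ht e) 1) rfl⟩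
  refine ⟨h.2.choose, h.2.choose_spec.1, h.2.choose_spec.2, ?_⟩
  rw [g, hn', gN, dif_pos h, zz_apply]
  refine Finset.sum_congr rfl fun v hv => ?_
  rw [g, Finset.card_erase_of_mem hv, hn', Nat.add_sub_cancel]

theorem pe_g_dq {τ : Finset S} {U : Finset S'} (h : P.up τ ⊆ U) (a : Finset S' →₀ ℤ) :
    pe (P.g τ) (dq Γ' col' U a) = pe (P.g τ) (dq Γ' col' (P.up τ) a) :=
  pe_eq fun _ ht => (dq_restrict h a (P.g_sup ht).1.2.2).symm

theorem zz_single {τ : Finset S} {t : Finset S'} (h : P.zz τ (single t 1) ≠ 0) :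
    ∃ v ∈ τ, P.g (τ.erase v) t ≠ 0 := by
  rw [zz_apply] at h
  obtain ⟨v, hv, h⟩ := Finset.exists_ne_zero_of_sum_ne_zero h
  rw [pe_single, one_mul] at h
  exact ⟨v, hv, right_ne_zero_of_mul h⟩

/-- **Stokes** -/
theorem stokes (n : ℕ) : ∀ τ : Finset S, τ.card = n → Γ.IsClique (τ : Set S) → ∀ a,
    pe (P.g τ) (dq Γ' col' (P.up τ) a) = P.zz τ a := by
  induction n with
  | zero =>
    intro τ e _ a
    obtain rfl := Finset.card_eq_zero.1 e
    rw [zz_apply, Finset.sum_empty, pe_eq (b := 0) fun t ht => ?_, map_zero]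
    obtain rfl := Finset.card_eq_zero.1 (P.g_sup ht).2
    rw [dq_apply]; simp
  | succ n ih =>
    intro τ e hτ a
    have hn : τ.Nonempty := Finset.card_pos.1 (by omega)
    have z0 : ∀ a, P.zz τ (dq Γ' col' (P.up τ) a) = 0 := fun a => by
      rw [zz_apply, ← anti P.hc hτ fun L => pe (P.g L) a]
      refine Finset.sum_congr rfl fun v hv => ?_
      rw [P.pe_g_dq (P.up_mono (Finset.erase_subset _ _)),
        ih _ (by rw [Finset.card_erase_of_mem hv]; omega) (hτ.subset (by simp)), zz_apply]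
    have lift : ∀ b ∈ Sp {t | t ∈ Q Γ' (P.up τ) ∅ ∧ t.card = τ.card},
        ∃ c ∈ Sp (Q Γ' (P.up τ) ∅), dq Γ' col' (P.up τ) c = b ∧ pe (P.g τ) b = P.zz τ c := by
      intro b hb
      rw [Sp, supported_eq_span_single] at hb
      induction hb using Submodule.span_induction with
      | mem x hx =>
        obtain ⟨t, ht, rfl⟩ := hx
        obtain ⟨c, h1, h2, h3⟩ := P.g_top hτ hn ht.1 ht.2
        exact ⟨c, h1, h2, by rw [pe_single, one_mul, h3]⟩
      | zero => exact ⟨0, Submodule.zero_mem _, map_zero _, by simp⟩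
      | add x y _ _ hx hy =>
        obtain ⟨c, h1, h2, h3⟩ := hx
        obtain ⟨d, k1, k2, k3⟩ := hy
        exact ⟨c + d, Submodule.add_mem _ h1 k1, by rw [map_add, h2, k2], by
          rw [map_add, map_add, h3, k3]⟩
      | smul r x _ hx =>
        obtain ⟨c, h1, h2, h3⟩ := hx
        exact ⟨r • c, Submodule.smul_mem _ _ h1, by rw [map_smul, h2], by
          rw [map_smul, map_smul, h3]⟩
    induction a using Finsupp.induction_linear with
    | zero => simp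
    | add a b ha hb => simp only [map_add, ha, hb]
    | single t r =>
      rw [← mul_one r, ← smul_eq_mul, ← smul_single, map_smul, map_smul, map_smul]
      congr 1
      by_cases ht : t ∈ Q Γ' (P.up τ) ∅ ∧ t.card = n
      · obtain ⟨c, h1, h2, h3⟩ := lift (dq Γ' col' (P.up τ) (single t 1)) (mem_Sp.2 fun u hu => by
          obtain ⟨h1, s, h2, h3, rfl⟩ := dq_ne hu
          exact ⟨Apx.mem ⟨h2, h3, h1⟩ ht.1, by rw [Finset.card_insert_of_notMem h3, ht.2, e]⟩)
        obtain ⟨d, -, hd⟩ := P.b0 τ hτ ∅ ⟨by simp, subset_rfl, Finset.empty_subset _⟩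
          hn.ne_empty.symm _ (Submodule.sub_mem _ h1 (single_mem ht.1 1))
          (by rw [map_sub, h2, sub_self]) rfl
        rw [h3, ← sub_eq_zero, ← map_sub, ← hd, z0]
      · rw [pe_eq (b := 0) fun u hu => ?_, map_zero]
        · by_contra h
          obtain ⟨v, hv, h⟩ := P.zz_single (Ne.symm h)
          obtain ⟨h1, h2⟩ := P.g_sup h
          exact ht ⟨⟨h1.1, h1.2.1, h1.2.2.trans (P.up_mono (Finset.erase_subset _ _))⟩, by
            rw [h2, Finset.card_erase_of_mem hv]; omega⟩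
        · by_contra h
          obtain ⟨h1, s, h2, h3, rfl⟩ := dq_ne h
          obtain ⟨k1, k2⟩ := P.g_sup hu
          rw [Finset.card_insert_of_notMem h3] at k2
          exact ht ⟨⟨h1.subset (by simp), Finset.empty_subset _,
            (Finset.subset_insert _ _).trans k1.2.2⟩, by omega⟩

theorem zz_face {τ : Finset S} {v : S} (hv : v ∈ τ) {t : Finset S'} (h : cr P.car t = τ.erase v) :
    P.zz τ (single t 1) = eps col v (τ.erase v) * P.g (τ.erase v) t := by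
  rw [zz_apply, Finset.sum_eq_single_of_mem v hv, pe_single, one_mul]
  intro w hw e
  rw [pe_single, one_mul]
  by_contra c
  have := (P.g_cr (right_ne_zero_of_mul c)).symm.trans h
  exact Finset.notMem_erase v τ (this ▸ Finset.mem_erase.2 ⟨e.symm, hv⟩)

theorem zz_int {τ : Finset S} {t : Finset S'} (h : ∀ v ∈ τ, cr P.car t ≠ τ.erase v) :
    P.zz τ (single t 1) = 0 := by
  by_contra c
  obtain ⟨v, hv, c⟩ := P.zz_single c
  exact h v hv (P.g_cr c)

theorem exists_erase {τ c : Finset S} (h : c ⊆ τ) (e : c ≠ τ) (l : τ.card ≤ c.card + 1) :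
    ∃ v ∈ τ, c = τ.erase v := by
  obtain ⟨v, hv, hn⟩ := Finset.exists_of_ssubset (Finset.ssubset_iff_subset_ne.2 ⟨h, e⟩)
  refine ⟨v, hv, Finset.eq_of_subset_of_card_le (Finset.subset_erase.2 ⟨h, hn⟩) ?_⟩
  rw [Finset.card_erase_of_mem hv]; omega

/-- the coefficients are units -/
theorem unit (n : ℕ) : ∀ τ : Finset S, τ.card = n → Γ.IsClique (τ : Set S) →
    ∀ t ∈ Q Γ' (P.up τ) ∅, t.card = τ.card → P.g τ t * P.g τ t = 1 := by
  induction n with
  | zero =>
    intro τ e _ t _ ht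
    obtain rfl := Finset.card_eq_zero.1 e
    obtain rfl := Finset.card_eq_zero.1 ht
    rw [g_empty, mul_one]
  | succ n ih =>
    intro τ e hτ t ht c
    induction h : ∑ a ∈ t, P.rk a using Nat.strong_induction_on generalizing t with
    | _ m ihm =>
    obtain ⟨s, hs, hf⟩ := P.flip τ hτ t ht c (Finset.card_pos.1 (by omega))
    have hu : t.erase s ∈ Q Γ' (P.up τ) ∅ := ⟨ht.1.subset (by simp), Finset.empty_subset _,
      (Finset.erase_subset _ _).trans ht.2.2⟩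
    have a0 : Apx Γ' (P.up τ) (t.erase s) s := ⟨ht.2.2 hs, Finset.notMem_erase _ _, by
      rw [Finset.insert_erase hs]; exact ht.1⟩
    have cu : (t.erase s).card = n := by rw [Finset.card_erase_of_mem hs]; omega
    have st := P.stokes _ τ rfl hτ (single (t.erase s) 1)
    rcases hf with ⟨h1, h2⟩ | ⟨h1, s', h2, h3, h4, h5⟩
    · obtain ⟨v, hv, k⟩ := exists_erase (P.sub_up.1 hu.2.2) h1
        (by have := P.dim _ hu.1; omega)
      rw [dq_single_apx _ _ _ {s} (fun x => by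
        rw [Finset.mem_singleton]; exact ⟨fun e => e ▸ a0, h2 x⟩), Finset.sum_singleton,
        Finset.insert_erase hs, P.zz_face hv k] at st
      have c' : (τ.erase v).card = n := by rw [Finset.card_erase_of_mem hv]; omega
      have := ih _ c' (hτ.subset (by simp)) (t.erase s)
        ⟨hu.1, hu.2.1, P.sub_up.2 k.subset⟩ (cu.trans c'.symm)
      have e1 := eps_mul_self (col := col') s (t.erase s)
      have e2 := eps_mul_self (col := col) v (τ.erase v)
      calc _ = (eps col' s (t.erase s) * P.g τ t) * (eps col' s (t.erase s) * P.g τ t) := by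
            rw [mul_mul_mul_comm, e1, one_mul]
        _ = 1 := by rw [st, mul_mul_mul_comm, e2, this, one_mul]
    · rw [dq_single_apx _ _ _ {s, s'} (fun x => by
        rw [Finset.mem_insert, Finset.mem_singleton]
        exact ⟨fun e => e.elim (fun e => e ▸ a0) fun e => e ▸ h4, h5 x⟩), Finset.sum_pair h3.symm,
        Finset.insert_erase hs, P.zz_int fun v hv k => Finset.notMem_erase v τ (by
          rw [← k, h1]; exact hv)] at st
      have := ihm _ (by
        rw [Finset.sum_insert h4.2.1, ← h, ← Finset.add_sum_erase _ _ hs]; omega) _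
        (Apx.mem h4 hu) (by rw [Finset.card_insert_of_notMem h4.2.1]; omega) rfl
      have e1 := eps_mul_self (col := col') s (t.erase s)
      have e2 := eps_mul_self (col := col') s' (t.erase s)
      calc _ = (eps col' s (t.erase s) * P.g τ t) * (eps col' s (t.erase s) * P.g τ t) := by
            rw [mul_mul_mul_comm, e1, one_mul]
        _ = 1 := by
            rw [eq_neg_of_add_eq_zero_left st, neg_mul_neg, mul_mul_mul_comm, e2, this, one_mul]

theorem fu_eq (τ : Finset S) : fu P.car (fun t => P.g (cr P.car t) t) τ = P.g τ := by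
  funext t
  unfold fu
  split_ifs with h
  · exact congrArg (fun x => P.g x t) h
  · exact (by_contra fun e => h (P.g_cr (Ne.symm e)))

theorem top1 {τ : Finset S} (hτ : Γ.IsClique (τ : Set S)) {t0 : Finset S'}
    (h : t0 ∈ Q Γ' (P.up τ) ∅) : Top (dq Γ' col' (P.up τ)) (pe (P.g τ)) (Sp (Q Γ' (P.up τ) t0)) := by
  obtain ⟨t, ht, c⟩ := P.full' hτ h
  exact ⟨single t (P.g τ t), single_mem ht _, dq_no_apx (P.no_apx ht c) _, by
    rw [pe_single, P.unit _ τ rfl hτ t ⟨ht.1, Finset.empty_subset _, ht.2.2⟩ c]⟩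

theorem cr_mono {t u : Finset S'} (h : t ⊆ u) : cr P.car t ⊆ cr P.car u :=
  Finset.biUnion_subset_biUnion_of_subset_left _ h

theorem car_sub {t : Finset S'} {a : S'} (h : a ∈ t) : P.car a ⊆ cr P.car t :=
  Finset.subset_biUnion_of_mem P.car h

theorem mem_bd {τ : Finset S} (hn : τ.Nonempty) {t t0 : Finset S'} :
    t ∈ Q Γ' ((P.up τ).filter fun a => P.car a ≠ τ) t0 ↔ t ∈ Q Γ' (P.up τ) t0 ∧ cr P.car t ≠ τ := by
  constructor
  · rintro ⟨h1, h2, h3⟩
    refine ⟨⟨h1, h2, h3.trans (Finset.filter_subset _ _)⟩, fun e => ?_⟩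
    rcases t.eq_empty_or_nonempty with rfl | ht
    · exact hn.ne_empty e.symm
    · obtain ⟨a, ha, k⟩ := P.nest t h1 ht
      exact (Finset.mem_filter.1 (h3 ha)).2 (k.trans e)
  · rintro ⟨⟨h1, h2, h3⟩, e⟩
    exact ⟨h1, h2, fun a ha => Finset.mem_filter.2 ⟨h3 ha, fun k =>
      e (Finset.Subset.antisymm (P.sub_up.1 h3) (k ▸ P.car_sub ha))⟩⟩

theorem zz_eq {τ : Finset S} {a b : Finset S' →₀ ℤ}
    (h : ∀ t ∈ Q Γ' (P.up τ) ∅, cr P.car t ≠ τ → a t = b t) : P.zz τ a = P.zz τ b := by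
  rw [zz_apply, zz_apply]
  refine Finset.sum_congr rfl fun v hv => ?_
  rw [pe_eq fun t ht => h t ?_ fun e => ?_]
  · have := (P.g_sup ht).1
    exact ⟨this.1, this.2.1, this.2.2.trans (P.up_mono (Finset.erase_subset _ _))⟩
  · exact Finset.notMem_erase v τ (by rw [← P.g_cr ht, e]; exact hv)

theorem ex {τ : Finset S} (hτ : Γ.IsClique (τ : Set S)) {t0 : Finset S'}
    (h : t0 ∈ Q Γ' (P.up τ) ∅) :
    Ex (dq Γ' col' (P.up τ)) (pe (P.g τ)) (Sp (Q Γ' (P.up τ) t0 ∩ {t | cr P.car t = τ})) := by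
  by_cases e : cr P.car t0 = τ
  · have k : ∀ t ∈ Q Γ' (P.up τ) t0, cr P.car t = τ := fun t ht =>
      Finset.Subset.antisymm (P.sub_up.1 ht.2.2) (e ▸ P.cr_mono ht.2.1)
    rw [Set.inter_eq_left.2 (show Q Γ' (P.up τ) t0 ⊆ {t | cr P.car t = τ} from k)]
    refine P.b1 τ hτ t0 h _ (fun a ha => ?_) (P.top1 hτ h)
    rw [P.stokes _ τ rfl hτ, P.zz_eq (b := 0) fun t _ c => ?_, map_zero]
    exact by_contra fun c' => c (k t (mem_Sp.1 ha t c'))
  have hn : τ.Nonempty := Finset.nonempty_iff_ne_empty.2 fun c =>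
    e (Finset.subset_empty.1 (c ▸ P.sub_up.1 h.2.2) |>.trans c.symm)
  intro b hb hd hs
  set W := (P.up τ).filter fun a => P.car a ≠ τ with hW
  have hWU : W ⊆ P.up τ := Finset.filter_subset _ _
  have hQ : Q Γ' W t0 ⊆ Q Γ' (P.up τ) t0 := fun t ht => ((P.mem_bd hn).1 ht).1
  obtain ⟨a, ha, rfl⟩ := P.b0 τ hτ t0 h e b (Sp_mono Set.inter_subset_left hb) hd rfl
  have z0 : ∀ f, P.zz τ (dq Γ' col' W f) = 0 := fun f => by
    rw [P.zz_eq (b := dq Γ' col' (P.up τ) f) fun t ht c =>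
      dq_restrict hWU f ((P.mem_bd hn).2 ⟨ht, c⟩).2.2, ← P.stokes _ τ rfl hτ, dq_dq P.hc', map_zero]
  have rr : ∀ t ∈ Q Γ' W ∅, rs (Q Γ' W t0) a t = a t := fun t ht => by
    by_cases c : t ∈ Q Γ' W t0
    · exact rs_of_mem a c
    · rw [rs_of_notMem a c]
      exact by_contra fun c' => c ⟨ht.1, (mem_Sp.1 ha t (Ne.symm c')).2.1, ht.2.2⟩
  obtain ⟨f, hf, ef⟩ := P.b2 τ hτ t0 h e (P.zz τ) (fun f _ => z0 f) (by
      obtain ⟨v, hv, hv'⟩ := Finset.exists_of_ssubset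
        (Finset.ssubset_iff_subset_ne.2 ⟨P.sub_up.1 h.2.2, e⟩)
      have hc : Γ.IsClique (τ.erase v : Finset S) := hτ.subset (by simp)
      obtain ⟨t, ht, c⟩ := P.full' hc (t0 := t0) ⟨h.1, h.2.1,
        P.sub_up.2 (Finset.subset_erase.2 ⟨P.sub_up.1 h.2.2, hv'⟩)⟩
      have k := P.cr_eq ht c
      have hm : t ∈ Q Γ' W t0 := (P.mem_bd hn).2 ⟨⟨ht.1, ht.2.1,
        ht.2.2.trans (P.up_mono (Finset.erase_subset _ _))⟩, fun c' =>
          Finset.notMem_erase v τ (by rw [← k, c']; exact hv)⟩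
      refine ⟨single t (eps col v (τ.erase v) * P.g (τ.erase v) t), single_mem hm _,
        dq_no_apx (fun x hx => ?_) _, ?_⟩
      · have := (P.mem_bd hn).1 (Apx.mem hx hm)
        refine this.2 (P.cr_eq this.1 ?_)
        rw [Finset.card_insert_of_notMem hx.2.1, c, Finset.card_erase_add_one hv]
      · rw [← mul_one (_ * _), ← smul_eq_mul, ← smul_single, map_smul, P.zz_face hv k, smul_eq_mul,
          mul_mul_mul_comm, eps_mul_self, one_mul]
        exact P.unit _ _ rfl hc t ⟨ht.1, Finset.empty_subset _, ht.2.2⟩ c)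
    (rs (Q Γ' W t0) a) (rs_mem _ _) (by
      ext t
      by_contra c
      have ht := mem_Sp.1 (cl_Q W t0 _ (rs_mem _ a)) t c
      refine c ?_
      have : dq Γ' col' W (rs (Q Γ' W t0) a) t = dq Γ' col' W a t := by
        rw [dq_apply, dq_apply, if_pos ht.1, if_pos ht.1]
        refine Finset.sum_congr rfl fun s _ => ?_
        rw [rr _ ⟨ht.1.subset (by simp), Finset.empty_subset _,
          (Finset.erase_subset _ _).trans ht.2.2⟩]
      rw [this, dq_restrict hWU a ht.2.2]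
      exact by_contra fun c' => ((P.mem_bd hn).1 ht).2 (mem_Sp.1 hb t c').2)
    (by rw [P.zz_eq (b := a) fun t ht c => rr t ((P.mem_bd hn).2 ⟨ht, c⟩),
      ← P.stokes _ τ rfl hτ, hs])
  have hf' := cl_Q (col := col') (P.up τ) t0 f (Sp_mono hQ hf)
  refine ⟨a - dq Γ' col' (P.up τ) f, mem_Sp.2 fun t ht => ?_, by
    rw [map_sub, dq_dq P.hc', sub_zero]⟩
  have h1 := mem_Sp.1 (Submodule.sub_mem _ ha hf') t ht
  refine ⟨h1, by_contra fun c => ht ?_⟩
  have h2 := (P.mem_bd hn).2 ⟨h1, c⟩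
  rw [Finsupp.sub_apply, ← dq_restrict hWU f h2.2.2, ef, rs_of_mem a h2, sub_self]

/-- **the subdivision** -/
def sd : Sd Γ' col' Γ col where
  car := P.car
  up := P.up
  σ t := P.g (cr P.car t) t
  mem_up := P.mem_up
  car_ne := P.car_ne
  clq := P.clq
  dim := P.dim
  σ_card _ _ h := (P.g_sup h).2
  top τ hτ t0 h := by
    obtain ⟨t, ht, c⟩ := P.full' hτ h
    refine ⟨t, ht, P.cr_eq ht c, ?_⟩
    rw [P.cr_eq ht c]
    exact mul_self_eq_one_iff.1 (P.unit _ τ rfl hτ t ⟨ht.1, Finset.empty_subset _, ht.2.2⟩ c)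
  chain τ hτ t _ := by
    rw [fu_eq, P.stokes _ τ rfl hτ, zz_apply, dq_apply, if_pos hτ, Finset.inter_self,
      Finset.mul_sum]
    refine Finset.sum_congr rfl fun v _ => ?_
    rw [pe_single, one_mul]
    by_cases e : cr P.car t = τ.erase v
    · rw [e, single_eq_same]; ring
    · rw [single_eq_of_ne' e, by_contra fun c => e (P.g_cr c)]; ring
  ex τ hτ t0 h := by rw [fu_eq]; exact P.ex hτ h

end Pre

end Crest.Agent.N233.Lo

end
private theorem rz_bbc69dafc1 : type_of% @_root_.Crest.Agent.N233.Lo.Pre.gN.eq_def := @_root_.Crest.Agent.N233.Lo.Pre.gN.eq_def -- L137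
private theorem rz_fabcc5e131 : type_of% @_root_.Crest.Agent.N233.Lo.Pre.gN.eq_1 := @_root_.Crest.Agent.N233.Lo.Pre.gN.eq_1 -- L137
end

-- ▼ part N233/Lo/Bs
section

/-!
# Row 233, block Lo (helper75): the block is a subdivision of the tetrahedron
-/

set_option autoImplicit false

noncomputable section

namespace Crest.Agent.N233.Lo

open PS Crest.Agent.N255 Crest.Agent.N255.Da Crest.Agent.N255.Ch

theorem bts_sound {p : ℕ → Bool} (n : ℕ) : ∀ B, bts p n B = true → ∀ v, B.testBit v → p v = true := by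
  induction n with
  | zero => intro B h v hv; rw [bts, beq_iff_eq] at h; simp [h] at hv
  | succ n ih =>
    intro B h v hv
    by_cases e : B = 0
    · simp [e] at hv
    rw [bts, frc_eq, beq_false_of_ne e, cond_false, frc_eq, Bool.and_eq_true] at h
    by_cases c : low B = v
    · exact c ▸ h.1
    · exact ih _ h.2 v (by rw [Nat.testBit_xor, Nat.testBit_two_pow_of_ne c, Bool.xor_false, hv])

/-- the conclusion of the loop -/
def Con (f : List ℕ → Bool) (t : List ℕ) (B : ℕ) : Prop :=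
  ∀ σ : Finset (Fin 116), BG.IsClique (σ : Set (Fin 116)) → (∀ s ∈ σ, B.testBit s) →
    ∃ l : List (Fin 116), l.Nodup ∧ (∀ a, a ∈ l ↔ a ∈ σ) ∧ f (l.map Fin.val ++ t) = true

theorem lp_step {f : List ℕ → Bool} {t : List ℕ} {B : ℕ} (h0 : f t = true)
    (h : ∀ v : Fin 116, B.testBit v → Con f (v :: t) ((B &&& mk v) % 2 ^ v.val)) : Con f t B := by
  intro σ hc hB
  rcases σ.eq_empty_or_nonempty with rfl | hne
  · exact ⟨[], List.nodup_nil, by simp, h0⟩
  obtain ⟨v, hv, hm⟩ := σ.exists_max_image Fin.val hne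
  obtain ⟨l, h1, h2, h3⟩ := h v (hB v hv) (σ.erase v)
    (hc.subset (by simp)) fun s hs => by
      obtain ⟨e, hs⟩ := Finset.mem_erase.1 hs
      have l : s.val < v.val := (hm s hs).lt_of_ne (Fin.val_injective.ne e)
      have a : (mk v).testBit s = true := hc hv hs e.symm
      rw [Nat.testBit_mod_two_pow, Nat.testBit_and, hB s hs, a]
      simp [l]
  refine ⟨l ++ [v], ?_, fun a => ?_, by simpa using h3⟩
  · rw [List.nodup_append]
    refine ⟨h1, List.nodup_singleton _, fun a ha b hb => ?_⟩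
    rw [List.mem_singleton.1 hb]
    exact (Finset.mem_erase.1 ((h2 a).1 ha)).1
  · rw [List.mem_append, h2, List.mem_singleton, Finset.mem_erase]
    by_cases e : a = v <;> simp [e, hv]

theorem lp_sound {f : List ℕ → Bool} (d : ℕ) : ∀ t B, lp f d t B = true → Con f t B := by
  induction d with
  | zero =>
    intro t B h σ _ hB
    rw [lp, Bool.and_eq_true, beq_iff_eq] at h
    obtain rfl : σ = ∅ := Finset.eq_empty_of_forall_notMem fun s hs => by simpa [h.1] using hB s hs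
    exact ⟨[], List.nodup_nil, by simp, h.2⟩
  | succ d ih =>
    intro t B h
    rw [lp, frc_eq, Bool.and_eq_true] at h
    exact lp_step h.1 fun v hv => ih _ _ (bts_sound _ _ h.2 _ hv)

theorem con_all {k : ℕ} (h : k < 16) : Con (okk k) [] (MM k) := by
  by_cases e : k = 15
  · subst e
    exact lp_step chkE fun v _ => lp_sound _ _ _ (chkF v.2)
  · exact lp_sound _ _ _ (List.all_eq_true.1 chkC _ (List.mem_range.2 (by omega)))

/-- the code of a face -/
def km (τ : Finset (Fin 4)) : ℕ := ∑ t ∈ τ, 2 ^ t.val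

theorem km_lt : ∀ τ, km τ < 16 := by decide
theorem km_bit : ∀ τ (t : Fin 4), (km τ).testBit t = decide (t ∈ τ) := by decide
theorem km_inj : ∀ a b, km a = km b → a = b := by decide
theorem km_union : ∀ a b, km (a ∪ b) = km a ||| km b := by decide
theorem km_sub : ∀ a b, km a &&& km b = km a ↔ a ⊆ b := by decide
theorem pc_km : ∀ τ, pc (km τ) = τ.card := by decide
theorem bits4 : ∀ a < 16, ∀ b < 16, (∀ t : Fin 4, a.testBit t = b.testBit t) → a = b := by decide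

theorem sm_eq (i : Fin 116) : sm i = km (bc i) := by
  have := List.all_eq_true.1 chkA i (mem_R.2 i.2)
  rw [Bool.and_eq_true, Nat.blt_eq, List.all_eq_true] at this
  refine bits4 _ this.1 _ (km_lt _) fun t => ?_
  rw [km_bit, beq_iff_eq.1 (this.2 t (List.mem_range.2 t.2)), Bool.eq_iff_iff]
  simp [bc, vt, dec_eq_zero]

/-- the vertices carried by a face -/
def bu (τ : Finset (Fin 4)) : Finset (Fin 116) := Finset.univ.filter fun i => bc i ⊆ τ

theorem MM_bit (τ : Finset (Fin 4)) (i : Fin 116) : (MM (km τ)).testBit i ↔ i ∈ bu τ := by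
  have := List.all_eq_true.1 chkB _ (List.mem_range.2 (km_lt τ))
  rw [Bool.and_eq_true, List.all_eq_true] at this
  rw [beq_iff_eq.1 (this.2 i (mem_R.2 i.2)), sm_eq, beq_iff_eq, km_sub]
  simp [bu]

theorem BM_bit (τ : Finset (Fin 4)) (i : Fin 116) :
    (BM (km τ)).testBit i ↔ i ∈ (bu τ).filter fun a => bc a ≠ τ := by
  have := List.all_eq_true.1 chkD _ (List.mem_range.2 (km_lt τ))
  rw [Bool.and_eq_true, List.all_eq_true] at this
  rw [beq_iff_eq.1 (this.2 i (mem_R.2 i.2)), sm_eq, Bool.and_eq_true, beq_iff_eq, km_sub,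
    bne_iff_ne]
  simp only [bu, Finset.mem_filter, Finset.mem_univ, true_and]
  exact and_congr_right fun _ => not_congr ⟨km_inj _ _, congrArg km⟩

theorem bit_lt {A k : ℕ} (h : A < 2 ^ 116) (hk : A.testBit k) : k < 116 := by
  by_contra c
  rw [Nat.testBit_lt_two_pow (h.trans_le (Nat.pow_le_pow_right two_pos (not_lt.1 c)))] at hk
  exact Bool.false_ne_true hk

theorem MM_lt (k : ℕ) : MM k < 2 ^ 116 := Nat.mod_lt _ (by positivity)

theorem code : Code BG Fin.val mk (2 ^ 116 - 1) :=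
  ⟨Fin.val_injective, fun _ _ => Iff.rfl, fun k hk =>
    ⟨⟨k, bit_lt (Nat.sub_lt (by positivity) one_pos) hk⟩, rfl⟩⟩

theorem cm_eq {l : List (Fin 116)} {σ : Finset (Fin 116)} (h : ∀ a, a ∈ l ↔ a ∈ σ) :
    cm (l.map Fin.val) = km (cr bc σ) := by
  obtain rfl : l.toFinset = σ := by ext a; rw [List.mem_toFinset, h]
  clear h
  induction l with
  | nil => rfl
  | cons a l ih =>
    rw [List.toFinset_cons, cr, Finset.biUnion_insert, km_union, ← sm_eq]
    exact congrArg (sm a ||| ·) ih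

theorem lk_bit (M : ℕ) (l : List (Fin 116)) (k : ℕ) :
    (lk M (l.map Fin.val)).testBit k ↔ M.testBit k ∧ ∀ s ∈ l, (mk s).testBit k := by
  induction l with
  | nil => simp [lk]
  | cons a l ih =>
    rw [List.map_cons, lk, List.foldr_cons, Nat.testBit_and, Bool.and_eq_true]
    rw [lk] at ih
    rw [ih, List.forall_mem_cons]
    tauto

theorem apx_iff {U t : Finset (Fin 116)} (ht : BG.IsClique (t : Set (Fin 116))) {x : Fin 116} :
    Apx BG U t x ↔ x ∈ U ∧ ∀ s ∈ t, (mk s).testBit x := by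
  refine and_congr_right fun _ => ⟨fun h s hs => ?_, fun h => ⟨fun c => BG.irrefl (h x c), ?_⟩⟩
  · exact h.2 (by simp [hs]) (by simp) fun e => h.1 (e ▸ hs)
  · rw [Finset.coe_insert]
    exact ht.insert fun b hb _ => (show BG.Adj b x from h b hb).symm

section one
variable {τ : Finset (Fin 4)} {σ : Finset (Fin 116)} {l : List (Fin 116)}

theorem lk_apx (hσ : BG.IsClique (σ : Set (Fin 116))) (h : ∀ a, a ∈ l ↔ a ∈ σ) (x : Fin 116) :
    (lk (MM (km τ)) (l.map Fin.val)).testBit x ↔ Apx BG (bu τ) σ x := by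
  rw [lk_bit, MM_bit, apx_iff hσ]
  simp only [h]

theorem lk_sub (l : List (Fin 116)) : Sub (lk (MM (km τ)) (l.map Fin.val)) (2 ^ 116 - 1) :=
  fun k hk => by
    rw [Nat.testBit_two_pow_sub_one, decide_eq_true_iff]
    exact bit_lt (MM_lt _) ((lk_bit _ _ _).1 hk).1

theorem lk_of {U : Finset (Fin 116)} (hσ : σ ∈ Q BG U ∅) {A : ℕ}
    (h : ∀ x : Fin 116, A.testBit x ↔ Apx BG U σ x) : Lk BG U σ (S Fin.val A) :=
  ⟨hσ.1, hσ.2.2, fun a => by
    rw [mem_S, h]
    refine and_congr_right fun _ => and_congr_right fun e => ⟨fun c r hr =>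
      c (by simp) (by simp [hr]) fun e' => e (e' ▸ hr), fun c => ?_⟩
    rw [Finset.coe_insert]
    exact hσ.1.insert fun b hb _ => c b hb⟩

theorem get (hσ : σ ∈ Q BG (bu τ) ∅) : ∃ l : List (Fin 116), l.Nodup ∧ (∀ a, a ∈ l ↔ a ∈ σ) ∧
    l.length = σ.card ∧ ok (km τ) (MM (km τ)) (BM (km τ)) τ.card (l.map Fin.val) = true := by
  obtain ⟨l, h1, h2, h3⟩ := con_all (km_lt τ) σ hσ.1 fun s hs => (MM_bit τ s).2 (hσ.2.2 hs)
  refine ⟨l, h1, h2, ?_, by simpa [okk, pc_km] using h3⟩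
  rw [← List.toFinset_card_of_nodup h1]
  congr 1
  ext a; rw [List.mem_toFinset, h2]

theorem hcB : ∀ s t : Fin 116, BG.Adj s t → id s ≠ id t := fun _ _ h => h.ne

theorem facts (hσ : σ ∈ Q BG (bu τ) ∅) :
    σ.card ≤ (cr bc σ).card ∧ (σ.card < τ.card → ∃ x, Apx BG (bu τ) σ x) ∧
    (∃ A, Lk BG (bu τ) σ A ∧ Gd BG (eps id) σ A (if cr bc σ = τ then 1 else 0)) ∧
    (σ.card = τ.card → σ.Nonempty → ∃ s ∈ σ,
      (cr bc (σ.erase s) ≠ τ ∧ ∀ x, Apx BG (bu τ) (σ.erase s) x → x = s) ∨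
      (cr bc (σ.erase s) = τ ∧ ∃ s' : Fin 116, s'.val < s.val ∧ s' ≠ s ∧
        Apx BG (bu τ) (σ.erase s) s' ∧ ∀ x, Apx BG (bu τ) (σ.erase s) x → x = s ∨ x = s')) ∧
    (σ.Nonempty → ∃ a ∈ σ, bc a = cr bc σ) ∧
    (cr bc σ ≠ τ → ∃ A, Lk BG ((bu τ).filter fun a => bc a ≠ τ) σ A ∧ Gd BG (eps id) σ A 1) := by
  obtain ⟨l, h1, h2, h3, h⟩ := get hσ
  have hA := lk_apx (τ := τ) hσ.1 h2
  have hs := lk_sub (τ := τ) l
  have hl := lk_of hσ hA
  simp only [ok, frc_eq, cm_eq h2, List.length_map, h3, pc_km, Bool.and_eq_true, Bool.or_eq_true,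
    Nat.ble_eq, Nat.blt_eq, List.any_eq_true, List.mem_map, beq_iff_eq, List.isEmpty_iff,
    List.map_eq_nil_iff] at h
  obtain ⟨⟨⟨⟨⟨k1, k2⟩, k3⟩, k4⟩, k5⟩, k6⟩ := h
  have ne : σ.Nonempty → l ≠ [] := fun ⟨a, ha⟩ e => by simpa [e] using (h2 a).2 ha
  refine ⟨k1, fun c => ?_, ⟨_, hl, ?_⟩, fun c hn => ?_, fun hn => ?_, fun c => ?_⟩
  · have : lk (MM (km τ)) (l.map Fin.val) ≠ 0 := by simpa using k2.resolve_left c.not_ge
    obtain ⟨k, hk⟩ := Nat.exists_testBit_of_ne_zero this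
    obtain ⟨v, rfl⟩ := code.sur k (hs k hk)
    exact ⟨v, (hA v).1 hk⟩
  · rw [rn, rnL_eq] at k3
    have k : (bif km (cr bc σ) == km τ then 1 else 0) = if cr bc σ = τ then 1 else 0 := by
      by_cases e : cr bc σ = τ
      · simp [e]
      · rw [if_neg e, beq_false_of_ne fun c => e (km_inj _ _ c), cond_false]
    rw [k] at k3
    exact (code.runL_sound eps_mul_self _ _ _ _ σ hs hl.ok
      (k3.trans_lt (by split_ifs <;> norm_num))).mono k3
  · obtain ⟨_, ⟨s, hs', rfl⟩, k⟩ := k4.resolve_left (by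
      rintro (c' | c'); exacts [c'.ne c, ne hn c'])
    have m2 : ∀ a, a ∈ l.erase s ↔ a ∈ σ.erase s := fun a => by
      rw [h1.mem_erase_iff, h2, Finset.mem_erase]
    have cl : BG.IsClique (σ.erase s : Finset (Fin 116)) := hσ.1.subset (by simp)
    have hB := lk_apx (τ := τ) cl m2
    have hs2 := lk_sub (τ := τ) (l.erase s)
    have a0 : Apx BG (bu τ) (σ.erase s) s := ⟨hσ.2.2 ((h2 s).1 hs'), Finset.notMem_erase _ _, by
      rw [Finset.insert_erase ((h2 s).1 hs')]; exact hσ.1⟩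
    rw [flp, frc_eq, frc_eq, ← List.map_erase Fin.val_injective, cm_eq m2] at k
    generalize lk (MM (km τ)) ((l.erase s).map Fin.val) = B at k hB hs2
    refine ⟨s, (h2 s).1 hs', ?_⟩
    by_cases e : cr bc (σ.erase s) = τ
    · rw [e, beq_self_eq_true, cond_true, Bool.and_eq_true, beq_iff_eq, Nat.blt_eq] at k
      generalize low (B ^^^ 2 ^ s.val) = j at k
      have b : ∀ x, B.testBit x = ((decide (j = x)) ^^ decide (s.val = x)) := fun x => by
        have := congrArg (fun m => Nat.testBit m x) k.1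
        simp only [Nat.testBit_xor, Nat.testBit_two_pow] at this
        rw [← this]; simp
      refine .inr ⟨e, ⟨j, k.2.trans s.2⟩, k.2, fun c => k.2.ne (congrArg Fin.val c),
        (hB _).1 (by rw [b]; simp [k.2.ne']), fun x hx => ?_⟩
      have := (hB x).2 hx
      rw [b] at this
      by_cases c : s.val = x.val
      · exact .inl (Fin.ext c.symm)
      · exact .inr (Fin.ext (by simpa [c, eq_comm] using this))
    · rw [beq_false_of_ne fun c => e (km_inj _ _ c), cond_false, beq_iff_eq] at k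
      refine .inl ⟨e, fun x hx => ?_⟩
      have := (hB x).2 hx
      rw [k, Nat.testBit_two_pow, decide_eq_true_iff] at this
      exact Fin.ext this.symm
  · obtain ⟨_, ⟨a, ha, rfl⟩, k⟩ := k5.resolve_left (ne hn)
    exact ⟨a, (h2 a).1 ha, km_inj _ _ ((sm_eq a).symm.trans k)⟩
  · have k := k6.resolve_left fun e => c (km_inj _ _ e)
    rw [rn0_eq] at k
    have hσ' : σ ∈ Q BG ((bu τ).filter fun a => bc a ≠ τ) ∅ := ⟨hσ.1, hσ.2.1, fun a ha =>
      Finset.mem_filter.2 ⟨hσ.2.2 ha, fun e => c (Finset.Subset.antisymm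
        (Finset.biUnion_subset.2 fun b hb => (Finset.mem_filter.1 (hσ.2.2 hb)).2)
        (e ▸ Finset.subset_biUnion_of_mem bc ha))⟩⟩
    have hl' := lk_of hσ' (A := lk (MM (km τ)) (l.map Fin.val) &&& BM (km τ)) fun x => by
      rw [Nat.testBit_and, Bool.and_eq_true, hA, BM_bit]
      exact ⟨fun e => ⟨e.2, e.1.2⟩, fun e => ⟨⟨(Finset.mem_filter.1 e.1).1, e.2⟩, e.1⟩⟩
    exact ⟨_, hl', (code.run_sound eps_mul_self _ _ _ σ (hs.land _) hl'.ok
      (k.trans_lt (by norm_num))).mono k⟩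

end one

theorem mem_univ' {t : Finset (Fin 116)} (h : BG.IsClique (t : Set (Fin 116))) :
    t ∈ Q BG (bu Finset.univ) ∅ := ⟨h, Finset.empty_subset _, fun _ _ => by simp [bu]⟩

/-- the sign free facts about the block -/
def preB : Pre BG id (⊤ : SimpleGraph (Fin 4)) id where
  car := bc
  up := bu
  rk := Fin.val
  hc' := hcB
  hc _ _ h := h
  mem_up _ _ := by simp [bu]
  car_ne a := Finsupp.support_nonempty_iff.2 (vx_vt (mem_R.2 a.2)).ne_zero
  clq _ _ _ _ _ _ h := h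
  dim _ h := (facts (mem_univ' h)).1
  nest _ h := (facts (mem_univ' h)).2.2.2.2.1
  ext _ _ _ h := (facts h).2.1
  b0 _ _ _ h e _ hb hd _ := by
    obtain ⟨A, h1, h2⟩ := (facts h).2.2.1
    rw [if_neg e] at h2
    exact h2.ex0 h1 hcB hb hd
  b1 _ _ _ h s fd top := by
    obtain ⟨A, h1, h2⟩ := (facts h).2.2.1
    exact (h2.mono (by split_ifs <;> norm_num)).ex1 h1 hcB s fd top
  b2 _ _ _ h e s fd top := by
    obtain ⟨A, h1, h2⟩ := (facts h).2.2.2.2.2 e
    exact h2.ex1 h1 hcB s fd top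
  flip _ _ _ h := (facts h).2.2.2.1

/-- **the block facts** -/
theorem blkS : BlkS := ⟨preB.sd, rfl⟩

end Crest.Agent.N233.Lo

end
end

-- ▼ part N255/En/TmD

/-!
# Row 255 (helper86): the finite data give an abstract model
-/

set_option autoImplicit false

noncomputable section

namespace Crest.Agent.N255.En

open Set Pt Lv

variable {ι I Tor K : Type} [DecidableEq ι] [Fintype ι] [Fintype I] [Fintype Tor] [DecidableEq I]
  [DecidableEq Tor] {D : Dt ι I Tor K} {w : Wl ι (Pt.St ι I Tor)}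

/-- the model of finite data -/
def IsW.tm (hw : IsW D w) : TM D.mir w where
  Γ_eq := hw.Γ
  ρ_eq _ _ := rfl
  src_eq := rfl
  tgt_eq := rfl
  nd := nd
  nd_smul := nd_smul
  mem_T _ _ := hw.T ▸ mem_supE
  mem_B _ _ := hw.B ▸ mem_A
  sp_tgt _ _ := hw.T ▸ mem_sp
  sp_none v a := by
    refine mem_sp.trans ⟨by rintro ⟨b, rfl⟩; exact en_cp v b, ?_⟩
    obtain ⟨u, a | ⟨i, t⟩⟩ := a
    · intro h
      obtain rfl : v = u := en_none.1 h
      exact ⟨.inl a, rfl⟩
    · rintro (rfl | ⟨j, h, rfl⟩)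
      · exact ⟨.inr ((i, true), t), rfl⟩
      · obtain rfl : i = j := Option.some.inj h
        exact ⟨.inr ((i, false), t), L.ext (og_op u (i, true)) rfl⟩

theorem isW : IsW Da.D wl := ⟨rfl, rfl, rfl⟩

/-- **the model of the data** -/
def tmD : TM Da.D.mir wl := isW.tm

end Crest.Agent.N255.En

end
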